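import Vale.Agent.P167.H161.ArmP
import Vale.Agent.P167.H192.Dict2
import Vale.Agent.P167.H174.LA
import Vale.Agent.P167.E6.Defs

/-!
# P167, block CG6: arms in the plane and crossings of conformal half-annuli

* `zp δ s`: the point of the plane of `E6` at the site `s` of the squares model: `zp δ (ro u)` is
  the vertex `u`, `zp δ (rf f)` is the centre of the face `f`.
* `arm_plane`: one-arm bound for Euclidean discs.
* `exists_trace`: the trace of a lattice path.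
* `crsw`: crossings of a conformal half-annulus by lattice paths inside the domain.
-/

namespace Vale.Agent.P167.H161

open MeasureTheory Set Relation
open Vale.Agent.P145.FB (PStep)
open Vale.Agent.P167.H166
open scoped ENNReal Real

/-- The point of the plane at the site `s` of the squares model. -/
noncomputable def zp (δ : ℝ) (s : ℤ × ℤ) : ℂ :=
  ⟨δ * ((s.1 + s.2 : ℤ) : ℝ) / 2, δ * ((s.2 - s.1 : ℤ) : ℝ) / 2⟩

theorem zp_ro (δ : ℝ) (u : ℤ × ℤ) : zp δ (H192.ro u) = (δ : ℂ) * E6.pt u := by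
  apply Complex.ext
  · simp only [zp, H192.ro, E6.pt, Complex.mul_re, Complex.ofReal_re, Complex.ofReal_im]
    push_cast
    ring
  · simp only [zp, H192.ro, E6.pt, Complex.mul_im, Complex.ofReal_re, Complex.ofReal_im]
    push_cast
    ring

theorem zp_rf (δ : ℝ) (f : ℤ × ℤ) : zp δ (H192.rf f) = (δ : ℂ) * (E6.pt f + ⟨1 / 2, 1 / 2⟩) := by
  apply Complex.ext
  · simp only [zp, H192.rf, E6.pt, Complex.mul_re, Complex.ofReal_re, Complex.ofReal_im,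
      Complex.add_re, Complex.add_im]
    push_cast
    ring
  · simp only [zp, H192.rf, E6.pt, Complex.mul_im, Complex.ofReal_re, Complex.ofReal_im,
      Complex.add_re, Complex.add_im]
    push_cast
    ring

theorem zp_re (δ : ℝ) (s : ℤ × ℤ) : (zp δ s).re = δ * ((s.1 : ℝ) + s.2) / 2 := by
  simp only [zp]; push_cast; ring

theorem zp_im (δ : ℝ) (s : ℤ × ℤ) : (zp δ s).im = δ * ((s.2 : ℝ) - s.1) / 2 := by
  simp only [zp]; push_cast; ring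

/-- The real coordinates of a point in the lattice of sites. -/
theorem dist_zp_sq {δ : ℝ} (hδ : 0 < δ) (s : ℤ × ℤ) (z : ℂ) :
    2 * (dist (zp δ s) z) ^ 2 = δ ^ 2 * (((s.1 : ℝ) - (z.re - z.im) / δ) ^ 2 +
      ((s.2 : ℝ) - (z.re + z.im) / δ) ^ 2) := by
  rw [Complex.dist_eq, ← Complex.normSq_eq_norm_sq, Complex.normSq_apply, Complex.sub_re,
    Complex.sub_im, zp_re, zp_im]
  field_simp
  ring

/-- One step has length `δ`. -/
theorem dist_zp_step {δ : ℝ} (hδ : 0 < δ) {F : Set (ℤ × ℤ)} {s t : ℤ × ℤ} (h : PStep F s t) :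
    dist (zp δ s) (zp δ t) = δ := by
  obtain ⟨h1, h2, -⟩ := h
  have h3 : (dist (zp δ s) (zp δ t)) ^ 2 = δ ^ 2 := by
    rw [Complex.dist_eq, ← Complex.normSq_eq_norm_sq, Complex.normSq_apply, Complex.sub_re,
      Complex.sub_im, zp_re, zp_im, zp_re, zp_im]
    have e1 : (t.1 : ℝ) = s.1 + 1 ∨ (t.1 : ℝ) = s.1 - 1 := by
      rcases h1 with h | h
      · left; rw [h]; push_cast; ring
      · right; rw [h]; push_cast; ring
    have e2 : (t.2 : ℝ) = s.2 + 1 ∨ (t.2 : ℝ) = s.2 - 1 := by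
      rcases h2 with h | h
      · left; rw [h]; push_cast; ring
      · right; rw [h]; push_cast; ring
    rcases e1 with e1 | e1 <;> rcases e2 with e2 | e2 <;> rw [e1, e2] <;> ring
  exact (sq_eq_sq₀ dist_nonneg hδ.le).1 h3

/-- The arm event in the plane. -/
def ArmZ (δ : ℝ) (z : ℂ) (r R : ℝ) (e : ℤ) (F : Set (ℤ × ℤ)) : Prop :=
  ∃ s t : ℤ × ℤ, (s.1 + s.2) % 2 = e ∧ dist (zp δ s) z ≤ r ∧ R ≤ dist (zp δ t) z ∧
    ReflTransGen (PStep F) s t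

theorem ArmZ.mono {δ : ℝ} {z : ℂ} {r R : ℝ} {e : ℤ} {F F' : Set (ℤ × ℤ)} (h : F ⊆ F')
    (hA : ArmZ δ z r R e F) : ArmZ δ z r R e F' := by
  obtain ⟨s, t, h1, h2, h3, h4⟩ := hA
  exact ⟨s, t, h1, h2, h3, rtg_mono h h4⟩

/-- From the plane to the lattice. -/
theorem arm_of_armZ {δ : ℝ} (hδ : 0 < δ) {z : ℂ} {r R : ℝ} {e : ℤ} {F : Set (ℤ × ℤ)}
    (h : ArmZ δ z r R e F) : Arm (⌊(z.re - z.im) / δ⌋, ⌊(z.re + z.im) / δ⌋) ⌈3 * r / (2 * δ)⌉
      ⌊R / δ⌋ e F := by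
  obtain ⟨s, t, h1, h2, h3, h4⟩ := h
  set A := (z.re - z.im) / δ with hA
  set B := (z.re + z.im) / δ with hB
  have fA := Int.floor_le A
  have fA' := Int.lt_floor_add_one A
  have fB := Int.floor_le B
  have fB' := Int.lt_floor_add_one B
  refine ⟨s, t, h1, ?_, ?_, h4⟩
  · have e1 := dist_zp_sq hδ s z
    rw [← hA, ← hB] at e1
    have hr : 0 ≤ r := dist_nonneg.trans h2
    have e2 : (dist (zp δ s) z) ^ 2 ≤ r ^ 2 := pow_le_pow_left₀ dist_nonneg h2 2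
    have e3 := Int.le_ceil (3 * r / (2 * δ))
    -- both coordinates are close
    have key : ∀ c d : ℝ, δ ^ 2 * (c ^ 2 + d ^ 2) ≤ 2 * r ^ 2 → |c| ≤ 3 * r / (2 * δ) := by
      intro c d h
      rw [← abs_of_nonneg (show 0 ≤ 3 * r / (2 * δ) by positivity), ← sq_le_sq, div_pow, le_div_iff₀
        (by positivity)]
      nlinarith [mul_nonneg (sq_nonneg δ) (sq_nonneg d), sq_nonneg r]
    have k1 := key _ _ (by linarith : δ ^ 2 * (((s.1 : ℝ) - A) ^ 2 + ((s.2 : ℝ) - B) ^ 2) ≤ 2 * r ^ 2)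
    have k2 := key ((s.2 : ℝ) - B) ((s.1 : ℝ) - A) (by linarith)
    rw [abs_le] at k1 k2
    simp only [nm, Prod.fst_sub, Prod.snd_sub, max_le_iff, abs_le]
    refine ⟨⟨?_, ?_⟩, ⟨?_, ?_⟩⟩
    · have : -((⌈3 * r / (2 * δ)⌉ : ℝ) + 1) ≤ (s.1 : ℝ) - (⌊A⌋ : ℝ) := by linarith
      exact_mod_cast this
    · have : (s.1 : ℝ) - (⌊A⌋ : ℝ) ≤ (⌈3 * r / (2 * δ)⌉ : ℝ) + 1 := by linarith
      exact_mod_cast this
    · have : -((⌈3 * r / (2 * δ)⌉ : ℝ) + 1) ≤ (s.2 : ℝ) - (⌊B⌋ : ℝ) := by linarith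
      exact_mod_cast this
    · have : (s.2 : ℝ) - (⌊B⌋ : ℝ) ≤ (⌈3 * r / (2 * δ)⌉ : ℝ) + 1 := by linarith
      exact_mod_cast this
  · have e1 := dist_zp_sq hδ t z
    rw [← hA, ← hB] at e1
    rcases lt_or_ge R 0 with hR | hR
    · have : ⌊R / δ⌋ ≤ 0 := by
        rw [← Int.floor_zero (R := ℝ)]
        exact Int.floor_le_floor (div_nonpos_of_nonpos_of_nonneg hR.le hδ.le)
      have h0 : 0 ≤ nm (t - (⌊A⌋, ⌊B⌋)) := le_max_of_le_left (abs_nonneg _)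
      omega
    have e2 : R ^ 2 ≤ (dist (zp δ t) z) ^ 2 := pow_le_pow_left₀ hR h3 2
    have e3 := Int.floor_le (R / δ)
    by_contra hlt
    push Not at hlt
    simp only [nm, Prod.fst_sub, Prod.snd_sub, max_lt_iff, abs_lt] at hlt
    obtain ⟨⟨g1, g2⟩, g3, g4⟩ := hlt
    have g1' : -((⌊R / δ⌋ : ℝ) - 2) ≤ (t.1 : ℝ) - (⌊A⌋ : ℝ) := by
      have : -(⌊R / δ⌋ - 2) ≤ t.1 - ⌊A⌋ := by omega
      exact_mod_cast this
    have g2' : (t.1 : ℝ) - (⌊A⌋ : ℝ) ≤ (⌊R / δ⌋ : ℝ) - 2 := by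
      have : t.1 - ⌊A⌋ ≤ ⌊R / δ⌋ - 2 := by omega
      exact_mod_cast this
    have g3' : -((⌊R / δ⌋ : ℝ) - 2) ≤ (t.2 : ℝ) - (⌊B⌋ : ℝ) := by
      have : -(⌊R / δ⌋ - 2) ≤ t.2 - ⌊B⌋ := by omega
      exact_mod_cast this
    have g4' : (t.2 : ℝ) - (⌊B⌋ : ℝ) ≤ (⌊R / δ⌋ : ℝ) - 2 := by
      have : t.2 - ⌊B⌋ ≤ ⌊R / δ⌋ - 2 := by omega
      exact_mod_cast this
    have a1 : ((t.1 : ℝ) - A) ^ 2 < (R / δ) ^ 2 := by
      apply sq_lt_sq'
      · linarith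
      · linarith
    have a2 : ((t.2 : ℝ) - B) ^ 2 < (R / δ) ^ 2 := by
      apply sq_lt_sq'
      · linarith
      · linarith
    have a3 : δ ^ 2 * (R / δ) ^ 2 = R ^ 2 := by field_simp
    have : δ ^ 2 * (((t.1 : ℝ) - A) ^ 2 + ((t.2 : ℝ) - B) ^ 2) < 2 * R ^ 2 := by
      have hδ2 : 0 < δ ^ 2 := by positivity
      nlinarith [mul_lt_mul_of_pos_left a1 hδ2, mul_lt_mul_of_pos_left a2 hδ2]
    linarith

/-- **One arm in the plane**, Euclidean form. -/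
theorem arm_plane : ∃ C α : ℝ, 0 < C ∧ 0 < α ∧ ∀ (δ : ℝ), 0 < δ → ∀ (z : ℂ) (r R : ℝ), δ ≤ r →
    r ≤ R → μ.real {ω | ArmZ δ z r R 0 (op ω)} ≤ C * (r / R) ^ α ∧
      μ.real {ω | ArmZ δ z r R 1 (op ω)ᶜ} ≤ C * (r / R) ^ α := by
  obtain ⟨C, α, hC, hα, h⟩ := arm_le
  have h4 : (0 : ℝ) < (4 : ℝ) ^ α := by positivity
  have h5 : (0 : ℝ) < (5 : ℝ) ^ α := by positivity
  refine ⟨4 ^ α + C * 5 ^ α, α, by positivity, hα, fun δ hδ z r R hr hR => ?_⟩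
  have hr0 : 0 < r := hδ.trans_le hr
  have hR0 : 0 < R := hr0.trans_le hR
  have hq : (0 : ℝ) ≤ r / R := by positivity
  have hqa : (0 : ℝ) ≤ (r / R) ^ α := Real.rpow_nonneg hq α
  rcases lt_or_ge R (4 * r) with hlt | hge
  · have h1 : 1 ≤ (4 ^ α + C * 5 ^ α) * (r / R) ^ α := by
      have h2 : (1 : ℝ) ≤ (4 * (r / R)) ^ α := by
        apply Real.one_le_rpow _ hα.le
        rw [← mul_div_assoc, le_div_iff₀ hR0]
        linarith
      rw [Real.mul_rpow (by norm_num) hq] at h2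
      nlinarith [mul_nonneg (mul_nonneg hC.le h5.le) hqa]
    exact ⟨measureReal_le_one.trans h1, measureReal_le_one.trans h1⟩
  · set r' : ℤ := ⌈3 * r / (2 * δ)⌉ with hr'
    set R' : ℤ := ⌊R / δ⌋ with hR'
    have c1 : 3 * r / (2 * δ) ≤ r' := Int.le_ceil _
    have c2 : (r' : ℝ) < 3 * r / (2 * δ) + 1 := Int.ceil_lt_add_one _
    have c3 : (R' : ℝ) ≤ R / δ := Int.floor_le _
    have c4 : R / δ < R' + 1 := Int.lt_floor_add_one _
    have d1 : 1 ≤ r / δ := by rwa [le_div_iff₀ hδ, one_mul]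
    have d2 : 3 * r / (2 * δ) = 3 / 2 * (r / δ) := by ring
    have d3 : 4 * (r / δ) ≤ R / δ := by
      rw [← mul_div_assoc]
      exact div_le_div_of_nonneg_right hge hδ.le
    rw [d2] at c1 c2
    have f1 : 1 ≤ r' := by
      have : (0 : ℝ) < r' := by linarith
      have : 0 < r' := by exact_mod_cast this
      omega
    have f2 : r' ≤ R' := by
      have : (r' : ℝ) < R' + 1 := by linarith
      have : r' < R' + 1 := by exact_mod_cast this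
      omega
    have f1' : (1 : ℝ) ≤ r' := by exact_mod_cast f1
    have f2' : (r' : ℝ) ≤ R' := by exact_mod_cast f2
    have hb : C * ((r' : ℝ) / R') ^ α ≤ (4 ^ α + C * 5 ^ α) * (r / R) ^ α := by
      have g1 : (r' : ℝ) / R' ≤ 5 * (r / R) := by
        have e1 : r / R = (r / δ) / (R / δ) := by field_simp
        rw [e1, ← mul_div_assoc, div_le_div_iff₀ (by linarith) (by linarith)]
        nlinarith
      have g2 : ((r' : ℝ) / R') ^ α ≤ 5 ^ α * (r / R) ^ α := by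
        rw [← Real.mul_rpow (by norm_num) hq]
        exact Real.rpow_le_rpow (by apply div_nonneg <;> linarith) g1 hα.le
      calc C * ((r' : ℝ) / R') ^ α ≤ C * (5 ^ α * (r / R) ^ α) :=
            mul_le_mul_of_nonneg_left g2 hC.le
        _ ≤ _ := by nlinarith [mul_nonneg h4.le hqa]
    obtain ⟨k1, k2⟩ := h (⌊(z.re - z.im) / δ⌋, ⌊(z.re + z.im) / δ⌋) r' R' f1 f2
    exact ⟨(measureReal_mono (fun ω hω => arm_of_armZ hδ hω)).trans (k1.trans hb),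
      (measureReal_mono (fun ω hω => arm_of_armZ hδ hω)).trans (k2.trans hb)⟩

/-! ### Traces -/

theorem PStep.symm' {F : Set (ℤ × ℤ)} {s t : ℤ × ℤ} (h : PStep F s t) : PStep F t s := by
  obtain ⟨h1, h2, h3⟩ := h
  refine ⟨by omega, by omega, ?_⟩
  rw [min_comm t.1, min_comm t.2]
  exact h3

theorem rtg_symm {F : Set (ℤ × ℤ)} {s t : ℤ × ℤ} (h : ReflTransGen (PStep F) s t) :
    ReflTransGen (PStep F) t s := by
  induction h with
  | refl => exact ReflTransGen.refl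
  | tail _ h ih => exact ReflTransGen.head (PStep.symm' h) ih

/-- **The trace of a lattice path.** -/
theorem exists_trace (δ : ℝ) {F : Set (ℤ × ℤ)} {s t : ℤ × ℤ} (h : ReflTransGen (PStep F) s t) :
    ∃ T : Set ℂ, IsConnected T ∧ IsCompact T ∧ zp δ s ∈ T ∧ zp δ t ∈ T ∧
      ∀ p ∈ T, p = zp δ s ∨ ∃ a b, ReflTransGen (PStep F) s a ∧ PStep F a b ∧
        p ∈ segment ℝ (zp δ a) (zp δ b) := by
  induction h with
  | refl => exact ⟨{zp δ s}, isConnected_singleton, isCompact_singleton, rfl, rfl,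
      fun p hp => Or.inl hp⟩
  | @tail b c h1 h2 ih =>
    obtain ⟨T, g1, g2, g3, g4, g5⟩ := ih
    refine ⟨T ∪ segment ℝ (zp δ b) (zp δ c), ?_, ?_, Or.inl g3, Or.inr (right_mem_segment ℝ _ _),
      ?_⟩
    · exact IsConnected.union ⟨zp δ b, g4, left_mem_segment ℝ _ _⟩ g1
        ⟨⟨_, left_mem_segment ℝ _ _⟩, (convex_segment _ _).isPreconnected⟩
    · refine g2.union ?_
      rw [segment_eq_image]
      exact isCompact_Icc.image (by fun_prop)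
    · rintro p (hp | hp)
      · exact g5 p hp
      · exact Or.inr ⟨b, c, h1, h2, hp⟩

theorem dist_segment {δ : ℝ} (hδ : 0 < δ) {F : Set (ℤ × ℤ)} {a b : ℤ × ℤ} (h : PStep F a b) {p : ℂ}
    (hp : p ∈ segment ℝ (zp δ a) (zp δ b)) : dist (zp δ a) p ≤ δ := by
  rw [segment_eq_image_lineMap] at hp
  obtain ⟨t, ht, rfl⟩ := hp
  rw [dist_left_lineMap, dist_zp_step hδ h, Real.norm_of_nonneg ht.1]
  nlinarith [ht.2]

/-- Two points of the trace are close to two sites which are joined by the path. -/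
theorem trace_arm {δ : ℝ} (hδ : 0 < δ) {F : Set (ℤ × ℤ)} {s : ℤ × ℤ} {T : Set ℂ}
    (hT : ∀ p ∈ T, p = zp δ s ∨ ∃ a b, ReflTransGen (PStep F) s a ∧ PStep F a b ∧
        p ∈ segment ℝ (zp δ a) (zp δ b)) {z : ℂ} {r R : ℝ} (h1 : ∃ p ∈ T, dist p z ≤ r)
    (h2 : ∃ q ∈ T, R ≤ dist q z) : ∃ u v, dist (zp δ u) z ≤ r + δ ∧ R - δ ≤ dist (zp δ v) z ∧
      ReflTransGen (PStep F) s u ∧ ReflTransGen (PStep F) u v := by
  have key : ∀ p ∈ T, ∃ a, ReflTransGen (PStep F) s a ∧ dist (zp δ a) p ≤ δ := by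
    intro p hp
    rcases hT p hp with rfl | ⟨a, b, g1, g2, g3⟩
    · exact ⟨s, ReflTransGen.refl, by rw [dist_self]; exact hδ.le⟩
    · exact ⟨a, g1, dist_segment hδ g2 g3⟩
  obtain ⟨p, hp, hpz⟩ := h1
  obtain ⟨q, hq, hqz⟩ := h2
  obtain ⟨u, hu, hu'⟩ := key p hp
  obtain ⟨v, hv, hv'⟩ := key q hq
  refine ⟨u, v, ?_, ?_, hu, (rtg_symm hu).trans hv⟩
  · linarith [dist_triangle (zp δ u) p z]
  · have := dist_triangle q (zp δ v) z
    rw [dist_comm q (zp δ v)] at this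
    linarith

theorem parity_rtg {F : Set (ℤ × ℤ)} {s t : ℤ × ℤ} (h : ReflTransGen (PStep F) s t) :
    (t.1 + t.2) % 2 = (s.1 + s.2) % 2 := by
  induction h with
  | refl => rfl
  | tail _ h ih =>
    obtain ⟨h1, h2, -⟩ := h
    omega

/-! ### Conformal half-annuli -/

/-- The crossing event: a path along `F` from the inner to the outer boundary of the conformal
half-annulus. -/
def CrF (δ : ℝ) (ψ : ℂ → ℂ) (x a b : ℝ) (e : ℤ) (F : Set (ℤ × ℤ)) : Prop :=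
  ∃ s t : ℤ × ℤ, (s.1 + s.2) % 2 = e ∧ ReflTransGen (PStep F) s t ∧
    (∃ w ∈ H174.HP, dist w (x : ℂ) ≤ a ∧ ψ w = zp δ s) ∧
    ∃ w ∈ H174.HP, b ≤ dist w (x : ℂ) ∧ ψ w = zp δ t

/-- **A crossing of a conformal half-annulus is an arm around a point which depends only on the
domain.** -/
theorem crF_armZ {ψ : ℂ → ℂ} (hψ : DifferentiableOn ℂ ψ H174.HP) (hi : InjOn ψ H174.HP)
    (hfin : volume (ψ '' H174.HP) ≠ ∞) {x a b C₀ : ℝ} (ha : 0 < a) (hab : a < b) (hC : 0 ≤ C₀)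
    (hlog : 2 * π ^ 2 * (C₀ + 2) ^ 2 < Real.log (b / a)) {δ : ℝ} (hδ : 0 < δ)
    (hl : ∀ s ∈ Ioo a b, ENNReal.ofReal δ ≤ Vale.Agent.P153.R2.R1.len H174.HP ψ x s) :
    ∃ (z : ℂ) (d : ℝ), δ ≤ d ∧ ∀ (e : ℤ) (G F : Set (ℤ × ℤ)),
      (∀ s t, (s.1 + s.2) % 2 = e → PStep F s t →
        segment ℝ (zp δ s) (zp δ t) ⊆ ψ '' H174.HP) →
      CrF δ ψ x a b e (G ∩ F) → ArmZ δ z (3 * d) ((C₀ - 1) * d) e (G ∩ F) := by
  obtain ⟨z, d, hd, h1, h2⟩ := H174.length_area hψ hi hfin (x := x) ha hab hC hlog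
  refine ⟨z, d, h1 δ hl, fun e G F hF hcr => ?_⟩
  have hδd := h1 δ hl
  obtain ⟨s, t, hs, hst, ⟨w₁, hw₁, hw₁d, hw₁s⟩, w₂, hw₂, hw₂d, hw₂t⟩ := hcr
  obtain ⟨T, g1, g2, g3, g4, g5⟩ := exists_trace δ hst
  have hTD : T ⊆ ψ '' H174.HP := by
    intro p hp
    rcases g5 p hp with rfl | ⟨u, v, k1, k2, k3⟩
    · exact ⟨w₁, hw₁, hw₁s⟩
    · exact hF u v (by rw [parity_rtg k1]; exact hs) ⟨k2.1, k2.2.1, k2.2.2.2⟩ k3
  obtain ⟨⟨p, hp, hpz⟩, q, hq, hqz⟩ := h2 T hTD g1.isPreconnected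
    ⟨w₁, hw₁, hw₁d, hw₁s ▸ g3⟩ ⟨w₂, hw₂, hw₂d, hw₂t ▸ g4⟩
  obtain ⟨u, v, k1, k2, k3, k4⟩ := trace_arm hδ g5 ⟨p, hp, hpz.le⟩ ⟨q, hq, hqz⟩
  exact ⟨u, v, by rw [parity_rtg k3]; exact hs, by linarith, by linarith, k4⟩

/-- **Crossings of conformal half-annuli are unlikely.** -/
theorem crsw : ∃ C α : ℝ, 0 < C ∧ 0 < α ∧ ∀ (ψ : ℂ → ℂ), DifferentiableOn ℂ ψ H174.HP →
    InjOn ψ H174.HP → volume (ψ '' H174.HP) ≠ ∞ → ∀ x a b C₀ : ℝ, 0 < a → a < b → 4 ≤ C₀ →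
    2 * π ^ 2 * (C₀ + 2) ^ 2 < Real.log (b / a) → ∀ δ : ℝ, 0 < δ →
    (∀ s ∈ Ioo a b, ENNReal.ofReal δ ≤ Vale.Agent.P153.R2.R1.len H174.HP ψ x s) → ∀ F : Set (ℤ × ℤ),
    ((∀ s t, (s.1 + s.2) % 2 = 0 → PStep F s t →
        segment ℝ (zp δ s) (zp δ t) ⊆ ψ '' H174.HP) →
      μ.real {ω | CrF δ ψ x a b 0 (op ω ∩ F)} ≤ C * (1 / C₀) ^ α) ∧
    ((∀ s t, (s.1 + s.2) % 2 = 1 → PStep F s t →
        segment ℝ (zp δ s) (zp δ t) ⊆ ψ '' H174.HP) →
      μ.real {ω | CrF δ ψ x a b 1 ((op ω)ᶜ ∩ F)} ≤ C * (1 / C₀) ^ α) := by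
  obtain ⟨C, α, hC, hα, h⟩ := arm_plane
  refine ⟨C * 4 ^ α, α, by positivity, hα,
    fun ψ hψ hi hfin x a b C₀ ha hab hC₀ hlog δ hδ hl F => ?_⟩
  obtain ⟨z, d, hd, hmain⟩ := crF_armZ hψ hi hfin (x := x) ha hab (by linarith) hlog hδ hl
  have hd0 : 0 < d := hδ.trans_le hd
  obtain ⟨k1, k2⟩ := h δ hδ z (3 * d) ((C₀ - 1) * d) (by linarith) (by nlinarith)
  have hb : C * (3 * d / ((C₀ - 1) * d)) ^ α ≤ C * 4 ^ α * (1 / C₀) ^ α := by
    rw [mul_assoc, ← Real.mul_rpow (by norm_num) (by positivity)]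
    refine mul_le_mul_of_nonneg_left (Real.rpow_le_rpow ?_ ?_ hα.le) hC.le
    · apply div_nonneg
      · linarith
      · nlinarith
    · rw [mul_div_mul_right _ _ hd0.ne', mul_one_div, div_le_div_iff₀ (by linarith) (by linarith)]
      linarith
  exact ⟨fun hF => (measureReal_mono fun ω hω => (hmain 0 (op ω) F hF hω).mono
      Set.inter_subset_left).trans (k1.trans hb),
    fun hF => (measureReal_mono fun ω hω => (hmain 1 (op ω)ᶜ F hF hω).mono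
      Set.inter_subset_left).trans (k2.trans hb)⟩

end Vale.Agent.P167.H161
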