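import Vale.Agent.P167.H161.ArmU

/-!
# P167, block CG6: crossings of conformal half-annuli in the chart of the disc

The centre `ξ` is any point of the unit circle (`ξ = 1` is the point at infinity of the half-plane).
-/

namespace Vale.Agent.P167.H161

open MeasureTheory Set Relation Metric
open Vale.Agent.P145.FB (PStep)
open Vale.Agent.P167.H166 Vale.Agent.P167.H756
open Vale.Agent.P153.R2.R1
open scoped ENNReal Real ComplexConjugate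

theorem mb_add_one {z : ℂ} (hz : 0 < z.im) : mb 1 Complex.I z + 1 = 2 * z / (z + Complex.I) := by
  have h : z + Complex.I ≠ 0 := by
    intro h
    have := congrArg Complex.im h
    simp at this
    linarith
  rw [mb, Complex.conj_I, sub_neg_eq_add, one_mul]
  field_simp
  ring

theorem norm_add_I_ge {z : ℂ} (hz : 0 < z.im) : 1 ≤ ‖z + Complex.I‖ := by
  have h := Complex.abs_im_le_norm (z + Complex.I)
  rw [Complex.add_im, Complex.I_im] at h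
  exact le_trans (by linarith [le_abs_self (z.im + 1)]) h

/-- The rotated map in the half-plane. -/
noncomputable def rotH (F : ℂ → ℂ) (ξ : ℂ) (z : ℂ) : ℂ := F (-ξ * mb 1 Complex.I z)

theorem norm_neg_mul {ξ w : ℂ} (hξ : ‖ξ‖ = 1) : ‖-ξ * w‖ = ‖w‖ := by
  rw [norm_mul, norm_neg, hξ, one_mul]

theorem neg_mul_mem {ξ w : ℂ} (hξ : ‖ξ‖ = 1) (hw : w ∈ ball (0 : ℂ) 1) : -ξ * w ∈ ball (0 : ℂ) 1 := by
  rw [mem_ball_zero_iff] at hw ⊢
  rw [norm_neg_mul hξ]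
  exact hw

theorem exists_rot {ξ w : ℂ} (hξ : ‖ξ‖ = 1) (hw : w ∈ ball (0 : ℂ) 1) :
    ∃ w' ∈ ball (0 : ℂ) 1, -ξ * w' = w := by
  have h0 : ξ ≠ 0 := by rintro rfl; simp at hξ
  refine ⟨-ξ⁻¹ * w, ?_, ?_⟩
  · rw [mem_ball_zero_iff] at hw ⊢
    rw [norm_mul, norm_neg, norm_inv, hξ, inv_one, one_mul]
    exact hw
  · field_simp

theorem img_rot {F : ℂ → ℂ} {ξ : ℂ} (hξ : ‖ξ‖ = 1) :
    (fun w => F (-ξ * w)) '' ball 0 1 = F '' ball 0 1 := by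
  apply Subset.antisymm
  · rintro _ ⟨w, hw, rfl⟩
    exact ⟨_, neg_mul_mem hξ hw, rfl⟩
  · rintro _ ⟨w, hw, rfl⟩
    obtain ⟨w', hw', rfl⟩ := exists_rot hξ hw
    exact ⟨w', hw', rfl⟩

theorem cls_rot {R c : ℝ} {F : ℂ → ℂ} (h : Cls R c F) {ξ : ℂ} (hξ : ‖ξ‖ = 1) :
    Cls R c (fun w => F (-ξ * w)) where
  diff := h.diff.comp ((differentiable_id.const_mul _).differentiableOn) fun w hw => neg_mul_mem hξ hw
  inj := by
    intro w hw w' hw' e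
    have h1 := h.inj (neg_mul_mem hξ hw) (neg_mul_mem hξ hw') e
    have h0 : -ξ ≠ 0 := by
      intro h0
      rw [neg_eq_zero] at h0
      rw [h0] at hξ
      simp at hξ
    exact mul_left_cancel₀ h0 h1
  bdd := by
    intro w hw
    have := h.bdd _ (neg_mul_mem hξ hw)
    simpa using this
  sub := by
    rw [img_rot hξ]
    simpa using h.sub

theorem cls_congr {R c : ℝ} {F G : ℂ → ℂ} (h : Cls R c F) (e : ∀ w ∈ ball (0 : ℂ) 1, G w = F w) :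
    Cls R c G where
  diff := h.diff.congr e
  inj := by
    intro w hw w' hw' e'
    rw [e w hw, e w' hw'] at e'
    exact h.inj hw hw' e'
  bdd := by
    intro w hw
    rw [e w hw, e 0 (by simp)]
    exact h.bdd w hw
  sub := by
    rw [e 0 (by simp)]
    refine h.sub.trans ?_
    rintro _ ⟨w, hw, rfl⟩
    exact ⟨w, hw, e w hw⟩

theorem hcls_rot {R c : ℝ} {F : ℂ → ℂ} (h : Cls R c F) {ξ : ℂ} (hξ : ‖ξ‖ = 1) :
    H174.HCls R c (rotH F ξ) := by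
  refine cls_congr (cls_rot h hξ) fun w hw => ?_
  have h1 : w ≠ 1 := ball_ne_one hw
  simp only [rotH]
  rw [(mb_imb norm_one (by simp) h1).2]

/-- **Crossings of the conformal half-annuli around a point of the unit circle**, uniformly over the
class. -/
theorem crsw_dsc_geo {R c : ℝ} (hR : 0 < R) (hc : 0 < c) {a b C₀ : ℝ} (ha : 0 < a) (ha1 : a ≤ 1)
    (hab : 2 * a < b) (hC : 0 ≤ C₀) (hlog : 2 * π ^ 2 * (C₀ + 2) ^ 2 < Real.log (b / (2 * a))) :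
    ∃ d₀ > 0, ∀ F : ℂ → ℂ, Cls R c F → ∀ ξ : ℂ, ‖ξ‖ = 1 → ∃ (z : ℂ) (d : ℝ), d₀ ≤ d ∧
      ∀ T ⊆ F '' ball 0 1, IsPreconnected T → (∃ w ∈ ball (0 : ℂ) 1, dist w ξ ≤ a ∧ F w ∈ T) →
        (∃ w ∈ ball (0 : ℂ) 1, b ≤ dist w ξ ∧ F w ∈ T) →
        (∃ p ∈ T, dist p z < 2 * d) ∧ ∃ q ∈ T, C₀ * d ≤ dist q z := by
  have hlog' : 2 * π ^ 2 * (C₀ + 2) ^ 2 < Real.log (b / 2 / a) := by
    rw [div_div]
    exact hlog
  obtain ⟨d₀, hd₀, h⟩ := H174.crsw_geo (R := R) (c := c) (M := 0) hR hc ha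
    (show a < b / 2 by linarith) hC hlog'
  refine ⟨d₀, hd₀, fun F hF ξ hξ => ?_⟩
  obtain ⟨z, d, hd, h2⟩ := h _ (hcls_rot hF hξ) 0 (by simp)
  have hI : 0 < Complex.I.im := by simp
  -- the point of the half-plane
  have key : ∀ w ∈ ball (0 : ℂ) 1, ∃ z' ∈ (H174.HP : Set ℂ), rotH F ξ z' = F w ∧
      dist w ξ = 2 * ‖z'‖ / ‖z' + Complex.I‖ := by
    intro w hw
    obtain ⟨w', hw', rfl⟩ := exists_rot hξ hw
    have h1 : w' ≠ 1 := ball_ne_one hw'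
    have hpos := imb_im_pos norm_one hI (mem_ball_zero_iff.1 hw')
    have h3 := (mb_imb norm_one hI h1).2
    refine ⟨imb 1 Complex.I w', hpos, ?_, ?_⟩
    · simp only [rotH]
      rw [h3]
    · have h4 := mb_add_one hpos
      rw [h3] at h4
      rw [dist_eq_norm]
      have e : -ξ * w' - ξ = -ξ * (w' + 1) := by ring
      rw [e, norm_neg_mul hξ, h4, norm_div, norm_mul]
      norm_num
  refine ⟨z, d, hd, fun T hT hTc h3 h4 => h2 T ?_ hTc ?_ ?_⟩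
  · have e : rotH F ξ '' H174.HP = F '' ball 0 1 := by
      have e1 := (hcls_rot hF hξ).img
      rw [← e1, ← img_rot (F := F) hξ]
      refine image_congr fun w hw => ?_
      simp only [rotH]
      rw [(mb_imb norm_one (by simp) (ball_ne_one hw)).2]
    rw [e]
    exact hT
  · obtain ⟨w, hw, hw1, hw2⟩ := h3
    obtain ⟨z', hz', e1, e2⟩ := key w hw
    refine ⟨z', hz', ?_, by rw [e1]; exact hw2⟩
    rw [Complex.ofReal_zero, dist_zero_right]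
    have hge := norm_add_I_ge (show 0 < z'.im from hz')
    rw [e2, div_le_iff₀ (by linarith)] at hw1
    have h5 : ‖z' + Complex.I‖ ≤ ‖z'‖ + 1 := by
      refine (norm_add_le _ _).trans ?_
      rw [Complex.norm_I]
    have h6 : a * ‖z' + Complex.I‖ ≤ a * (‖z'‖ + 1) := mul_le_mul_of_nonneg_left h5 ha.le
    nlinarith [norm_nonneg z']
  · obtain ⟨w, hw, hw1, hw2⟩ := h4
    obtain ⟨z', hz', e1, e2⟩ := key w hw
    refine ⟨z', hz', ?_, by rw [e1]; exact hw2⟩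
    rw [Complex.ofReal_zero, dist_zero_right]
    have hge := norm_add_I_ge (show 0 < z'.im from hz')
    rw [e2, le_div_iff₀ (by linarith)] at hw1
    nlinarith [norm_nonneg z']

/-- The inner part of a conformal half-annulus of `ψ '' loewnerDomain W t` around the point `ξ` of the
unit circle. -/
def Cin (ψ : ℂ → ℂ) (W : ℝ → ℝ) (t : ℝ) (ξ : ℂ) (a : ℝ) : Set ℂ :=
  ψ '' {w | w ∈ Vale.Agent.P164.loewnerDomain W t ∧
    dist (mb 1 Complex.I (Vale.Agent.P164.Zf W w t)) ξ ≤ a}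

/-- The outer part. -/
def Cout (ψ : ℂ → ℂ) (W : ℝ → ℝ) (t : ℝ) (ξ : ℂ) (b : ℝ) : Set ℂ :=
  ψ '' {w | w ∈ Vale.Agent.P164.loewnerDomain W t ∧
    b ≤ dist (mb 1 Complex.I (Vale.Agent.P164.Zf W w t)) ξ}

/-- **CRSW in the domains of a Loewner chain, in the chart of the disc**, uniform: `d₀` does not
depend on `ψ`, `W`, `t`, `ξ`. -/
theorem crsw_disc : ∃ C α : ℝ, 0 < C ∧ 0 < α ∧ ∀ T R Rd cd Y a b C₀ : ℝ, 0 < Rd → 0 < cd →
    0 < Y → 8 * R ≤ Y → 64 * T ≤ Y ^ 2 → 0 < a → a ≤ 1 → 2 * a < b → 4 ≤ C₀ →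
    2 * π ^ 2 * (C₀ + 2) ^ 2 < Real.log (b / (2 * a)) → ∃ d₀ > 0, ∀ ψ : ℂ → ℂ, HConf Rd cd Y ψ →
    ∀ (W : ℝ → ℝ) (t : ℝ), Drv T R W t → ∀ ξ : ℂ, ‖ξ‖ = 1 → ∀ δ, 0 < δ → δ ≤ d₀ →
    ∀ F : Set (ℤ × ℤ),
    (SegIn δ (ψ '' Vale.Agent.P164.loewnerDomain W t) 0 F →
      μ.real {ω | CrU δ (Cin ψ W t ξ a) (Cout ψ W t ξ b) 0 (op ω ∩ F)} ≤ C * (1 / C₀) ^ α) ∧
    (SegIn δ (ψ '' Vale.Agent.P164.loewnerDomain W t) 1 F →
      μ.real {ω | CrU δ (Cin ψ W t ξ a) (Cout ψ W t ξ b) 1 ((op ω)ᶜ ∩ F)} ≤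
        C * (1 / C₀) ^ α) := by
  obtain ⟨C, α, hC, hα, h⟩ := prob_of_cross
  refine ⟨C, α, hC, hα,
    fun T R Rd cd Y a b C₀ hRd hcd hY0 hY hY2 ha ha1 hab hC₀ hlog => ?_⟩
  obtain ⟨c, hc, hcls⟩ := cls_FD (T := T) (R := R) hRd hcd hY0 hY hY2
  obtain ⟨d₀, hd₀, h'⟩ := crsw_dsc_geo (R := Rd) (c := c) hRd hc ha ha1 hab
    (by linarith : 0 ≤ C₀) hlog
  refine ⟨d₀, hd₀, fun ψ hψ W t H ξ hξ δ hδ hδd F => ?_⟩
  obtain ⟨z, d, hd, h2⟩ := h' _ (hcls ψ hψ W t H) ξ hξ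
  have hI : 0 < Complex.I.im := by simp
  have himg : FD ψ W t '' ball 0 1 = ψ '' Vale.Agent.P164.loewnerDomain W t := by
    rw [← Ps_img H]
    exact hp_img hI (Ps ψ W t)
  have hpt : ∀ w ∈ Vale.Agent.P164.loewnerDomain W t,
      mb 1 Complex.I (Vale.Agent.P164.Zf W w t) ∈ ball (0 : ℂ) 1 ∧
      FD ψ W t (mb 1 Complex.I (Vale.Agent.P164.Zf W w t)) = ψ w := fun w hw =>
    ⟨mem_ball_zero_iff.2 (norm_mb_lt norm_one hI (Vale.Agent.P164.Zf_im_pos H.nn hw)),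
      FD_mb H ψ hw⟩
  refine h (ψ '' Vale.Agent.P164.loewnerDomain W t) (Cin ψ W t ξ a) (Cout ψ W t ξ b) z d C₀ δ hδ
    (hδd.trans hd) hC₀ (by rintro _ ⟨w, hw, rfl⟩; exact ⟨w, hw.1, rfl⟩) ?_ F
  rintro A hA hAc ⟨p, hp, w, hw, rfl⟩ ⟨q, hq, w', hw', rfl⟩
  refine h2 A (by rw [himg]; exact hA) hAc ⟨_, (hpt w hw.1).1, hw.2, ?_⟩
    ⟨_, (hpt w' hw'.1).1, hw'.2, ?_⟩
  · rw [(hpt w hw.1).2]; exact hp
  · rw [(hpt w' hw'.1).2]; exact hq

end Vale.Agent.P167.H161
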