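import Vale.Agent.P167.H161.Cov

/-!
# P167, block E6 (crossing numbers): the numbers of crossings are tight
-/

namespace Vale.Agent.P167.H161

open Set Filter Topology
open Vale.Agent.P167.E6 Vale.Agent.P167.E2
open Vale.Agent.P153.R2.C1 (Cross)
open Vale.Agent.P153.R2.Final (dom circ toC)

variable {n : ℕ} {p : ZMod n → ℤ × ℤ} {S : Finset (ℤ × ℤ)} {k : ℕ}

/-- The lattice site of a point. -/
noncomputable def rnd (δ : ℝ) (z : ℂ) : ℤ × ℤ :=
  (⌊((1 + Complex.I) * (z / δ)).re⌋, ⌊((1 + Complex.I) * (z / δ)).im⌋)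

theorem mid_eq (δ : ℝ) (c : Medial) : mid δ c = δ * mid 1 c := by
  unfold mid
  push_cast
  ring

theorem sq_rnd {δ : ℝ} (hδ : 0 < δ) (z : ℂ) (c : Medial) :
    |((H192.sq (ahead c)).1 : ℝ) - (rnd δ z).1 - ((1 + Complex.I) * (mid 1 c - z / δ)).re| ≤ 1 ∧
    |((H192.sq (ahead c)).2 : ℝ) - (rnd δ z).2 - ((1 + Complex.I) * (mid 1 c - z / δ)).im| ≤ 1 ∧
    ‖mid 1 c - z / δ‖ = dist (mid δ c) z / δ := by
  obtain ⟨h1, h2⟩ := sq_ahead c
  have h3 := Int.floor_le ((1 + Complex.I) * (z / δ)).re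
  have h4 := Int.lt_floor_add_one ((1 + Complex.I) * (z / δ)).re
  have h5 := Int.floor_le ((1 + Complex.I) * (z / δ)).im
  have h6 := Int.lt_floor_add_one ((1 + Complex.I) * (z / δ)).im
  rw [mul_sub, Complex.sub_re, Complex.sub_im, ← h1, ← h2]
  refine ⟨?_, ?_, ?_⟩
  · simp only [rnd]
    rw [abs_le]
    constructor <;> linarith
  · simp only [rnd]
    rw [abs_le]
    constructor <;> linarith
  · have h7 : mid 1 c - z / δ = (mid δ c - z) / δ := by
      rw [mid_eq δ c]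
      have : (δ : ℂ) ≠ 0 := by exact_mod_cast hδ.ne'
      field_simp
    rw [h7, norm_div, Complex.norm_real, Real.norm_of_nonneg hδ.le, dist_eq_norm]

theorem rot_le (u : ℂ) : |((1 + Complex.I) * u).re| ≤ 2 * ‖u‖ ∧
    |((1 + Complex.I) * u).im| ≤ 2 * ‖u‖ ∧
    ‖u‖ ≤ |((1 + Complex.I) * u).re| + |((1 + Complex.I) * u).im| := by
  have h1 := Complex.abs_re_le_norm u
  have h2 := Complex.abs_im_le_norm u
  have e1 : ((1 + Complex.I) * u).re = u.re - u.im := by simp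
  have e2 : ((1 + Complex.I) * u).im = u.re + u.im := by simp; ring
  rw [e1, e2]
  rw [abs_le] at h1 h2
  refine ⟨?_, ?_, ?_⟩
  · rw [abs_le]; constructor <;> linarith
  · rw [abs_le]; constructor <;> linarith
  · have h3 := Complex.norm_le_abs_re_add_abs_im u
    have h4 : |u.re| + |u.im| ≤ |u.re - u.im| + |u.re + u.im| := by
      rcases abs_cases (u.re - u.im) with ⟨a1, _⟩ | ⟨a1, _⟩ <;>
        rcases abs_cases (u.re + u.im) with ⟨a2, _⟩ | ⟨a2, _⟩ <;>
        rcases abs_cases u.re with ⟨a3, _⟩ | ⟨a3, _⟩ <;>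
        rcases abs_cases u.im with ⟨a4, _⟩ | ⟨a4, _⟩ <;> linarith
    linarith

/-- From the plane to the lattice. -/
theorem rexc_of_scross {A : Finset (Sym2 (ℤ × ℤ))} {δ : ℝ} (hδ : 0 < δ) {z : ℂ} {ρ₀ d : ℝ} {m : ℕ}
    {rb Rb : ℤ} (hr : 2 * ρ₀ / δ + 2 ≤ rb) (hR : 2 * (Rb : ℝ) + 4 < d / δ)
    (h : SCross (fun j => mid δ (run p k A j)) (len p k A) z ρ₀ d m) :
    RExc p k A (rnd δ z) rb Rb m := by
  obtain ⟨t, ht, h⟩ := h
  refine ⟨t, ht, fun j hj => ?_⟩
  obtain ⟨h1, h2, h3⟩ := h j hj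
  refine ⟨?_, ?_, h3⟩
  · obtain ⟨a1, a2, a3⟩ := sq_rnd hδ z (run p k A (t (2 * j)))
    obtain ⟨b1, b2, -⟩ := rot_le (mid 1 (run p k A (t (2 * j))) - z / δ)
    have h4 : dist (mid δ (run p k A (t (2 * j)))) z / δ ≤ ρ₀ / δ :=
      div_le_div_of_nonneg_right h1 hδ.le
    rw [a3] at b1 b2
    have h5 : 2 * ρ₀ / δ = 2 * (ρ₀ / δ) := by ring
    rw [abs_le] at a1 a2 b1 b2
    rw [nm_sub_le]
    refine ⟨?_, ?_, ?_, ?_⟩
    · have : -(rb : ℝ) ≤ ((H192.sq (ahead (run p k A (t (2 * j))))).1 : ℝ) - (rnd δ z).1 := by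
        linarith
      exact_mod_cast this
    · have : ((H192.sq (ahead (run p k A (t (2 * j))))).1 : ℝ) - (rnd δ z).1 ≤ (rb : ℝ) := by
        linarith
      exact_mod_cast this
    · have : -(rb : ℝ) ≤ ((H192.sq (ahead (run p k A (t (2 * j))))).2 : ℝ) - (rnd δ z).2 := by
        linarith
      exact_mod_cast this
    · have : ((H192.sq (ahead (run p k A (t (2 * j))))).2 : ℝ) - (rnd δ z).2 ≤ (rb : ℝ) := by
        linarith
      exact_mod_cast this
  · by_contra hc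
    rw [not_lt, nm_sub_le] at hc
    obtain ⟨c1, c2, c3, c4⟩ := hc
    obtain ⟨a1, a2, a3⟩ := sq_rnd hδ z (run p k A (t (2 * j + 1)))
    obtain ⟨-, -, b3⟩ := rot_le (mid 1 (run p k A (t (2 * j + 1))) - z / δ)
    have h4 : d / δ ≤ dist (mid δ (run p k A (t (2 * j + 1)))) z / δ :=
      div_le_div_of_nonneg_right h2 hδ.le
    rw [a3] at b3
    have c1' : -(Rb : ℝ) ≤ ((H192.sq (ahead (run p k A (t (2 * j + 1))))).1 : ℝ) -
      (rnd δ z).1 := by exact_mod_cast c1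
    have c2' : ((H192.sq (ahead (run p k A (t (2 * j + 1))))).1 : ℝ) -
      (rnd δ z).1 ≤ (Rb : ℝ) := by exact_mod_cast c2
    have c3' : -(Rb : ℝ) ≤ ((H192.sq (ahead (run p k A (t (2 * j + 1))))).2 : ℝ) -
      (rnd δ z).2 := by exact_mod_cast c3
    have c4' : ((H192.sq (ahead (run p k A (t (2 * j + 1))))).2 : ℝ) -
      (rnd δ z).2 ≤ (Rb : ℝ) := by exact_mod_cast c4
    have d1 : |((1 + Complex.I) * (mid 1 (run p k A (t (2 * j + 1))) - z / δ)).re| ≤ Rb + 1 := by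
      rw [abs_le] at a1 ⊢
      constructor <;> linarith
    have d2 : |((1 + Complex.I) * (mid 1 (run p k A (t (2 * j + 1))) - z / δ)).im| ≤ Rb + 1 := by
      rw [abs_le] at a2 ⊢
      constructor <;> linarith
    linarith

/-! ### Blocks of the boundary -/

theorem continuous_bd (Φ : (ℝ × ℝ) ≃ₜ (ℝ × ℝ)) : Continuous fun t : ℝ => toC (Φ (circ t)) := by
  have h1 : Continuous circ := by unfold circ; fun_prop
  have h2 : Continuous toC := by
    have : toC = fun z : ℝ × ℝ => Complex.equivRealProdCLM.symm z := by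
      funext z
      rfl
    rw [this]
    exact Complex.equivRealProdCLM.symm.continuous
  exact h2.comp (Φ.continuous.comp h1)

theorem nm_ro_le {δ : ℝ} (hδ : 0 < δ) {u v : ℤ × ℤ} {a : ℝ} (h : dist (δ * pt u) (δ * pt v) < a) :
    ((nm (H192.ro u - H192.ro v) : ℤ) : ℝ) ≤ 2 * a / δ := by
  have h1 : ‖pt u - pt v‖ < a / δ := by
    rw [lt_div_iff₀ hδ]
    rw [dist_eq_norm, ← mul_sub, norm_mul, Complex.norm_real, Real.norm_of_nonneg hδ.le] at h
    linarith
  have h2 := Complex.abs_re_le_norm (pt u - pt v)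
  have h3 := Complex.abs_im_le_norm (pt u - pt v)
  simp only [pt, Complex.sub_re, Complex.sub_im] at h2 h3
  have h4 : 2 * a / δ = 2 * (a / δ) := by ring
  rw [h4]
  simp only [nm, H192.ro, Prod.fst_sub, Prod.snd_sub]
  push_cast
  simp only [pt] at h1
  rw [abs_le] at h2 h3
  refine max_le ?_ ?_
  · rw [abs_le]; constructor <;> linarith
  · rw [abs_le]; constructor <;> linarith

theorem blocks (Φ : (ℝ × ℝ) ≃ₜ (ℝ × ℝ)) {ε : ℝ} (hε : 0 < ε) :
    ∃ M : ℕ, ∀ (δ : ℝ) (N : ℕ) (p : ZMod N → ℤ × ℤ) (s : ℕ → ℝ), 0 < δ → Monotone s → s 0 = 0 →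
      s N = 2 * Real.pi → (∀ i < N, ∀ t ∈ Icc (s i) (s (i + 1)),
        dist ((δ : ℂ) * pt (p i)) (toC (Φ (circ t))) < ε) →
      ∃ c : ℕ → ℕ, Monotone c ∧ (∀ i < N, c i < M) ∧ ∀ i j, i < N → j < N → c i = c j →
        ((nm (H192.ro (p i) - H192.ro (p j)) : ℤ) : ℝ) ≤ 6 * ε / δ := by
  have h1 : UniformContinuousOn (fun t : ℝ => toC (Φ (circ t))) (Icc 0 (2 * Real.pi)) :=
    isCompact_Icc.uniformContinuousOn_of_continuous (continuous_bd Φ).continuousOn
  rw [Metric.uniformContinuousOn_iff] at h1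
  obtain ⟨h, hh, h2⟩ := h1 ε hε
  refine ⟨⌊2 * Real.pi / h⌋₊ + 1, fun δ N p s hδ hs hs0 hsN hd => ?_⟩
  have hpos : ∀ i, 0 ≤ s i := fun i => by
    rw [← hs0]
    exact hs (Nat.zero_le i)
  refine ⟨fun i => ⌊s i / h⌋₊, ?_, ?_, ?_⟩
  · intro i j hij
    exact Nat.floor_mono (div_le_div_of_nonneg_right (hs hij) hh.le)
  · intro i hi
    refine Nat.lt_succ_of_le (Nat.floor_mono (div_le_div_of_nonneg_right ?_ hh.le))
    rw [← hsN]
    exact hs hi.le
  · intro i j hi hj hc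
    have a1 := Nat.floor_le (div_nonneg (hpos i) hh.le)
    have a2 := Nat.lt_floor_add_one (s i / h)
    have a3 := Nat.floor_le (div_nonneg (hpos j) hh.le)
    have a4 := Nat.lt_floor_add_one (s j / h)
    simp only at hc
    rw [hc] at a1 a2
    have a5 : |s i / h - s j / h| < 1 := by
      rw [abs_lt]
      constructor <;> linarith
    have a6 : dist (s i) (s j) < h := by
      rw [Real.dist_eq]
      have : s i / h - s j / h = (s i - s j) / h := by ring
      rw [this, abs_div, abs_of_pos hh, div_lt_one hh] at a5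
      exact a5
    have a7 := h2 (s i) ⟨hpos i, by rw [← hsN]; exact hs hi.le⟩ (s j)
      ⟨hpos j, by rw [← hsN]; exact hs hj.le⟩ a6
    have a8 := hd i hi (s i) ⟨le_rfl, hs (Nat.le_succ i)⟩
    have a9 := hd j hj (s j) ⟨le_rfl, hs (Nat.le_succ j)⟩
    have a10 : dist ((δ : ℂ) * pt (p i)) ((δ : ℂ) * pt (p j)) < 3 * ε := by
      have b1 := dist_triangle ((δ : ℂ) * pt (p i)) (toC (Φ (circ (s i)))) ((δ : ℂ) * pt (p j))
      have b2 := dist_triangle (toC (Φ (circ (s i)))) (toC (Φ (circ (s j)))) ((δ : ℂ) * pt (p j))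
      rw [dist_comm (toC (Φ (circ (s j)))) ((δ : ℂ) * pt (p j))] at b2
      have a7' : dist (toC (Φ (circ (s i)))) (toC (Φ (circ (s j)))) < ε := a7
      linarith
    have a11 := nm_ro_le hδ a10
    calc _ ≤ 2 * (3 * ε) / δ := a11
      _ = 6 * ε / δ := by ring

/-! ### The estimate -/

theorem mean_nonneg {S : Finset (ℤ × ℤ)} {F : Finset (Sym2 (ℤ × ℤ)) → ℝ}
    (h : ∀ A ⊆ edges S, 0 ≤ F A) : 0 ≤ mean S F := by
  unfold mean
  exact div_nonneg (Finset.sum_nonneg fun A hA => h A (Finset.mem_powerset.1 hA)) (by positivity)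

theorem mean_mono {S : Finset (ℤ × ℤ)} {F G : Finset (Sym2 (ℤ × ℤ)) → ℝ}
    (h : ∀ A ⊆ edges S, F A ≤ G A) : mean S F ≤ mean S G := by
  unfold mean
  exact div_le_div_of_nonneg_right
    (Finset.sum_le_sum fun A hA => h A (Finset.mem_powerset.1 hA)) (by positivity)

theorem mean_sum {ι : Type*} {S : Finset (ℤ × ℤ)} (I : Finset ι)
    (F : ι → Finset (Sym2 (ℤ × ℤ)) → ℝ) :
    mean S (fun A => ∑ i ∈ I, F i A) = ∑ i ∈ I, mean S (F i) := by
  unfold mean
  rw [Finset.sum_comm, Finset.sum_div]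

theorem mid_next (δ : ℝ) (hδ : 0 ≤ δ) (O : Set (Sym2 (ℤ × ℤ))) (c : Medial) :
    dist (mid δ (next O c)) (mid δ c) ≤ δ := by
  have h2 : ∀ r : Fin 4, ‖pt (dir r) - pt (dir (r + 1))‖ ≤ 2 := by
    intro r
    refine (norm_sub_le _ _).trans ?_
    have h3 : ∀ r, ‖pt (dir r)‖ ≤ 1 := by
      intro r
      refine (Complex.norm_le_abs_re_add_abs_im _).trans ?_
      rcases H192.dir_cases r with h | h | h | h <;> rw [h] <;> simp [pt]
    linarith [h3 r, h3 (r + 1)]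
  have hadd : ∀ u v : ℤ × ℤ, pt (u + v) = pt u + pt v := by
    intro u v
    apply Complex.ext <;> simp [pt]
  have key : ∃ r : Fin 4, ‖mid δ (next O c) - mid δ c‖ = δ / 2 * ‖pt (dir r) - pt (dir (r + 1))‖ := by
    by_cases h : ahead c ∈ O
    · rw [next_open h]
      refine ⟨c.2, ?_⟩
      unfold mid
      simp only [fin4_1, hadd]
      have : (δ : ℂ) * (pt c.1 + pt (dir (c.2 + 1)) + (pt c.1 + pt (dir (c.2 + 1)) + pt (dir c.2))) / 2
          - (δ : ℂ) * (pt c.1 + (pt c.1 + pt (dir (c.2 + 1)))) / 2 =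
          ((δ / 2 : ℝ) : ℂ) * (pt (dir c.2) + pt (dir (c.2 + 1))) := by push_cast; ring
      rw [this, norm_mul, Complex.norm_real, Real.norm_of_nonneg (by linarith)]
      congr 1
      rcases H192.fin4_cases c.2 with h | h | h | h <;> rw [h]
      · have e1 : ((0 : Fin 4) + 1) = 1 := rfl
        rw [e1, dir0, dir1]
        simp [pt, Complex.norm_def, Complex.normSq_apply]
      · have e1 : ((1 : Fin 4) + 1) = 2 := rfl
        rw [e1, dir1, dir2]
        simp [pt, Complex.norm_def, Complex.normSq_apply]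
      · have e1 : ((2 : Fin 4) + 1) = 3 := rfl
        rw [e1, dir2, dir3]
        simp [pt, Complex.norm_def, Complex.normSq_apply]
      · have e1 : ((3 : Fin 4) + 1) = 0 := rfl
        rw [e1, dir3, dir0]
        simp [pt, Complex.norm_def, Complex.normSq_apply]
    · rw [next_closed h]
      refine ⟨c.2 + 1, ?_⟩
      unfold mid
      simp only [hadd]
      have : (δ : ℂ) * (pt c.1 + (pt c.1 + pt (dir (c.2 + 1 + 1)))) / 2
          - (δ : ℂ) * (pt c.1 + (pt c.1 + pt (dir (c.2 + 1)))) / 2 =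
          ((δ / 2 : ℝ) : ℂ) * (pt (dir (c.2 + 1 + 1)) - pt (dir (c.2 + 1))) := by push_cast; ring
      rw [this, norm_mul, Complex.norm_real, Real.norm_of_nonneg (by linarith), norm_sub_rev]
  obtain ⟨r, hr⟩ := key
  rw [dist_eq_norm, hr]
  have := h2 r
  nlinarith

end Vale.Agent.P167.H161
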