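import Vale.Agent.P167.H161.ArmE
import Vale.Agent.P167.H174.Crsw

/-!
# P167, block CG6: crossings of conformal half-annuli are unlikely, uniformly

* `CrU`: a lattice path from `Ui` to `Uo`.
* `prob_of_cross`: abstract form.
* `crsw_hcls`, `crsw_slit`: uniform over `174`'s class and over the domains of a Loewner chain.
-/

namespace Vale.Agent.P167.H161

open MeasureTheory Set Relation
open Vale.Agent.P145.FB (PStep)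
open Vale.Agent.P167.H166 Vale.Agent.P167.H756
open scoped ENNReal Real

/-- A lattice path of parity `e` along the squares of `F` from `Ui` to `Uo`. -/
def CrU (δ : ℝ) (Ui Uo : Set ℂ) (e : ℤ) (F : Set (ℤ × ℤ)) : Prop :=
  ∃ s t : ℤ × ℤ, (s.1 + s.2) % 2 = e ∧ ReflTransGen (PStep F) s t ∧ zp δ s ∈ Ui ∧ zp δ t ∈ Uo

theorem CrU.mono {δ : ℝ} {Ui Uo : Set ℂ} {e : ℤ} {F F' : Set (ℤ × ℤ)} (h : F ⊆ F')
    (hA : CrU δ Ui Uo e F) : CrU δ Ui Uo e F' := by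
  obtain ⟨s, t, h1, h2, h3, h4⟩ := hA
  exact ⟨s, t, h1, rtg_mono h h2, h3, h4⟩

/-- All steps of parity `e` along `F` are inside `D`. -/
def SegIn (δ : ℝ) (D : Set ℂ) (e : ℤ) (F : Set (ℤ × ℤ)) : Prop :=
  ∀ s t, (s.1 + s.2) % 2 = e → PStep F s t → segment ℝ (zp δ s) (zp δ t) ⊆ D

/-- All connected subsets of `D` from `Ui` to `Uo` cross the annulus `{2 d ≤ |p - z| ≤ C₀ d}`. -/
def Crosses (D Ui Uo : Set ℂ) (z : ℂ) (d C₀ : ℝ) : Prop :=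
  ∀ A ⊆ D, IsPreconnected A → (∃ p ∈ A, p ∈ Ui) → (∃ p ∈ A, p ∈ Uo) →
    (∃ p ∈ A, dist p z < 2 * d) ∧ ∃ q ∈ A, C₀ * d ≤ dist q z

theorem armZ_of_crosses {D Ui Uo : Set ℂ} {z : ℂ} {d C₀ δ : ℝ} (hδ : 0 < δ) (hd : δ ≤ d)
    (h : Crosses D Ui Uo z d C₀) (hU : Ui ⊆ D) {e : ℤ} {G F : Set (ℤ × ℤ)} (hF : SegIn δ D e F)
    (hc : CrU δ Ui Uo e (G ∩ F)) : ArmZ δ z (3 * d) ((C₀ - 1) * d) e (G ∩ F) := by
  obtain ⟨s, t, hs, hst, hsi, hto⟩ := hc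
  obtain ⟨T, g1, g2, g3, g4, g5⟩ := exists_trace δ hst
  have hTD : T ⊆ D := by
    intro p hp
    rcases g5 p hp with rfl | ⟨u, v, k1, k2, k3⟩
    · exact hU hsi
    · exact hF u v (by rw [parity_rtg k1]; exact hs) ⟨k2.1, k2.2.1, k2.2.2.2⟩ k3
  obtain ⟨⟨p, hp, hpz⟩, q, hq, hqz⟩ := h T hTD g1.isPreconnected ⟨_, g3, hsi⟩ ⟨_, g4, hto⟩
  obtain ⟨u, v, k1, k2, k3, k4⟩ := trace_arm hδ g5 ⟨p, hp, hpz.le⟩ ⟨q, hq, hqz⟩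
  exact ⟨u, v, by rw [parity_rtg k3]; exact hs, by linarith, by linarith, k4⟩

/-- **Abstract form.** -/
theorem prob_of_cross : ∃ C α : ℝ, 0 < C ∧ 0 < α ∧ ∀ (D Ui Uo : Set ℂ) (z : ℂ) (d C₀ δ : ℝ),
    0 < δ → δ ≤ d → 4 ≤ C₀ → Ui ⊆ D → Crosses D Ui Uo z d C₀ → ∀ F : Set (ℤ × ℤ),
    (SegIn δ D 0 F → μ.real {ω | CrU δ Ui Uo 0 (op ω ∩ F)} ≤ C * (1 / C₀) ^ α) ∧
    (SegIn δ D 1 F → μ.real {ω | CrU δ Ui Uo 1 ((op ω)ᶜ ∩ F)} ≤ C * (1 / C₀) ^ α) := by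
  obtain ⟨C, α, hC, hα, h⟩ := arm_plane
  refine ⟨C * 4 ^ α, α, by positivity, hα, fun D Ui Uo z d C₀ δ hδ hd hC₀ hU hcr F => ?_⟩
  have hd0 : 0 < d := hδ.trans_le hd
  obtain ⟨k1, k2⟩ := h δ hδ z (3 * d) ((C₀ - 1) * d) (by linarith) (by nlinarith)
  have hb : C * (3 * d / ((C₀ - 1) * d)) ^ α ≤ C * 4 ^ α * (1 / C₀) ^ α := by
    rw [mul_assoc, ← Real.mul_rpow (by norm_num) (by positivity)]
    refine mul_le_mul_of_nonneg_left (Real.rpow_le_rpow ?_ ?_ hα.le) hC.le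
    · apply div_nonneg
      · linarith
      · nlinarith
    · rw [mul_div_mul_right _ _ hd0.ne', mul_one_div, div_le_div_iff₀ (by linarith) (by linarith)]
      linarith
  exact ⟨fun hF => (measureReal_mono fun ω hω => (armZ_of_crosses hδ hd hcr hU hF hω).mono
      Set.inter_subset_left).trans (k1.trans hb),
    fun hF => (measureReal_mono fun ω hω => (armZ_of_crosses hδ hd hcr hU hF hω).mono
      Set.inter_subset_left).trans (k2.trans hb)⟩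

/-- The inner part of a conformal half-annulus of the half-plane map `Ψ`. -/
def Hin (Ψ : ℂ → ℂ) (x a : ℝ) : Set ℂ := Ψ '' {w | w ∈ H174.HP ∧ dist w (x : ℂ) ≤ a}

/-- The outer part. -/
def Hout (Ψ : ℂ → ℂ) (x b : ℝ) : Set ℂ := Ψ '' {w | w ∈ H174.HP ∧ b ≤ dist w (x : ℂ)}

/-- **CRSW, uniform over the class.** -/
theorem crsw_hcls : ∃ C α : ℝ, 0 < C ∧ 0 < α ∧ ∀ Rd cd M a b C₀ : ℝ, 0 < Rd → 0 < cd → 0 < a →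
    a < b → 4 ≤ C₀ → 2 * π ^ 2 * (C₀ + 2) ^ 2 < Real.log (b / a) → ∃ d₀ > 0, ∀ Ψ : ℂ → ℂ,
    H174.HCls Rd cd Ψ → ∀ x : ℝ, |x| ≤ M → ∀ δ, 0 < δ → δ ≤ d₀ → ∀ F : Set (ℤ × ℤ),
    (SegIn δ (Ψ '' H174.HP) 0 F →
      μ.real {ω | CrU δ (Hin Ψ x a) (Hout Ψ x b) 0 (op ω ∩ F)} ≤ C * (1 / C₀) ^ α) ∧
    (SegIn δ (Ψ '' H174.HP) 1 F →
      μ.real {ω | CrU δ (Hin Ψ x a) (Hout Ψ x b) 1 ((op ω)ᶜ ∩ F)} ≤ C * (1 / C₀) ^ α) := by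
  obtain ⟨C, α, hC, hα, h⟩ := prob_of_cross
  refine ⟨C, α, hC, hα, fun Rd cd M a b C₀ hRd hcd ha hab hC₀ hlog => ?_⟩
  obtain ⟨d₀, hd₀, h'⟩ := H174.crsw_geo (R := Rd) (c := cd) (M := M) hRd hcd ha hab
    (by linarith : 0 ≤ C₀) hlog
  refine ⟨d₀, hd₀, fun Ψ hΨ x hx δ hδ hδd F => ?_⟩
  obtain ⟨z, d, hd, h2⟩ := h' Ψ hΨ x hx
  refine h (Ψ '' H174.HP) (Hin Ψ x a) (Hout Ψ x b) z d C₀ δ hδ (hδd.trans hd) hC₀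
    (by rintro _ ⟨w, hw, rfl⟩; exact ⟨w, hw.1, rfl⟩) ?_ F
  rintro A hA hAc ⟨p, hp, w, hw, rfl⟩ ⟨q, hq, w', hw', rfl⟩
  exact h2 A hA hAc ⟨w, hw.1, hw.2, hp⟩ ⟨w', hw'.1, hw'.2, hq⟩

/-- The inner part of a conformal half-annulus of `ψ '' loewnerDomain W t`. -/
def Din (ψ : ℂ → ℂ) (W : ℝ → ℝ) (t x a : ℝ) : Set ℂ :=
  ψ '' {w | w ∈ Vale.Agent.P164.loewnerDomain W t ∧
    dist (Vale.Agent.P164.Zf W w t) (x : ℂ) ≤ a}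

/-- The outer part. -/
def Dout (ψ : ℂ → ℂ) (W : ℝ → ℝ) (t x b : ℝ) : Set ℂ :=
  ψ '' {w | w ∈ Vale.Agent.P164.loewnerDomain W t ∧
    b ≤ dist (Vale.Agent.P164.Zf W w t) (x : ℂ)}

/-- **CRSW in the domains of a Loewner chain**, uniform: `d₀` does not depend on `ψ`, `W`, `t`,
`x`. -/
theorem crsw_slit : ∃ C α : ℝ, 0 < C ∧ 0 < α ∧ ∀ T R Rd cd Y M a b C₀ : ℝ, 0 < Rd → 0 < cd →
    0 < Y → 8 * R ≤ Y → 64 * T ≤ Y ^ 2 → 0 < a → a < b → 4 ≤ C₀ →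
    2 * π ^ 2 * (C₀ + 2) ^ 2 < Real.log (b / a) → ∃ d₀ > 0, ∀ ψ : ℂ → ℂ, HConf Rd cd Y ψ →
    ∀ (W : ℝ → ℝ) (t : ℝ), Drv T R W t → ∀ x : ℝ, |x| ≤ M → ∀ δ, 0 < δ → δ ≤ d₀ →
    ∀ F : Set (ℤ × ℤ),
    (SegIn δ (ψ '' Vale.Agent.P164.loewnerDomain W t) 0 F →
      μ.real {ω | CrU δ (Din ψ W t x a) (Dout ψ W t x b) 0 (op ω ∩ F)} ≤ C * (1 / C₀) ^ α) ∧
    (SegIn δ (ψ '' Vale.Agent.P164.loewnerDomain W t) 1 F →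
      μ.real {ω | CrU δ (Din ψ W t x a) (Dout ψ W t x b) 1 ((op ω)ᶜ ∩ F)} ≤
        C * (1 / C₀) ^ α) := by
  obtain ⟨C, α, hC, hα, h⟩ := prob_of_cross
  refine ⟨C, α, hC, hα,
    fun T R Rd cd Y M a b C₀ hRd hcd hY0 hY hY2 ha hab hC₀ hlog => ?_⟩
  obtain ⟨d₀, hd₀, h'⟩ := H174.crsw_Ps (T := T) (R := R) (Rd := Rd) (cd := cd) (Y := Y) (M := M)
    hRd hcd hY0 hY hY2 ha hab (by linarith : 0 ≤ C₀) hlog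
  refine ⟨d₀, hd₀, fun ψ hψ W t H x hx δ hδ hδd F => ?_⟩
  obtain ⟨z, d, hd, h2⟩ := h' ψ hψ W t H x hx
  refine h (ψ '' Vale.Agent.P164.loewnerDomain W t) (Din ψ W t x a) (Dout ψ W t x b) z d C₀ δ hδ
    (hδd.trans hd) hC₀ (by rintro _ ⟨w, hw, rfl⟩; exact ⟨w, hw.1, rfl⟩) ?_ F
  rintro A hA hAc ⟨p, hp, w, hw, rfl⟩ ⟨q, hq, w', hw', rfl⟩
  exact h2 A hA hAc ⟨w, hw.1, hw.2, hp⟩ ⟨w', hw'.1, hw'.2, hq⟩

end Vale.Agent.P167.H161
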