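import Vale.Agent.P167.H161.Que
import Vale.Agent.P167.H411.Inputs6

/-!
# P167: the conditional expectation given the first steps of the interface

`cex_eq`: for the explorations `exn` of `H411/Inputs6` the conditional expectation of a function of
the set of open edges given the first `j` steps is the integral over the squares which were not
read.
-/

namespace Vale.Agent.P167.H161

open Set MeasureTheory
open Vale.Agent.P167.E6 Vale.Agent.P167.E2 Vale.Agent.P167.H558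
open Vale.Agent.P153.R2 (Ex)
open Vale.Agent.P167.H411 (cyl cex Qc exn)

variable {n : ℕ} {p : ZMod n → ℤ × ℤ} {S : Finset (ℤ × ℤ)} {k : ℕ}

theorem As_cfg {A : Finset (Sym2 (ℤ × ℤ))} (hA : A ⊆ edges S) :
    H192.As S (H192.cfg (A : Set (Sym2 (ℤ × ℤ)))) = A := by
  ext e
  rw [H192.mem_As]
  constructor
  · rintro ⟨h1, h2⟩
    rw [H192.cfg_true, H192.ed_sq (H192.isEdge_edges h1)] at h2
    exact h2
  · intro h
    refine ⟨hA h, ?_⟩
    rw [H192.cfg_true, H192.ed_sq (H192.isEdge_edges (hA h))]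
    exact h

/-- The squares which were read before the medial edge `run (j - 1)` was reached. -/
noncomputable def Rd (p : ZMod n → ℤ × ℤ) (k : ℕ) (S : Finset (ℤ × ℤ))
    (A : Finset (Sym2 (ℤ × ℤ))) (j : ℕ) : Finset (ℤ × ℤ) :=
  H192.rev (H192.dq p k S) (H192.bq p k) (H192.me (cs p)) (j - 1)
    (H192.cfg (A : Set (Sym2 (ℤ × ℤ))))

theorem path_run {A : Finset (Sym2 (ℤ × ℤ))} (hA : A ⊆ edges S) (j : ℕ) :
    H192.path (H192.dq p k S) (H192.bq p k) (H192.me (cs p))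
      (H192.cfg (A : Set (Sym2 (ℤ × ℤ)))) j = H192.me (run p k A j) := by
  rw [← H192.E6path, As_cfg hA]
  rfl

theorem mem_Rd {A : Finset (Sym2 (ℤ × ℤ))} (hA : A ⊆ edges S) {j : ℕ} {q : ℤ × ℤ} :
    q ∈ Rd p k S A j ↔ q ∈ H192.dq p k S ∧ ∃ i < j - 1, H192.sq (ahead (run p k A i)) = q := by
  unfold Rd
  rw [H192.mem_rev]
  simp only [path_run hA, H192.hdv_me]

theorem next_ne {O O' : Set (Sym2 (ℤ × ℤ))} {c : Medial} (h : next O c = next O' c) :
    ahead c ∈ O ↔ ahead c ∈ O' := by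
  by_cases h1 : ahead c ∈ O
  · by_cases h2 : ahead c ∈ O'
    · exact iff_of_true h1 h2
    · exfalso
      rw [next_open h1, next_closed h2] at h
      exact add_dir_ne _ _ (congrArg Prod.fst h)
  · by_cases h2 : ahead c ∈ O'
    · exfalso
      rw [next_closed h1, next_open h2] at h
      exact add_dir_ne _ _ (congrArg Prod.fst h).symm
    · exact iff_of_false h1 h2

/-- The cylinder of the first steps = agreement on the squares which were read. -/
theorem run_agree_iff {A A' : Finset (Sym2 (ℤ × ℤ))} (hA : A ⊆ edges S) (hA' : A' ⊆ edges S)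
    (j : ℕ) : (∀ i ≤ j, run p k A' (i - 1) = run p k A (i - 1)) ↔
      ∀ q ∈ Rd p k S A j, H192.cfg (A' : Set (Sym2 (ℤ × ℤ))) q =
        H192.cfg (A : Set (Sym2 (ℤ × ℤ))) q := by
  constructor
  · intro h q hq
    rw [mem_Rd hA] at hq
    obtain ⟨hD, i, hi, rfl⟩ := hq
    have h1 : run p k A' i = run p k A i := by
      have := h (i + 1) (by omega)
      rwa [Nat.add_sub_cancel] at this
    have h2 : run p k A' (i + 1) = run p k A (i + 1) := by
      have := h (i + 2) (by omega)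
      have e : i + 2 - 1 = i + 1 := by omega
      rwa [e] at this
    rw [run_succ, run_succ, h1] at h2
    have h3 := next_ne h2
    rw [H192.mem_dq, H192.ed_sq (H192.isEdge_ahead _)] at hD
    have h4 : ∀ B : Finset (Sym2 (ℤ × ℤ)), ahead (run p k A i) ∈ wiredOpen p k B ↔
        ahead (run p k A i) ∈ B := fun B =>
      ⟨fun h => h.resolve_right hD.2, fun h => Or.inl h⟩
    rw [h4, h4] at h3
    rw [Bool.eq_iff_iff, H192.cfg_true, H192.cfg_true, H192.ed_sq (H192.isEdge_ahead _)]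
    exact h3
  · intro h i hi
    have h1 := H192.path_eq_of_rev (D := H192.dq p k S) (bc := H192.bq p k)
      (e := H192.me (cs p)) (w := H192.cfg (A : Set (Sym2 (ℤ × ℤ))))
      (w' := H192.cfg (A' : Set (Sym2 (ℤ × ℤ)))) (k := j - 1) h (i - 1) (by omega)
    rw [path_run hA, path_run hA'] at h1
    exact H192.me_inj h1

theorem Rd_subset {A : Finset (Sym2 (ℤ × ℤ))} (j : ℕ) : Rd p k S A j ⊆ H192.dq p k S :=
  H192.rev_subset _ _

theorem cfg_As {ω : Cfg} {q : ℤ × ℤ} (hq : H192.ed q ∈ edges S) :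
    H192.cfg (H192.As S ω : Set (Sym2 (ℤ × ℤ))) q = ω q := by
  rw [Bool.eq_iff_iff, H192.cfg_true, Finset.mem_coe, H192.mem_As, H192.sq_ed]
  exact ⟨fun h => h.2, fun h => ⟨hq, h⟩⟩

/-! ### Conditional expectations -/

theorem mu_eq : μ = Pm fair (ℤ × ℤ) := rfl

/-- Conditioning on the values on a finite set. -/
theorem integral_cond {γ : Type*} (K : Finset (ℤ × ℤ)) (w₀ : Cfg) (G : Cfg → γ)
    [MeasurableSpace γ] (hG : Measurable G) (φ : γ → ℝ) (hφ : Measurable φ) :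
    ∫ ω, (if ∀ q ∈ K, ω q = w₀ q then φ (G ω) else 0) ∂μ =
      μ.real {ω | ∀ q ∈ K, ω q = w₀ q} * ∫ ω, φ (G (glue (↑K) w₀ ω)) ∂μ := by
  classical
  have hS : MeasurableSet {ω : Cfg | ∀ q ∈ K, ω q = w₀ q} := by
    have : {ω : Cfg | ∀ q ∈ K, ω q = w₀ q} = Set.pi (↑K : Set (ℤ × ℤ)) (fun q => {w₀ q}) := by
      ext ω
      simp [Set.mem_pi]
    rw [this]
    exact MeasurableSet.pi (Finset.countable_toSet _) fun q _ => MeasurableSet.singleton _
  have hF : Measurable fun ω : Cfg => if ∀ q ∈ K, ω q = w₀ q then φ (G ω) else 0 :=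
    Measurable.ite hS (hφ.comp hG) measurable_const
  rw [mu_eq]
  conv_lhs => rw [← map_glue fair (↑K : Set (ℤ × ℤ))]
  rw [integral_map (measurable_glue _).aemeasurable hF.aestronglyMeasurable]
  have h1 : ∀ z : Cfg × Cfg, (if ∀ q ∈ K, glue (↑K) z.1 z.2 q = w₀ q then
      φ (G (glue (↑K) z.1 z.2)) else 0) =
      (if ∀ q ∈ K, z.1 q = w₀ q then (1 : ℝ) else 0) * φ (G (glue (↑K) w₀ z.2)) := by
    rintro ⟨ω, ω'⟩
    have h2 : (∀ q ∈ K, glue (↑K) ω ω' q = w₀ q) ↔ ∀ q ∈ K, ω q = w₀ q :=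
      forall₂_congr fun q hq => by rw [glue_mem (Finset.mem_coe.2 hq)]
    simp only [h2]
    by_cases h3 : ∀ q ∈ K, ω q = w₀ q
    · rw [if_pos h3, if_pos h3, one_mul]
      congr 2
      funext q
      by_cases hq : q ∈ K
      · rw [glue_mem (Finset.mem_coe.2 hq), glue_mem (Finset.mem_coe.2 hq), h3 q hq]
      · rw [glue_not_mem (fun h => hq (Finset.mem_coe.1 h)),
          glue_not_mem (fun h => hq (Finset.mem_coe.1 h))]
    · rw [if_neg h3, if_neg h3, zero_mul]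
  simp only [h1]
  rw [integral_prod_mul (fun ω : Cfg => if ∀ q ∈ K, ω q = w₀ q then (1 : ℝ) else 0)
    (fun ω => φ (G (glue (↑K) w₀ ω)))]
  congr 1
  rw [← integral_indicator_one hS]
  congr 1
  funext ω
  by_cases h3 : ∀ q ∈ K, ω q = w₀ q
  · rw [if_pos h3, indicator_of_mem (show ω ∈ {ω : Cfg | ∀ q ∈ K, ω q = w₀ q} from h3)]
    rfl
  · rw [if_neg h3, indicator_of_notMem (show ω ∉ {ω : Cfg | ∀ q ∈ K, ω q = w₀ q} from h3)]

/-- The conditioning event has positive probability. -/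
theorem cyl_pos (K : Finset (ℤ × ℤ)) (w₀ : Cfg) : 0 < μ.real {ω | ∀ q ∈ K, ω q = w₀ q} := by
  have : {ω : Cfg | ∀ q ∈ K, ω q = w₀ q} = Set.pi (↑K : Set (ℤ × ℤ)) (fun q => {w₀ q}) := by
    ext ω
    simp [Set.mem_pi]
  rw [this, Measure.real]
  unfold μ
  rw [Measure.infinitePi_pi (μ := fun _ : ℤ × ℤ => fair)
    (fun q _ => MeasurableSet.singleton _)]
  simp only [H192.fair_single]
  rw [ENNReal.toReal_pos_iff]
  refine ⟨?_, ?_⟩
  · rw [pos_iff_ne_zero, Finset.prod_ne_zero_iff]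
    intro q _
    simp
  · rw [Finset.prod_const]
    exact ENNReal.pow_lt_top (by simp)

open Classical in
theorem ex_eq {Cs : Set (Finset (Sym2 (ℤ × ℤ)))} (hC : ∀ A ∈ Cs, A ⊆ edges S)
    (φ : Finset (Sym2 (ℤ × ℤ)) → ℝ) :
    Ex Cs φ = mean S (fun A => if A ∈ Cs then φ A else 0) /
      mean S (fun A => if A ∈ Cs then 1 else 0) := by
  have hf : Cs.Finite := (Finset.finite_toSet (edges S).powerset).subset fun A hA =>
    Finset.mem_coe.2 (Finset.mem_powerset.2 (hC A hA))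
  have h1 : hf.toFinset = (edges S).powerset.filter (· ∈ Cs) := by
    ext A
    rw [Set.Finite.mem_toFinset, Finset.mem_filter, Finset.mem_powerset]
    exact ⟨fun h => ⟨hC A h, h⟩, fun h => h.2⟩
  rw [Ex, finsum_mem_eq_finite_toFinset_sum _ hf, Set.ncard_eq_toFinset_card _ hf, h1]
  unfold mean
  rw [div_div_div_cancel_right₀ (by positivity), ← Finset.sum_filter, ← Finset.sum_filter,
    Finset.sum_const, nsmul_eq_mul, mul_one]

open Classical in
/-- **The conditional expectation given the first steps of the interface.** -/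
theorem ex_cyl {A : Finset (Sym2 (ℤ × ℤ))} (hA : A ⊆ edges S) (j : ℕ)
    (φ : Finset (Sym2 (ℤ × ℤ)) → ℝ) :
    Ex {A' | A' ⊆ edges S ∧ ∀ i ≤ j, run p k A' (i - 1) = run p k A (i - 1)} φ =
      ∫ ω, φ (H192.As S (glue (↑(Rd p k S A j)) (H192.cfg (A : Set (Sym2 (ℤ × ℤ)))) ω)) ∂μ := by
  set w₀ : Cfg := H192.cfg (A : Set (Sym2 (ℤ × ℤ))) with hw₀
  set K := Rd p k S A j with hK
  have hKE : ∀ q ∈ K, H192.ed q ∈ edges S := fun q hq => (H192.mem_dq.1 (Rd_subset j hq)).1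
  have key : ∀ ω : Cfg, H192.As S ω ∈ {A' | A' ⊆ edges S ∧
      ∀ i ≤ j, run p k A' (i - 1) = run p k A (i - 1)} ↔ ∀ q ∈ K, ω q = w₀ q := by
    intro ω
    rw [Set.mem_ofPred_eq, run_agree_iff hA (H192.As_subset S ω)]
    constructor
    · rintro ⟨-, h⟩ q hq
      rw [← cfg_As (ω := ω) (hKE q hq)]
      exact h q hq
    · intro h
      refine ⟨H192.As_subset S ω, fun q hq => ?_⟩
      rw [cfg_As (hKE q hq)]
      exact h q hq
  rw [ex_eq (fun A' h => h.1), H192.mean_eq, H192.mean_eq]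
  simp only [key]
  have hG : ∀ ψ : Finset (Sym2 (ℤ × ℤ)) → ℝ, Measurable fun ω : Cfg => ψ (H192.As S ω) :=
    fun ψ => H192.measurable_As S ψ
  have h1 := integral_cond K w₀ (fun ω : Cfg => φ (H192.As S ω)) (hG φ) id measurable_id
  have h2 := integral_cond K w₀ (fun _ : Cfg => (1 : ℝ)) measurable_const id measurable_id
  simp only [id] at h1 h2
  rw [h1, h2]
  simp only [integral_const, smul_eq_mul, mul_one, probReal_univ]
  rw [mul_div_cancel_left₀ _ (cyl_pos K w₀).ne']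

/-- **The conditional expectations of the explorations `exn`.** -/
theorem cex_eq (δ : ℕ → ℝ) (N k : ℕ → ℕ) (p : ∀ n, ZMod (N n) → ℤ × ℤ)
    (S : ℕ → Finset (ℤ × ℤ)) (ψn : ℕ → ℂ → ℂ) (n : ℕ) (φ : Finset (Sym2 (ℤ × ℤ)) → ℝ)
    {A : Finset (Sym2 (ℤ × ℤ))} (hA : A ⊆ edges (S n)) (j : ℕ) :
    cex (exn δ N k p S ψn n) φ A j = ∫ ω, φ (H192.As (S n)
      (glue (↑(Rd (p n) (k n) (S n) A j)) (H192.cfg (A : Set (Sym2 (ℤ × ℤ)))) ω)) ∂μ := by
  rw [← ex_cyl hA]
  show Ex (cyl (exn δ N k p S ψn n) A j) φ = _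
  congr 1
  ext A'
  show A' ∈ (Qc (p n) (k n) (δ n) (S n)).C ∧ _ ↔ _
  rw [H411.mem_Qc]
  rfl

end Vale.Agent.P167.H161
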