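import Vale.Agent.P167.H161.Law
import Vale.Agent.P167.H411.Inputs6

/-!
# P167, block E6 (crossing numbers): the input `I_cross6` of `S_seq`
-/

namespace Vale.Agent.P167.H161

open Set Filter Topology
open scoped ENNReal
open Vale.Agent.P167.E6 Vale.Agent.P167.E2 Vale.Agent.P167.SLE
open Vale.Agent.P153.R2.C1 (Cross reparam)

/-- **Input `I_cross6`.** -/
theorem cross6 : H411.I_cross6 := by
  intro Φ δ N k p S h y r hr q hq
  have hη : Tendsto (fun n => 2 * δ n) atTop (𝓝 0) := by
    simpa using h.2.1.const_mul 2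
  refine cross_law h (X := fun n A => Xc (p n) (k n) (δ n) A.1) hη (fun n A c hc => ?_) y hr.le
    (by linarith) hq
  obtain ⟨h1, h2, h3, h4, h5⟩ := h.1 n
  have hA := Finset.mem_powerset.1 A.2
  refine ⟨OrderIso.refl _, ?_⟩
  rw [isInterface_unique h4 h5 h3 hA hc]
  have h6 : reparam (crv (p n) (k n) (δ n) A.1) (OrderIso.refl unitInterval) =
      crv (p n) (k n) (δ n) A.1 := by
    ext t
    rfl
  rw [h6]
  exact dist_crv_Xc h4 h5 h2 h3 hA h1.le

end Vale.Agent.P167.H161
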