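import Vale.Agent.P167.H166.Cross
import Vale.Agent.P167.H558.Stop2

/-!
# P167: one-arm bound in the plane for squares around a square (both colours)
-/

namespace Vale.Agent.P167.H161

open MeasureTheory
open Vale.Agent.P145.FB (PStep)
open Vale.Agent.P167.H166 Vale.Agent.P167.H871 Vale.Agent.P167.H558
open scoped ENNReal

/-- An arm along squares of `F` from distance `r` to distance `R` of the square `x`; `e = 0`: through
even sites, `e = 1`: through odd sites. -/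
def Arm (x : ℤ × ℤ) (r R e : ℤ) (F : Set (ℤ × ℤ)) : Prop :=
  ∃ s t : ℤ × ℤ, (s.1 + s.2) % 2 = e ∧ nm (s - x) ≤ r + 1 ∧ R - 1 ≤ nm (t - x) ∧
    Relation.ReflTransGen (PStep F) s t

theorem Arm.mono {x : ℤ × ℤ} {r R e : ℤ} {F F' : Set (ℤ × ℤ)} (h : F ⊆ F') (hA : Arm x r R e F) :
    Arm x r R e F' := by
  obtain ⟨s, t, h1, h2, h3, h4⟩ := hA
  exact ⟨s, t, h1, h2, h3, rtg_mono h h4⟩

theorem armS_of {x : ℤ × ℤ} {r R : ℤ} {ω : Cfg} (h : Arm x r R 0 (op ω)) :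
    ArmS (fi x) (2 * (r + 1)) (R - 1) (SB ω) := by
  obtain ⟨s, t, h1, h2, h3, h5⟩ := h
  have h6 := nc_of_pconn (by rw [Int.even_iff]; exact h1) (pconn_of h5)
  simp only [nm, Prod.fst_sub, Prod.snd_sub, max_le_iff, le_max_iff, abs_le, le_abs] at h2 h3
  refine ⟨fi s, fi t, h6.mono_ (fun _ hz => hz.1), ?_, ?_, ?_⟩ <;> simp only [fi, abs_le, le_abs] <;>
    omega

theorem armS_of' {x : ℤ × ℤ} {r R : ℤ} {ω : Cfg} (h : Arm x r R 1 (op ω)ᶜ) :
    ArmS (fi x) (2 * (r + 1)) (R - 1) (SB ω)ᶜ := by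
  obtain ⟨s, t, h1, h2, h3, h5⟩ := h
  have h6 := ncd_of_pconn (by rw [Int.odd_iff]; exact h1) (pconn_of h5)
  simp only [nm, Prod.fst_sub, Prod.snd_sub, max_le_iff, le_max_iff, abs_le, le_abs] at h2 h3
  refine ⟨fi s, fi t, h6.mono_ (fun _ hz => hz.1), ?_, ?_, ?_⟩ <;> simp only [fi, abs_le, le_abs] <;>
    omega

/-- **One arm in the plane.** -/
theorem arm_le : ∃ C α : ℝ, 0 < C ∧ 0 < α ∧ ∀ (x : ℤ × ℤ) (r R : ℤ), 1 ≤ r → r ≤ R →
    μ.real {ω | Arm x r R 0 (op ω)} ≤ C * ((r : ℝ) / R) ^ α ∧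
    μ.real {ω | Arm x r R 1 (op ω)ᶜ} ≤ C * ((r : ℝ) / R) ^ α := by
  obtain ⟨C, α, hC, hα, h⟩ := arm_decay fair_mu
  have h5 : (0 : ℝ) < (5 : ℝ) ^ α := by positivity
  have h8 : (0 : ℝ) < (8 : ℝ) ^ α := by positivity
  refine ⟨5 ^ α + C * 8 ^ α, α, by positivity, hα, fun x r R hr hR => ?_⟩
  have hr' : (1 : ℝ) ≤ r := by exact_mod_cast hr
  have hR' : (r : ℝ) ≤ R := by exact_mod_cast hR
  have hq : (0 : ℝ) ≤ (r : ℝ) / R := by apply div_nonneg <;> linarith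
  have hqa : (0 : ℝ) ≤ ((r : ℝ) / R) ^ α := Real.rpow_nonneg hq α
  rcases lt_or_ge (R - 1) (2 * (r + 1)) with hlt | hge
  · -- trivial bound
    have h1 : 1 ≤ (5 ^ α + C * 8 ^ α) * ((r : ℝ) / R) ^ α := by
      have h2 : (1 : ℝ) ≤ (5 * ((r : ℝ) / R)) ^ α := by
        apply Real.one_le_rpow _ hα.le
        rw [← mul_div_assoc, le_div_iff₀ (by linarith)]
        have : R ≤ 5 * r := by omega
        have : (R : ℝ) ≤ 5 * r := by exact_mod_cast this
        linarith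
      rw [Real.mul_rpow (by norm_num) hq] at h2
      nlinarith [mul_nonneg (mul_nonneg hC.le h8.le) hqa]
    exact ⟨measureReal_le_one.trans h1, measureReal_le_one.trans h1⟩
  · have hb : C * (((2 * (r + 1) : ℤ) : ℝ) / ((R - 1 : ℤ) : ℝ)) ^ α ≤
        (5 ^ α + C * 8 ^ α) * ((r : ℝ) / R) ^ α := by
      have hR1 : (2 : ℝ) ≤ R := by
        have : (2 : ℤ) ≤ R := by omega
        exact_mod_cast this
      have h2 : ((2 * (r + 1) : ℤ) : ℝ) / ((R - 1 : ℤ) : ℝ) ≤ 8 * ((r : ℝ) / R) := by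
        push_cast
        rw [← mul_div_assoc, div_le_div_iff₀ (by linarith) (by linarith)]
        nlinarith
      have h3 : (0 : ℝ) ≤ ((2 * (r + 1) : ℤ) : ℝ) / ((R - 1 : ℤ) : ℝ) := by
        push_cast
        apply div_nonneg <;> linarith
      have h4 : (((2 * (r + 1) : ℤ) : ℝ) / ((R - 1 : ℤ) : ℝ)) ^ α ≤ 8 ^ α * ((r : ℝ) / R) ^ α := by
        rw [← Real.mul_rpow (by norm_num) hq]
        exact Real.rpow_le_rpow h3 h2 hα.le
      calc C * (((2 * (r + 1) : ℤ) : ℝ) / ((R - 1 : ℤ) : ℝ)) ^ α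
          ≤ C * (8 ^ α * ((r : ℝ) / R) ^ α) := mul_le_mul_of_nonneg_left h4 hC.le
        _ ≤ _ := by nlinarith [mul_nonneg h5.le hqa]
    obtain ⟨h1, h2⟩ := h (fi x) (2 * (r + 1)) (R - 1) (by omega) hge
    exact ⟨(measureReal_mono (fun ω hω => armS_of hω)).trans (h1.trans hb),
      (measureReal_mono (fun ω hω => armS_of' hω)).trans (h2.trans hb)⟩

/-- An arm of one of the two colours, along the squares of `F`. -/
def Arm2 (x : ℤ × ℤ) (r R : ℤ) (F : Set (ℤ × ℤ)) (ω : Cfg) : Prop :=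
  Arm x r R 0 (op ω ∩ F) ∨ Arm x r R 1 ((op ω)ᶜ ∩ F)

/-- **A fresh arm behind a stopping set.** `R` is a stopping set, `x` is a square determined by the
past: the probability of an arm around `x` along the squares of `F` which were not read is small. -/
theorem fresh_arm2 : ∃ C α : ℝ, 0 < C ∧ 0 < α ∧ ∀ (r R : ℤ), 1 ≤ r → r ≤ R →
    ∀ (F : Finset (ℤ × ℤ)) (K : Cfg → Finset (ℤ × ℤ)), StopSet K →
    ∀ x : Cfg → ℤ × ℤ, Past K x →
    (∀ ω ω' : Cfg, (∀ q ∈ F, ω' q = ω q) → K ω' = K ω ∧ x ω' = x ω) →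
      μ.real {ω | Arm2 (x ω) r R (↑F \ ↑(K ω)) ω} ≤ C * ((r : ℝ) / R) ^ α := by
  obtain ⟨C, α, hC, hα, h⟩ := arm_le
  refine ⟨2 * C, α, by positivity, hα, fun r R hr hR F K hK x hx hdep => ?_⟩
  have hq0 : (0 : ℝ) ≤ C * ((r : ℝ) / R) ^ α := by
    have hr' : (1 : ℝ) ≤ r := by exact_mod_cast hr
    have hR' : (r : ℝ) ≤ R := by exact_mod_cast hR
    exact mul_nonneg hC.le (Real.rpow_nonneg (div_nonneg (by linarith) (by linarith)) α)
  have hcong : ∀ (c : ℤ × ℤ) (G : Set (ℤ × ℤ)) (ω ω' : Cfg), (∀ i ∈ G, ω' i = ω i) →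
      Arm2 c r R G ω → Arm2 c r R G ω' := by
    intro c G ω ω' hω
    have e1 : op ω ∩ G = op ω' ∩ G := by
      ext i
      simp only [Set.mem_inter_iff, op, Set.mem_ofPred_eq]
      constructor
      · rintro ⟨a, b⟩; exact ⟨by rw [hω i b]; exact a, b⟩
      · rintro ⟨a, b⟩; exact ⟨by rw [← hω i b]; exact a, b⟩
    have e2 : (op ω)ᶜ ∩ G = (op ω')ᶜ ∩ G := by
      ext i
      simp only [Set.mem_inter_iff, Set.mem_compl_iff, op, Set.mem_ofPred_eq]
      constructor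
      · rintro ⟨a, b⟩; exact ⟨by rw [hω i b]; exact a, b⟩
      · rintro ⟨a, b⟩; exact ⟨by rw [← hω i b]; exact a, b⟩
    unfold Arm2
    rw [e1, e2]
    exact id
  have hm : MeasurableSet {ω : Cfg | Arm2 (x ω) r R (↑F \ ↑(K ω)) ω} := by
    have : Past (fun _ : Cfg => F) (fun ω : Cfg => Arm2 (x ω) r R (↑F \ ↑(K ω)) ω) := by
      intro ω ω' hω
      obtain ⟨e1, e2⟩ := hdep ω ω' hω
      show Arm2 (x ω') r R (↑F \ ↑(K ω')) ω' = Arm2 (x ω) r R (↑F \ ↑(K ω)) ω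
      rw [e1, e2]
      exact propext ⟨hcong _ _ _ _ fun i hi => (hω i (Finset.mem_coe.1 hi.1)).symm,
        hcong _ _ _ _ fun i hi => hω i (Finset.mem_coe.1 hi.1)⟩
    exact this.measurableSet {p | p}
  have key := fresh_le fair hK (Y := fun _ => True) (fun _ _ _ => rfl) hx
    (E := fun c J ω => Arm2 c r R (↑F \ ↑J) ω)
    (fun c J ω ω' hω => hcong c _ ω ω' fun i hi => hω i fun h' => hi.2 (Finset.mem_coe.2 h')) hm
    (E' := fun c => {ω | Arm2 c r R Set.univ ω})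
    (q := ENNReal.ofReal (2 * (C * ((r : ℝ) / R) ^ α)))
    (fun c J ω hE => by
      rcases hE with hE | hE
      · exact Or.inl (hE.mono fun i hi => ⟨hi.1, trivial⟩)
      · exact Or.inr (hE.mono fun i hi => ⟨hi.1, trivial⟩))
    (fun ω _ => by
      obtain ⟨h1, h2⟩ := h (x ω) r R hr hR
      have h3 : μ.real {ω' | Arm2 (x ω) r R Set.univ ω'} ≤ 2 * (C * ((r : ℝ) / R) ^ α) := by
        calc μ.real {ω' | Arm2 (x ω) r R Set.univ ω'}
            ≤ μ.real ({ω' | Arm (x ω) r R 0 (op ω')} ∪ {ω' | Arm (x ω) r R 1 (op ω')ᶜ}) := by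
              refine measureReal_mono ?_
              rintro ω' (hE | hE)
              · exact Or.inl (hE.mono Set.inter_subset_left)
              · exact Or.inr (hE.mono Set.inter_subset_left)
          _ ≤ _ := measureReal_union_le _ _
          _ ≤ _ := by linarith
      rw [← ofReal_measureReal]
      exact ENNReal.ofReal_le_ofReal h3)
  have h1 : (Pm fair (ℤ × ℤ)) {ω : Cfg | Arm2 (x ω) r R (↑F \ ↑(K ω)) ω} ≤
      ENNReal.ofReal (2 * (C * ((r : ℝ) / R) ^ α)) := by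
    refine le_trans (measure_mono ?_) (key.trans ?_)
    · intro ω hω
      exact ⟨trivial, hω⟩
    · refine (mul_le_mul_right (prob_le_one) _).trans ?_
      rw [mul_one]
  have h2 : μ {ω : Cfg | Arm2 (x ω) r R (↑F \ ↑(K ω)) ω} ≤
      ENNReal.ofReal (2 * (C * ((r : ℝ) / R) ^ α)) := h1
  rw [Measure.real]
  refine ENNReal.toReal_le_of_le_ofReal (by linarith) (h2.trans (le_of_eq ?_))
  congr 1
  ring

end Vale.Agent.P167.H161
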