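import Vale.Agent.P167.H161.Frz

/-!
# P167, block E6 (crossing numbers): the tail of the number of excursions of the interface
-/

namespace Vale.Agent.P167.H161

open MeasureTheory
open Vale.Agent.P167.E6 Vale.Agent.P167.E2
open Vale.Agent.P167.H166

variable {n : ℕ} {p : ZMod n → ℤ × ℤ} {S : Finset (ℤ × ℤ)} {k : ℕ}

/-- The interface makes `m` successive excursions, before the exit, from the box of radius `r` to
the outside of the box of radius `R`. -/
def RExc (p : ZMod n → ℤ × ℤ) (k : ℕ) (A : Finset (Sym2 (ℤ × ℤ))) (x : ℤ × ℤ) (r R : ℤ) (m : ℕ) :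
    Prop :=
  ∃ t : ℕ → ℕ, Monotone t ∧ ∀ j < m,
    nm (H192.sq (ahead (run p k A (t (2 * j)))) - x) ≤ r ∧
    R < nm (H192.sq (ahead (run p k A (t (2 * j + 1)))) - x) ∧ t (2 * j + 1) < len p k A

theorem exc_of_rexc (hp : IsPolygon p) (hS : Encloses p S) (h0 : 0 < k) (hk : k < n) {w : Cfg}
    {x : ℤ × ℤ} {r R : ℤ} {m : ℕ} (h : RExc p k (H192.As S w) x r R m) :
    Exc (ovq p k S w) (H192.me (cs p)) x r R m := by
  obtain ⟨t, ht, h⟩ := h
  have hpos := len_pos hp hS hk (H192.As_subset S w)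
  refine ⟨len p k (H192.As S w) - 1, t, ?_, ht, ?_⟩
  · intro i hi j hj hij
    rw [Set.mem_Iic] at hi hj
    simp only at hij
    rw [run_eq hp hS h0 hk w (by omega), run_eq hp hS h0 hk w (by omega)] at hij
    exact run_inj hp hS hk (H192.As_subset S w) (by omega) (by omega) (H192.me_inj hij)
  · intro j hj
    obtain ⟨h1, h2, h3⟩ := h j hj
    have h4 : t (2 * j) ≤ t (2 * j + 1) := ht (by omega)
    rw [run_eq hp hS h0 hk w (by omega), run_eq hp hS h0 hk w (by omega), H192.hdv_me,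
      H192.hdv_me]
    exact ⟨h1, h2, by omega⟩

/-- Expectation of an indicator. -/
theorem mean_ind (S : Finset (ℤ × ℤ)) (Q : Finset (Sym2 (ℤ × ℤ)) → Prop) [DecidablePred Q] :
    mean S (fun A => if Q A then 1 else 0) = μ.real {w | Q (H192.As S w)} := by
  rw [H192.mean_eq]
  have hm : MeasurableSet {w : Cfg | Q (H192.As S w)} :=
    (H192.measurable_As (γ := Bool) S (fun A => decide (Q A))) (measurableSet_singleton true)
      |> fun h => by
        convert h using 1
        ext w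
        simp
  rw [← integral_indicator_one hm]
  congr 1
  funext w
  by_cases h : Q (H192.As S w)
  · rw [if_pos h, Set.indicator_of_mem (show w ∈ {w | Q (H192.As S w)} from h)]
    rfl
  · rw [if_neg h, Set.indicator_of_notMem (show w ∉ {w | Q (H192.As S w)} from h)]

open Classical in
/-- **Tail of the number of excursions of the interface.** -/
theorem rexc_mean : ∃ κ : ℤ, 2 ≤ κ ∧ ∀ (n : ℕ) (p : ZMod n → ℤ × ℤ) (S : Finset (ℤ × ℤ)) (k : ℕ),
    IsPolygon p → Encloses p S → 0 < k → k < n → ∀ (c : ℕ → ℕ), Monotone c → ∀ (M : ℕ),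
    (∀ i < n, c i < M) → ∀ ρ : ℤ, (∀ i j, i < n → j < n → c i = c j →
      nm (H192.ro (p i) - H192.ro (p j)) ≤ ρ) →
    ∀ (x : ℤ × ℤ) (r R : ℤ), 1 ≤ r → κ * r ≤ R → κ * r + ρ + 4 ≤ R → ∀ m : ℕ,
      mean S (fun A => if RExc p k A x r R m then 1 else 0) ≤ 2 * (1 / 2) ^ ((m - 2 * M) / 2) := by
  obtain ⟨κ, hκ, h⟩ := exc_tail
  refine ⟨κ, hκ, fun n p S k hp hS h0 hk c hc M hM ρ hρ x r R hr hR hR' m => ?_⟩
  obtain ⟨P, hP, h1⟩ := frz hp hS hc hk hM hρ
  have h2 := h x r R hr hR (Fq p k S) (ovq p k S) (fun w v hv => ovq_off w v hv) P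
    (fun w v hv hn => h1 x (κ * r) R hR' w v hv hn) (H192.me (cs p)) m
  rw [mean_ind]
  refine (measureReal_mono (fun w hw => exc_of_rexc hp hS h0 hk hw)).trans (h2.trans ?_)
  refine mul_le_mul_of_nonneg_left ?_ (by norm_num)
  exact pow_le_pow_of_le_one (by norm_num) (by norm_num) (by omega)

end Vale.Agent.P167.H161
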