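import Vale.Agent.P167.H161.Crs

/-!
# P167, block E6 (crossing numbers): main theorems
-/

namespace Vale.Agent.P167.H161

open Set Filter Topology
open Vale.Agent.P167.E6 Vale.Agent.P167.E2
open Vale.Agent.P153.R2.C1 (Cross)
open Vale.Agent.P153.R2.Final (dom circ toC)

/-- The radii. -/
theorem radii {K d δ : ℝ} (hK : 2 ≤ K) (hd : 0 < d) (hδ : 0 < δ) (h : δ < d / (16 * (K + 3))) :
    K * (2 * (d / (64 * K)) / δ + 3) + 6 * (d / 192) / δ + 4 ≤
      (d - δ - d / (64 * K)) / (2 * δ) - 4 := by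
  have hK0 : (0 : ℝ) < K := by linarith
  have h1 : 3 * K + 8 ≤ 3 * (d / δ) / 16 := by
    have h2 : K + 3 < d / δ / 16 := by
      rw [lt_div_iff₀ (by positivity)] at h
      rw [lt_div_iff₀ (by norm_num), lt_div_iff₀ hδ]
      linarith
    linarith
  have h2 : K * (2 * (d / (64 * K)) / δ + 3) = d / δ / 32 + 3 * K := by
    field_simp
    ring
  have h3 : 6 * (d / 192) / δ = d / δ / 32 := by
    field_simp
    ring
  have h4 : (d - δ - d / (64 * K)) / (2 * δ) = (d / δ) / 2 - 1 / 2 - (d / δ) / (128 * K) := by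
    field_simp
    ring
  have h5 : (d / δ) / (128 * K) ≤ (d / δ) / 128 := by
    apply div_le_div_of_nonneg_left (by positivity) (by norm_num)
    nlinarith
  have h6 : 0 < d / δ := by positivity
  rw [h2, h3, h4]
  linarith

open Classical in
/-- **The numbers of crossings of the interface are tight**, lattice form. -/
theorem scross_mean {Φ : (ℝ × ℝ) ≃ₜ (ℝ × ℝ)} {δ : ℕ → ℝ} {N k : ℕ → ℕ}
    {p : ∀ n, ZMod (N n) → ℤ × ℤ} {S : ℕ → Finset (ℤ × ℤ)} (h : Approx Φ δ N k p S) (y : ℂ)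
    {r r' : ℝ} (h0 : 0 ≤ r) (hr : r < r') {e : ℝ} (he : 0 < e) : ∃ m : ℕ, ∀ᶠ n in atTop,
      mean (S n) (fun A => if SCross (fun j => mid (δ n) (run (p n) (k n) A j))
        (len (p n) (k n) A) y r r' m then 1 else 0) ≤ e := by
  obtain ⟨κ, hκ, hκ2⟩ := rexc_mean
  obtain ⟨h1, h2, h3⟩ := h
  set K : ℝ := (κ : ℝ) with hK
  have hK2 : (2 : ℝ) ≤ K := by rw [hK]; exact_mod_cast hκ
  set d : ℝ := (r' - r) / 2 with hd
  have hd0 : 0 < d := by rw [hd]; linarith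
  set ρ₀ : ℝ := d / (64 * K) with hρ₀
  have hρpos : 0 < ρ₀ := by rw [hρ₀]; positivity
  set ε : ℝ := d / 192 with hε
  have hε0 : 0 < ε := by rw [hε]; positivity
  obtain ⟨M, hM⟩ := blocks Φ hε0
  obtain ⟨Zs, -, hZf, hZc⟩ := (isCompact_closedBall y r').finite_cover_balls hρpos
  set Z : Finset ℂ := hZf.toFinset with hZ
  have hZ1 : ∀ u, dist u y ≤ r' → ∃ z ∈ Z, dist u z ≤ ρ₀ := by
    intro u hu
    have := hZc (Metric.mem_closedBall.2 hu)
    simp only [mem_iUnion, Metric.mem_ball] at this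
    obtain ⟨z, hz, hz'⟩ := this
    exact ⟨z, hZf.mem_toFinset.2 hz, hz'.le⟩
  have hZpos : 0 < Z.card := by
    obtain ⟨z, hz, -⟩ := hZ1 y (by rw [dist_self]; linarith)
    exact Finset.card_pos.2 ⟨z, hz⟩
  -- the number of crossings
  obtain ⟨l, hl⟩ : ∃ l : ℕ, Z.card * (2 * (1 / 2 : ℝ) ^ l) ≤ e := by
    have h4 : Tendsto (fun l : ℕ => (Z.card : ℝ) * (2 * (1 / 2 : ℝ) ^ l)) atTop (𝓝 0) := by
      have := ((tendsto_pow_atTop_nhds_zero_of_lt_one (r := (1 / 2 : ℝ)) (by norm_num)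
        (by norm_num)).const_mul 2).const_mul (Z.card : ℝ)
      simpa using this
    exact ((h4.eventually (gt_mem_nhds he)).exists).imp fun _ h => h.le
  refine ⟨Z.card * (2 * l + 2 * M), ?_⟩
  have hdiv : (Z.card * (2 * l + 2 * M) / Z.card - 2 * M) / 2 = l := by
    rw [Nat.mul_div_cancel_left _ hZpos]
    omega
  filter_upwards [h2.eventually (gt_mem_nhds (show (0 : ℝ) < d / (16 * (K + 3)) by positivity)),
    h3 ε hε0] with n hn1 hn2
  obtain ⟨s, hs, hs0, -, hsN, hsd⟩ := hn2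
  obtain ⟨hδ, hk0, hkN, hp, hS⟩ := h1 n
  obtain ⟨c, hc, hcM, hcρ⟩ := hM (δ n) (N n) (p n) s hδ hs hs0 hsN hsd
  have hrad := radii hK2 hd0 hδ hn1
  -- radii
  set rb : ℤ := ⌈2 * ρ₀ / δ n⌉ + 2 with hrb
  set Rb : ℤ := ⌊(d - δ n - ρ₀) / (2 * δ n)⌋ - 3 with hRb
  set ρ : ℤ := ⌊6 * ε / δ n⌋ with hρ
  have b1 := Int.le_ceil (2 * ρ₀ / δ n)
  have b2 := Int.ceil_lt_add_one (2 * ρ₀ / δ n)
  have b3 := Int.floor_le ((d - δ n - ρ₀) / (2 * δ n))
  have b4 := Int.lt_floor_add_one ((d - δ n - ρ₀) / (2 * δ n))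
  have b5 := Int.floor_le (6 * ε / δ n)
  have b6 : 0 ≤ ρ := Int.floor_nonneg.2 (by positivity)
  have b7 : (1 : ℤ) ≤ rb := by
    have : 0 ≤ ⌈2 * ρ₀ / δ n⌉ := Int.ceil_nonneg (by positivity)
    omega
  have b8 : κ * rb + ρ + 4 ≤ Rb := by
    have : (κ : ℝ) * (rb : ℝ) + (ρ : ℝ) + 4 ≤ (Rb : ℝ) := by
      have c1 : (rb : ℝ) ≤ 2 * ρ₀ / δ n + 3 := by
        rw [hrb]; push_cast; linarith
      have c2 : (κ : ℝ) * (rb : ℝ) ≤ K * (2 * ρ₀ / δ n + 3) :=
        mul_le_mul_of_nonneg_left c1 (by linarith)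
      have c3 : (Rb : ℝ) ≥ (d - δ n - ρ₀) / (2 * δ n) - 4 := by
        rw [hRb]; push_cast; linarith
      have c4 : (ρ : ℝ) ≤ 6 * ε / δ n := b5
      linarith
    exact_mod_cast this
  have b9 : κ * rb ≤ Rb := by omega
  -- the estimate
  have key : ∀ A : Finset (Sym2 (ℤ × ℤ)), (if SCross (fun j => mid (δ n) (run (p n) (k n) A j))
        (len (p n) (k n) A) y r r' (Z.card * (2 * l + 2 * M)) then (1 : ℝ) else 0) ≤
      ∑ z ∈ Z, if RExc (p n) (k n) A (rnd (δ n) z) rb Rb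
        (Z.card * (2 * l + 2 * M) / Z.card) then (1 : ℝ) else 0 := by
    intro A
    split_ifs with hA
    · have h5 : r + d + δ n ≤ r' := by
        have : δ n < d := by
          refine hn1.trans_le ?_
          rw [div_le_iff₀ (by positivity)]
          nlinarith
        rw [hd] at this ⊢
        linarith
      obtain ⟨z, hz, hz1⟩ := hA.cover (r₁ := r + d) (δ := δ n) (ρ₀ := ρ₀)
        (fun j _ => by rw [run_succ]; exact mid_next (δ n) hδ.le _ _) hδ.le (by linarith) h5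
        (by linarith) hZ1
      have h6 : r' - (r + d) - δ n - ρ₀ = d - δ n - ρ₀ := by rw [hd]; ring
      rw [h6] at hz1
      have h7 : RExc (p n) (k n) A (rnd (δ n) z) rb Rb (Z.card * (2 * l + 2 * M) / Z.card) := by
        refine rexc_of_scross hδ ?_ ?_ hz1
        · rw [hrb]; push_cast; linarith
        · have h8 : (d - δ n - ρ₀) / δ n = 2 * ((d - δ n - ρ₀) / (2 * δ n)) := by
            field_simp
          rw [h8, hRb]
          push_cast
          linarith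
      calc (1 : ℝ) = if RExc (p n) (k n) A (rnd (δ n) z) rb Rb
            (Z.card * (2 * l + 2 * M) / Z.card) then (1 : ℝ) else 0 := by rw [if_pos h7]
        _ ≤ _ := Finset.single_le_sum (f := fun z => if RExc (p n) (k n) A (rnd (δ n) z) rb Rb
            (Z.card * (2 * l + 2 * M) / Z.card) then (1 : ℝ) else 0)
            (fun z _ => by
              show (0 : ℝ) ≤ if RExc (p n) (k n) A (rnd (δ n) z) rb Rb
                (Z.card * (2 * l + 2 * M) / Z.card) then (1 : ℝ) else 0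
              split_ifs <;> norm_num) hz
    · exact Finset.sum_nonneg fun z _ => by split_ifs <;> norm_num
  refine (mean_mono fun A _ => key A).trans ?_
  rw [mean_sum]
  refine le_trans ?_ hl
  rw [← nsmul_eq_mul]
  refine Finset.sum_le_card_nsmul _ _ _ fun z _ => ?_
  have h9 := hκ2 (N n) (p n) (S n) (k n) hp hS hk0 hkN c hc M hcM ρ
    (fun i j hi hj hij => Int.le_floor.2 (hcρ i j hi hj hij)) (rnd (δ n) z) rb Rb b7 b9 b8
    (Z.card * (2 * l + 2 * M) / Z.card)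
  rw [hdiv] at h9
  exact h9

/-! ### Curves -/

/-- A curve which is close to the interface. -/
def Near (a : ℕ → ℂ) (L : ℕ) (X : C(unitInterval, ℂ)) (η : ℝ) : Prop :=
  ∃ u : unitInterval → ℕ, Monotone u ∧ (∀ t, u t < L) ∧ ∀ t, dist (X t) (a (u t)) ≤ η

theorem Near.cross {a : ℕ → ℂ} {L : ℕ} {X : C(unitInterval, ℂ)} {η : ℝ} (h : Near a L X η)
    {y : ℂ} {r r' s s' : ℝ} (hr : r + η ≤ s) (hr' : s' ≤ r' - η) {m : ℕ} (hX : Cross X y r r' m) :
    SCross a L y s s' m := by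
  obtain ⟨u, hu, hL, hd⟩ := h
  obtain ⟨t, ht, hX⟩ := hX
  refine ⟨fun i => u (t i), fun i j hij => hu (ht hij), fun i hi => ?_⟩
  obtain ⟨h1, h2⟩ := hX i hi
  refine ⟨?_, ?_, hL _⟩
  · have h3 := dist_triangle (a (u (t (2 * i)))) (X (t (2 * i))) y
    rw [dist_comm (a (u (t (2 * i)))) (X (t (2 * i)))] at h3
    linarith [hd (t (2 * i))]
  · have h3 := dist_triangle (X (t (2 * i + 1))) (a (u (t (2 * i + 1)))) y
    linarith [hd (t (2 * i + 1))]

/-- A curve which is close to a reparametrisation of a curve near the interface. -/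
theorem Near.reparam {a : ℕ → ℂ} {L : ℕ} {X Y : C(unitInterval, ℂ)} {η η' : ℝ}
    (h : Near a L X η) (φ : unitInterval ≃o unitInterval)
    (hY : dist (Vale.Agent.P153.R2.C1.reparam X φ) Y ≤ η') : Near a L Y (η + η') := by
  obtain ⟨u, hu, hL, hd⟩ := h
  refine ⟨fun t => u (φ t), fun s t hst => hu (φ.monotone hst), fun t => hL _, fun t => ?_⟩
  have h1 := (ContinuousMap.dist_apply_le_dist
    (f := Vale.Agent.P153.R2.C1.reparam X φ) (g := Y) t).trans hY
  have h2 : Vale.Agent.P153.R2.C1.reparam X φ t = X (φ t) := rfl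
  rw [h2, dist_comm] at h1
  have h3 := dist_triangle (Y t) (X (φ t)) (a (u (φ t)))
  linarith [hd (φ t)]

/-- The interface is near its medial path. -/
theorem near_crv {n : ℕ} {p : ZMod n → ℤ × ℤ} {S : Finset (ℤ × ℤ)} {k : ℕ}
    {A : Finset (Sym2 (ℤ × ℤ))} {δ : ℝ} (hδ : 0 ≤ δ) (hp : IsPolygon p) (hS : Encloses p S)
    (h0 : 0 < k) (hk : k < n) (hA : A ⊆ edges S) :
    Near (fun j => mid δ (run p k A j)) (len p k A) (crv p k δ A) δ := by
  have h2 := two_le_len hp hS hk hA h0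
  refine ⟨fun t => ⌊(t : ℝ) * ((len p k A - 1 : ℕ) : ℝ)⌋₊, ?_, ?_, ?_⟩
  · intro s t hst
    exact Nat.floor_mono (mul_le_mul_of_nonneg_right hst (Nat.cast_nonneg _))
  · intro t
    have h3 : (t : ℝ) * ((len p k A - 1 : ℕ) : ℝ) ≤ ((len p k A - 1 : ℕ) : ℝ) := by
      have := t.2.2
      have h4 : (0 : ℝ) ≤ ((len p k A - 1 : ℕ) : ℝ) := Nat.cast_nonneg _
      nlinarith
    have h5 := Nat.floor_mono h3
    rw [Nat.floor_natCast] at h5
    show ⌊(t : ℝ) * ((len p k A - 1 : ℕ) : ℝ)⌋₊ < len p k A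
    omega
  · intro t
    show dist (poly (fun j => mid δ (run p k A j)) (len p k A - 1) t) _ ≤ δ
    unfold poly
    set s : ℝ := (t : ℝ) * ((len p k A - 1 : ℕ) : ℝ) with hs
    have h3 : 0 ≤ s := mul_nonneg t.2.1 (Nat.cast_nonneg _)
    have h4 := Nat.floor_le h3
    have h5 := Nat.lt_floor_add_one s
    have h6 : dist (mid δ (run p k A (⌊s⌋₊ + 1))) (mid δ (run p k A ⌊s⌋₊)) ≤ δ := by
      rw [run_succ]
      exact mid_next δ hδ _ _
    rw [dist_eq_norm] at h6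
    simp only
    rw [dist_eq_norm, add_sub_cancel_left, norm_mul, Complex.norm_real,
      Real.norm_of_nonneg (by linarith)]
    nlinarith [norm_nonneg (mid δ (run p k A (⌊s⌋₊ + 1)) - mid δ (run p k A ⌊s⌋₊))]

open Classical in
/-- **The numbers of crossings are tight** for all curves near the interfaces. -/
theorem near_mean {Φ : (ℝ × ℝ) ≃ₜ (ℝ × ℝ)} {δ : ℕ → ℝ} {N k : ℕ → ℕ}
    {p : ∀ n, ZMod (N n) → ℤ × ℤ} {S : ℕ → Finset (ℤ × ℤ)} (h : Approx Φ δ N k p S)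
    {X : ∀ n, Finset (Sym2 (ℤ × ℤ)) → C(unitInterval, ℂ)} {η : ℕ → ℝ} (hη : Tendsto η atTop (𝓝 0))
    (hX : ∀ n, ∀ A ⊆ edges (S n), Near (fun j => mid (δ n) (run (p n) (k n) A j))
      (len (p n) (k n) A) (X n A) (η n)) (y : ℂ)
    {r r' : ℝ} (h0 : 0 ≤ r) (hr : r < r') {e : ℝ} (he : 0 < e) : ∃ m : ℕ, ∀ᶠ n in atTop,
      mean (S n) (fun A => if Cross (X n A) y r r' m then 1 else 0) ≤ e := by
  obtain ⟨m, hm⟩ := scross_mean h y (r := r + (r' - r) / 3) (r' := r' - (r' - r) / 3)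
    (by linarith) (by linarith) he
  refine ⟨m, ?_⟩
  filter_upwards [hm, hη.eventually (gt_mem_nhds (show (0 : ℝ) < (r' - r) / 3 by linarith))]
    with n hn1 hn2
  refine (mean_mono fun A hA => ?_).trans hn1
  split_ifs with h1 h2 h2
  · exact le_rfl
  · exact absurd ((hX n A hA).cross (by linarith) (by linarith) h1) h2
  · exact zero_le_one
  · exact le_rfl

open Classical in
/-- **The numbers of crossings of the interfaces are tight.** -/
theorem i_cross6 {Φ : (ℝ × ℝ) ≃ₜ (ℝ × ℝ)} {δ : ℕ → ℝ} {N k : ℕ → ℕ}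
    {p : ∀ n, ZMod (N n) → ℤ × ℤ} {S : ℕ → Finset (ℤ × ℤ)} (h : Approx Φ δ N k p S)
    {x : ∀ n, Finset (Sym2 (ℤ × ℤ)) → C(unitInterval, ℂ)}
    (hx : ∀ n, ∀ A ⊆ edges (S n), IsInterface (p n) (k n) (δ n) A (x n A)) (y : ℂ)
    {r r' : ℝ} (h0 : 0 ≤ r) (hr : r < r') {e : ℝ} (he : 0 < e) : ∃ m : ℕ, ∀ᶠ n in atTop,
      mean (S n) (fun A => if Cross (x n A) y r r' m then 1 else 0) ≤ e := by
  refine near_mean h h.2.1 (fun n A hA => ?_) y h0 hr he
  obtain ⟨h1, h2, h3, h4, h5⟩ := h.1 n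
  rw [isInterface_unique h4 h5 h3 hA (hx n A hA)]
  exact near_crv h1.le h4 h5 h2 h3 hA

end Vale.Agent.P167.H161
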