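import Vale.Agent.P167.H161.Main
import Vale.Agent.P167.SLE.Asm6

/-!
# P167, block E6 (crossing numbers): the field `cross` of `SeqHyp`
-/

namespace Vale.Agent.P167.H161

open Set Filter Topology MeasureTheory
open scoped ENNReal
open Vale.Agent.P167.E6 Vale.Agent.P167.E2 Vale.Agent.P167.SLE
open Vale.Agent.P153.R2.C1 (Cross reparam)

open Classical in
/-- Probabilities for `law`. -/
theorem law_eq {S : Finset (ℤ × ℤ)} (Q : Cf S → Prop) :
    law S {ω | Q ω} = ENNReal.ofReal (mean S fun A =>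
      if h : A ∈ (edges S).powerset then (if Q ⟨A, h⟩ then 1 else 0) else 0) := by
  rw [SLE.mean_eq]
  have h1 : ∀ A : Cf S, (if h : A.1 ∈ (edges S).powerset then (if Q ⟨A.1, h⟩ then (1 : ℝ) else 0)
      else 0) = {ω : Cf S | Q ω}.indicator 1 A := by
    intro A
    rw [dif_pos A.2]
    by_cases h : Q A
    · rw [Set.indicator_of_mem (show A ∈ {ω : Cf S | Q ω} from h)]
      exact if_pos h
    · rw [Set.indicator_of_notMem (show A ∉ {ω : Cf S | Q ω} from h)]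
      exact if_neg h
  simp only [h1]
  rw [integral_indicator_one MeasurableSet.of_discrete]
  simp only [Measure.real]
  rw [ENNReal.ofReal_toReal (measure_ne_top _ _)]

open Classical in
/-- **The field `cross`**: crossing numbers of the curves `X`, close to the interfaces up to
reparametrisation. -/
theorem cross_law {Φ : (ℝ × ℝ) ≃ₜ (ℝ × ℝ)} {δ : ℕ → ℝ} {N k : ℕ → ℕ}
    {p : ∀ n, ZMod (N n) → ℤ × ℤ} {S : ℕ → Finset (ℤ × ℤ)} (h : Approx Φ δ N k p S)
    {X : ∀ n, Cf (S n) → C(unitInterval, ℂ)} {η : ℕ → ℝ} (hη : Tendsto η atTop (𝓝 0))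
    (hX : ∀ (n : ℕ) (A : Cf (S n)) (c : C(unitInterval, ℂ)), IsInterface (p n) (k n) (δ n) A.1 c →
      ∃ φ : unitInterval ≃o unitInterval, dist (reparam c φ) (X n A) ≤ η n)
    (y : ℂ) {r r' : ℝ} (h0 : 0 ≤ r) (hr : r < r') {q : ℝ≥0∞} (hq : 0 < q) :
    ∃ m : ℕ, ∀ᶠ n in atTop, law (S n) {ω | Cross (X n ω) y r r' m} ≤ q := by
  obtain ⟨e, he, heq⟩ := ENNReal.lt_iff_exists_nnreal_btwn.1 hq
  have he' : (0 : ℝ) < e := by
    exact_mod_cast he
  have hη' : Tendsto (fun n => δ n + η n) atTop (𝓝 0) := by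
    simpa using h.2.1.add hη
  have hdef : ∀ n, ∃ Y : Finset (Sym2 (ℤ × ℤ)) → C(unitInterval, ℂ),
      ∀ A : Cf (S n), Y A.1 = X n A := fun n =>
    ⟨fun A => if hA : A ∈ (edges (S n)).powerset then X n ⟨A, hA⟩ else 0, fun A => by
      simp only
      rw [dif_pos A.2]
      rfl⟩
  choose Y hY using hdef
  obtain ⟨m, hm⟩ := near_mean h hη' (X := Y) (fun n A hA => by
    obtain ⟨h1, h2, h3, h4, h5⟩ := h.1 n
    have h6 := near_crv h1.le h4 h5 h2 h3 hA
    have h7 := isInterface_crv h4 h5 h2 h3 hA (δ n)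
    obtain ⟨φ, hφ⟩ := hX n ⟨A, Finset.mem_powerset.2 hA⟩ _ h7
    rw [show Y n A = X n ⟨A, Finset.mem_powerset.2 hA⟩ from hY n ⟨A, Finset.mem_powerset.2 hA⟩]
    exact h6.reparam φ hφ) y h0 hr he'
  refine ⟨m, ?_⟩
  filter_upwards [hm] with n hn
  refine le_trans ?_ heq.le
  rw [law_eq]
  refine (ENNReal.ofReal_le_ofReal ((mean_mono fun A hA => ?_).trans hn)).trans ?_
  · rw [dif_pos (Finset.mem_powerset.2 hA)]
    rw [show Y n A = X n ⟨A, Finset.mem_powerset.2 hA⟩ from hY n ⟨A, Finset.mem_powerset.2 hA⟩]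
  · rw [ENNReal.ofReal_coe_nnreal]

end Vale.Agent.P167.H161
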