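import Vale.Agent.P167.H166.Arc

/-!
# P167, block E6 (crossing numbers): potentials in a box with any centre
-/

namespace Vale.Agent.P167.H161

open Finset
open Vale.Agent.P145.FB (PStep)
open Vale.Agent.P167.H166

/-- `w` is a potential of `A` in the box of radius `R` around `x`. -/
def PotX (x : ℤ × ℤ) (R : ℤ) (A : Set Ed) (w : ℤ × ℤ → ℤ) : Prop :=
  ∀ e : Ed, (hdv e ∈ FK.Bq x R ∨ tlv e ∈ FK.Bq x R) →
    (e ∈ A → w (ls e) = w (rs e) + 1) ∧ (e ∉ A → w (ls e) = w (rs e))

/-- Existence of the potential. -/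
theorem exists_PotX {x : ℤ × ℤ} {R : ℤ} {ω : Cfg} {A : Set Ed}
    (h : Inv (FK.Bq x R : Set (ℤ × ℤ)) ω A) : ∃ w : ℤ × ℤ → ℤ, PotX x R A w := by
  classical
  obtain ⟨x1, x2⟩ := x
  set u : Ed → ℤ := fun e => if e ∈ A then sg e else 0 with hu
  obtain ⟨w, h1, h2⟩ := exists_pot (fun x y => -u (Sum.inr (x, y - 1)))
    (fun x y => u (Sum.inl (x - 1, y))) (x1 - R) (x2 - R) (x1 + R) (x2 + R) (by
      intro x y a1 a2 a3 a4
      have := kirchhoff (ω := ω) (A := A) (v := (x, y)) (fun e he => h e (by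
        rw [he, Finset.mem_coe, mem_Bq]
        simp only
        omega))
      simp only [hu]
      have e1 : x + 1 - 1 = x := by ring
      have e2 : y + 1 - 1 = y := by ring
      rw [e1, e2]
      linarith)
  refine ⟨fun s => w s.1 s.2, ?_⟩
  rintro (⟨x, y⟩ | ⟨x, y⟩) he
  · -- horizontal medial edge
    have hb : x1 - R ≤ x + 1 ∧ x + 1 ≤ x1 + R ∧ x2 - R ≤ y ∧ y < x2 + R := by
      simp only [hdv, tlv, mem_Bq] at he
      by_cases hp : Even (x + y) <;> simp only [hp, if_true, if_false] at he <;> omega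
    have h3 := h2 (x + 1) y hb.1 hb.2.1 hb.2.2.1 hb.2.2.2
    have e1 : x + 1 - 1 = x := by ring
    rw [e1] at h3
    simp only [hu] at h3
    by_cases hp : Even (x + y)
    · simp only [ls, rs, sg, hp, if_true] at h3 ⊢
      constructor
      · intro hA
        rw [if_pos hA] at h3
        linarith
      · intro hA
        rw [if_neg hA] at h3
        linarith
    · simp only [ls, rs, sg, hp, if_false] at h3 ⊢
      constructor
      · intro hA
        rw [if_pos hA] at h3
        linarith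
      · intro hA
        rw [if_neg hA] at h3
        linarith
  · have hb : x1 - R ≤ x ∧ x < x1 + R ∧ x2 - R ≤ y + 1 ∧ y + 1 ≤ x2 + R := by
      simp only [hdv, tlv, mem_Bq] at he
      by_cases hp : Even (x + y) <;> simp only [hp, if_true, if_false] at he <;> omega
    have h3 := h1 x (y + 1) hb.1 hb.2.1 hb.2.2.1 hb.2.2.2
    have e1 : y + 1 - 1 = y := by ring
    rw [e1] at h3
    simp only [hu] at h3
    by_cases hp : Even (x + y)
    · simp only [ls, rs, sg, hp, if_true] at h3 ⊢
      constructor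
      · intro hA
        rw [if_pos hA] at h3
        linarith
      · intro hA
        rw [if_neg hA] at h3
        linarith
    · simp only [ls, rs, sg, hp, if_false] at h3 ⊢
      constructor
      · intro hA
        rw [if_pos hA] at h3
        linarith
      · intro hA
        rw [if_neg hA] at h3
        linarith

/-- The potential is constant along the interfaces. -/
theorem PotX.nx {x : ℤ × ℤ} {R : ℤ} {ω : Cfg} {A : Set Ed} {w : ℤ × ℤ → ℤ} (hw : PotX x R A w)
    (h : Inv (FK.Bq x R : Set (ℤ × ℤ)) ω A) {e : Ed} (he : hdv e ∈ FK.Bq x R) :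
    w (ls (nx ω e)) = w (ls e) ∧ w (rs (nx ω e)) = w (rs e) := by
  have h1 := hw e (Or.inl he)
  have h2 := hw (Vale.Agent.P167.nx ω e) (Or.inr (by rw [tlv_nx]; exact he))
  have h3 := h e (Finset.mem_coe.2 he)
  cases hb : ω (hdv e) with
  | true =>
    have h4 := rs_nx hb
    rw [h4] at h2 ⊢
    by_cases hA : e ∈ A
    · have := h1.1 hA
      have := h2.1 (h3.1 hA)
      exact ⟨by linarith, rfl⟩
    · have := h1.2 hA
      have := h2.2 (fun hn => hA (h3.2 hn))
      exact ⟨by linarith, rfl⟩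
  | false =>
    have h4 := ls_nx hb
    rw [h4] at h2 ⊢
    by_cases hA : e ∈ A
    · have := h1.1 hA
      have := h2.1 (h3.1 hA)
      exact ⟨rfl, by linarith⟩
    · have := h1.2 hA
      have := h2.2 (fun hn => hA (h3.2 hn))
      exact ⟨rfl, by linarith⟩

/-- The potential takes the same value at the two primal corners of an open square and at the two
dual corners of a closed square. -/
theorem PotX.sq {x : ℤ × ℤ} {R : ℤ} {ω : Cfg} {A : Set Ed} {w : ℤ × ℤ → ℤ} (hw : PotX x R A w)
    (h : Inv (FK.Bq x R : Set (ℤ × ℤ)) ω A) {s t : ℤ × ℤ}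
    (hB : (min s.1 t.1, min s.2 t.2) ∈ FK.Bq x R)
    (hst : Even (s.1 + s.2) ∧ PStep (op ω) s t ∨ Odd (s.1 + s.2) ∧ PStep (op ω)ᶜ s t) :
    w s = w t := by
  rcases hst with ⟨h1, h2⟩ | ⟨h1, h2⟩
  · have hv : PStep {(min s.1 t.1, min s.2 t.2)} s t := ⟨h2.1, h2.2.1, rfl⟩
    obtain ⟨e, he1, he2⟩ := (exists_edge hv).1 h1
    have hb : ω (hdv e) = true := by rw [he1]; exact h2.2.2
    obtain ⟨h3, h4⟩ := (nx_step ω e).1 hb
    rw [he1, he2] at h3
    have h5 := opp hv h3
    have h6 := (hw.nx h (e := e) (by rw [he1]; exact hB)).1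
    rw [he2, ← h5] at h6
    exact h6.symm
  · have hv : PStep {(min s.1 t.1, min s.2 t.2)} s t := ⟨h2.1, h2.2.1, rfl⟩
    obtain ⟨e, he1, he2⟩ := (exists_edge hv).2 h1
    have hb : ω (hdv e) = false := by
      rw [he1]
      have := h2.2.2
      simp only [Set.mem_compl_iff, op, Set.mem_ofPred_eq, Bool.not_eq_true] at this
      exact this
    obtain ⟨h3, h4⟩ := (nx_step ω e).2 hb
    rw [he1, he2] at h4
    have h5 := opp hv h4
    have h6 := (hw.nx h (e := e) (by rw [he1]; exact hB)).2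
    rw [he2, ← h5] at h6
    exact h6.symm

/-- Along an interface inside the box the potentials of the left and of the right sites are
constant. -/
theorem PotX.fw {x : ℤ × ℤ} {R : ℤ} {ω : Cfg} {A : Set Ed} {w : ℤ × ℤ → ℤ} (hw : PotX x R A w)
    (h : Inv (FK.Bq x R : Set (ℤ × ℤ)) ω A) {e e' : Ed} (he : Fw (FK.Bq x R) ω e e') :
    w (ls e') = w (ls e) ∧ w (rs e') = w (rs e) := by
  obtain ⟨n, rfl, hn⟩ := he
  induction n with
  | zero => exact ⟨rfl, rfl⟩
  | succ n ih =>
    obtain ⟨h1, h2⟩ := ih fun i hi => hn i (by omega)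
    rw [Function.iterate_succ_apply']
    obtain ⟨h3, h4⟩ := hw.nx h (hn n (by omega))
    exact ⟨h3.trans h1, h4.trans h2⟩

end Vale.Agent.P167.H161
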