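import Vale.Agent.P167.H161.Tri
import Vale.Agent.P167.H327.Rado6

/-!
# P167, block CG3 (CELL), dual half
-/

open Set Metric

namespace Vale.Agent.P167.H161.Cell

open Vale.Agent.P167.E6 Vale.Agent.P167.E2 Vale.Agent.P167.H634
open Vale.Agent.P167.Fjord (Wd)

variable {n : ℕ} {p : ZMod n → ℤ × ℤ} {S : Finset (ℤ × ℤ)} {k : ℕ} {A : Finset (Sym2 (ℤ × ℤ))}
  {δ : ℝ} {τ : ℕ}

/-- A point of an edge is in the boxes of its ends or of its midpoint. -/
theorem edge_boxes (hδ : 0 < δ) {u : ℤ × ℤ} {r : Fin 4} {σ : ℝ} (h0 : 0 ≤ σ) (h1 : σ ≤ 1) {z : ℂ}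
    (hz : sc δ z = epn u σ r) : z ∈ VB δ (1 / 4) u ∨ z ∈ EB δ (1 / 4) u (u + dir r) ∨
      z ∈ VB δ (1 / 4) (u + dir r) := by
  unfold VB EB
  rw [mem_Bx hδ, mem_Bx hδ, mem_Bx hδ, hz, epn_re, epn_im]
  have key : ∀ a b : ℝ, |a - b| ≤ 1 / 4 ↔ b - 1 / 4 ≤ a ∧ a ≤ b + 1 / 4 := by
    intro a b
    rw [abs_le]
    constructor <;> rintro ⟨h, h'⟩ <;> constructor <;> linarith
  simp only [key]
  rcases le_total σ (1 / 4) with h2 | h2
  · left
    rcases fin4c r with rfl | rfl | rfl | rfl <;> simp only [pd0, pd1, pd2, pd3] <;>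
      refine ⟨⟨?_, ?_⟩, ?_, ?_⟩ <;> linarith
  · right
    rcases le_total σ (3 / 4) with h3 | h3
    · left
      rcases fin4c r with rfl | rfl | rfl | rfl <;>
        simp only [pt_re, pt_im, dir0, dir1, dir2, dir3, Prod.fst_add, Prod.snd_add] <;>
        push_cast <;> refine ⟨⟨?_, ?_⟩, ?_, ?_⟩ <;> linarith
    · right
      rcases fin4c r with rfl | rfl | rfl | rfl <;>
        simp only [pt_re, pt_im, dir0, dir1, dir2, dir3, Prod.fst_add, Prod.snd_add] <;>
        push_cast <;> refine ⟨⟨?_, ?_⟩, ?_, ?_⟩ <;> linarith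

theorem EB_symm (δ ρ : ℝ) (u v : ℤ × ℤ) : EB δ ρ u v = EB δ ρ v u := by
  unfold EB
  rw [add_comm (u.1 : ℝ), add_comm (u.2 : ℝ)]

/-- The same for an edge given as an unordered pair. -/
theorem edge_boxes' (hδ : 0 < δ) {u : ℤ × ℤ} {r : Fin 4} {σ : ℝ} (h0 : 0 ≤ σ) (h1 : σ ≤ 1) {z : ℂ}
    (hz : sc δ z = epn u σ r) {a b : ℤ × ℤ} (he : s(u, u + dir r) = s(a, b)) :
    z ∈ VB δ (1 / 4) a ∨ z ∈ EB δ (1 / 4) a b ∨ z ∈ VB δ (1 / 4) b := by
  have h := edge_boxes hδ h0 h1 hz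
  rw [Sym2.eq_iff] at he
  rcases he with ⟨h2, h3⟩ | ⟨h2, h3⟩
  · rw [h3, h2] at h
    exact h
  · rw [h3, h2, EB_symm] at h
    tauto

/-- The two faces of an edge. -/
theorem two_faces {u : ℤ × ℤ} {r : Fin 4} {c : Medial} (h : ahead c = s(u, u + dir r)) :
    (fc c = face u r ∧ face c.1 (c.2 + 1) = face u (r - 1)) ∨
      (fc c = face u (r - 1) ∧ face c.1 (c.2 + 1) = face u r) := by
  unfold ahead at h
  rw [Sym2.eq_iff] at h
  rcases h with ⟨h1, h2⟩ | ⟨h1, h2⟩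
  · right
    rw [← h1] at h2 ⊢
    have h3 := dir_inj (add_left_cancel h2)
    rw [← h3, fin4_2]
    exact ⟨rfl, rfl⟩
  · left
    have h3 : dir r = dir (c.2 + 1 + 2) := by
      rw [dir_add_two, eq_neg_iff_add_eq_zero, add_comm]
      have : u + (dir r + dir (c.2 + 1)) = u := by
        rw [← add_assoc, ← h1, h2]
      rw [add_comm (dir (c.2 + 1))]
      exact add_eq_left.1 this
    have h4 := dir_inj h3
    subst h4
    rw [← h2, face_right, fin4_2]
    refine ⟨rfl, ?_⟩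
    have e : c.2 + 1 + 2 - 1 = c.2 + 1 + 1 := by
      generalize c.2 = x
      revert x
      decide
    rw [e, face_left]

/-- Every point of `C` on an edge outside of `Q`: the edge is fresh if a face at it is not
visited. -/
theorem fresh_edge (hδ : 0 < δ) {C : Set ℂ} (hC : Disjoint C (LO p k A δ τ))
    {u : ℤ × ℤ} {r : Fin 4} {σ : ℝ} (h0 : 0 ≤ σ) (h1 : σ ≤ 1) {z : ℂ} (hzC : z ∈ C)
    (hz : sc δ z = epn u σ r) {f : ℤ × ℤ} (hf : f = face u r ∨ f = face u (r - 1)) (hfS : f ∈ S)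
    (hfv : ∀ i ≤ τ, f ≠ fc (run p k A i)) {Q : Set (Sym2 (ℤ × ℤ))} (hQ : s(u, u + dir r) ∉ Q) :
    Fr p k S A Q τ s(u, u + dir r) := by
  have hLO : z ∉ LO p k A δ τ := fun h => (Set.disjoint_left.1 hC) hzC h
  refine ⟨?_, ?_, hQ, ?_⟩
  · rw [mem_edges]
    rcases hf with rfl | rfl
    · exact Or.inl hfS
    · exact Or.inr hfS
  · rintro ⟨i, hi, hi', he⟩
    rcases edge_boxes' hδ h0 h1 hz he with h | h | h
    · exact hLO (Or.inr (Or.inl ⟨i, hi, by omega, h⟩))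
    · exact hLO (Or.inr (Or.inr (Or.inr ⟨i, hi, hi', h⟩)))
    · exact hLO (Or.inr (Or.inl ⟨i + 1, by omega, hi', by push_cast; exact h⟩))
  · intro i hi he
    by_cases ho : ahead (run p k A i) ∈ wiredOpen p k A
    · have e1 : (run p k A (i + 1)).1 = (run p k A i).1 + dir ((run p k A i).2 + 1) := by
        rw [run_succ, next_open ho]
      rcases edge_boxes' hδ h0 h1 hz (a := (run p k A i).1)
        (b := (run p k A i).1 + dir ((run p k A i).2 + 1)) he.symm with h | h | h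
      · exact hLO (Or.inl ⟨i, hi.le, h⟩)
      · exact hLO (Or.inr (Or.inr (Or.inl ⟨i, hi, ho, h⟩)))
      · exact hLO (Or.inl ⟨i + 1, hi, by rw [e1]; exact h⟩)
    · have e1 : fc (run p k A (i + 1)) = face (run p k A i).1 ((run p k A i).2 + 1) := by
        rw [run_succ, next_closed ho]
        rfl
      have h2 := hfv i hi.le
      have h3 := hfv (i + 1) hi
      rw [e1] at h3
      rcases two_faces he with ⟨h4, h5⟩ | ⟨h4, h5⟩ <;> rcases hf with rfl | rfl
      · exact h2 h4.symm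
      · exact h3 h5.symm
      · exact h3 h5.symm
      · exact h2 h4.symm

/-! ### The terminal -/

theorem step_face {c : Medial} {ω : Set (Sym2 (ℤ × ℤ))} {l : ℝ} (h0 : 0 ≤ l) (h1 : l ≤ 1) {w : ℂ}
    (h2 : |w.re - (cpt (1 / 4) c + (l : ℂ) * (cpt (1 / 4) (next ω c) - cpt (1 / 4) c)).re| < 1 / 16)
    (h3 : |w.im - (cpt (1 / 4) c + (l : ℂ) * (cpt (1 / 4) (next ω c) - cpt (1 / 4) c)).im| < 1 / 16)
    {f : ℤ × ℤ} (hf : w ∈ CF f) : f = fc c ∨ f = fc (next ω c) := by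
  obtain ⟨v, r⟩ := c
  obtain ⟨⟨f1, f2⟩, f3, f4⟩ := hf
  rw [Complex.add_re, Complex.re_ofReal_mul, Complex.sub_re, cpt_re, cpt_re, abs_lt] at h2
  rw [Complex.add_im, Complex.im_ofReal_mul, Complex.sub_im, cpt_im, cpt_im, abs_lt] at h3
  obtain ⟨h2, h2'⟩ := h2
  obtain ⟨h3, h3'⟩ := h3
  by_cases ho : ahead (v, r) ∈ ω
  · left
    symm
    rw [next_open ho] at h2 h2' h3 h3'
    simp only at h2 h2' h3 h3'
    refine of_cf (z := w) ?_ ⟨⟨f1, f2⟩, f3, f4⟩
    show w ∈ OF (face v r)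
    clear ho f1 f2 f3 f4
    rcases fin4c r with rfl | rfl | rfl | rfl <;>
      simp only [f4_01, f4_11, f4_21, f4_31, f4_0m, f4_1m, f4_2m, f4_3m, sq0, sq1, sq2, sq3, dir0,
        dir1, dir2, dir3, Prod.fst_add, Prod.snd_add] at h2 h2' h3 h3' <;>
      push_cast at h2 h2' h3 h3' <;>
      simp only [face0, face1, face2, face3, OF, mem_ofPred_eq] <;> push_cast <;>
      refine ⟨⟨?_, ?_⟩, ?_, ?_⟩ <;> linarith
  · rw [next_closed ho] at h2 h2' h3 h3' ⊢
    simp only at h2 h2' h3 h3'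
    clear ho
    have cast1 : ∀ {a b : ℤ}, (a : ℝ) < b + 1 → a ≤ b := by
      intro a b h
      have : (a : ℝ) < ((b + 1 : ℤ) : ℝ) := by push_cast; exact h
      have : a < b + 1 := by exact_mod_cast this
      omega
    rcases fin4c r with rfl | rfl | rfl | rfl <;>
      simp only [f4_01, f4_11, f4_21, f4_31, sq0, sq1, sq2, sq3] at h2 h2' h3 h3' <;>
      simp only [fc, f4_01, f4_11, f4_21, f4_31, face0, face1, face2, face3, Prod.ext_iff]
    · have k1 : f.2 ≤ v.2 := cast1 (by linarith)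
      have k2 : v.2 ≤ f.2 := cast1 (by linarith)
      have k3 : f.1 ≤ v.1 := cast1 (by linarith)
      have k4 : v.1 - 1 ≤ f.1 := cast1 (by push_cast; linarith)
      omega
    · have k1 : f.1 ≤ v.1 - 1 := cast1 (by push_cast; linarith)
      have k2 : v.1 - 1 ≤ f.1 := cast1 (by push_cast; linarith)
      have k3 : f.2 ≤ v.2 := cast1 (by linarith)
      have k4 : v.2 - 1 ≤ f.2 := cast1 (by push_cast; linarith)
      omega
    · have k1 : f.2 ≤ v.2 - 1 := cast1 (by push_cast; linarith)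
      have k2 : v.2 - 1 ≤ f.2 := cast1 (by push_cast; linarith)
      have k3 : f.1 ≤ v.1 := cast1 (by linarith)
      have k4 : v.1 - 1 ≤ f.1 := cast1 (by push_cast; linarith)
      omega
    · have k1 : f.1 ≤ v.1 := cast1 (by linarith)
      have k2 : v.1 ≤ f.1 := cast1 (by linarith)
      have k3 : f.2 ≤ v.2 := cast1 (by linarith)
      have k4 : v.2 - 1 ≤ f.2 := cast1 (by push_cast; linarith)
      omega

/-- The bit at the start is inside its face. -/
theorem bit_face {c : Medial} {θ : ℝ} (h0 : 1 / 4 ≤ θ) (h1 : θ ≤ 3 / 8) {w : ℂ}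
    (h2 : |w.re - (cpt θ c).re| < 1 / 16) (h3 : |w.im - (cpt θ c).im| < 1 / 16)
    {f : ℤ × ℤ} (hf : w ∈ CF f) : f = fc c := by
  obtain ⟨v, r⟩ := c
  rw [cpt_re, abs_lt] at h2
  rw [cpt_im, abs_lt] at h3
  obtain ⟨h2, h2'⟩ := h2
  obtain ⟨h3, h3'⟩ := h3
  symm
  refine of_cf (z := w) ?_ hf
  show w ∈ OF (face v r)
  simp only at h2 h2' h3 h3'
  rcases fin4c r with rfl | rfl | rfl | rfl <;> simp only [sq0, sq1, sq2, sq3] at h2 h2' h3 h3' <;>
    simp only [face0, face1, face2, face3, OF, mem_ofPred_eq] <;> push_cast <;>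
    refine ⟨⟨?_, ?_⟩, ?_, ?_⟩ <;> linarith

theorem near_sc (hδ : 0 < δ) {a b : ℝ} (h : |a - b| < δ / 16) : |a / δ - b / δ| < 1 / 16 := by
  rw [← sub_div, abs_div, abs_of_pos hδ, div_lt_iff₀ hδ]
  linarith

/-- A face of the domain near the path is visited. -/
theorem near_visited (hp : IsPolygon p) (hS : Encloses p S) (hδ : 0 < δ) (hτ : τ ≤ len p k A)
    {z : ℂ} {f : ℤ × ℤ} (hf : f ∈ S) (hz : sc δ z ∈ CF f) (hn : Near p k S A δ τ z) :
    ∃ i ≤ τ, f = fc (run p k A i) := by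
  obtain ⟨x, hx, hx1, hx2⟩ := hn
  rcases hx with ⟨t, ht, rfl⟩ | hx
  · have e1 : (pl p k δ A t).re / δ = (lin (xv p k A) t).re := by
      unfold pl
      rw [Complex.re_ofReal_mul, mul_div_cancel_left₀ _ hδ.ne']
    have e2 : (pl p k δ A t).im / δ = (lin (xv p k A) t).im := by
      unfold pl
      rw [Complex.im_ofReal_mul, mul_div_cancel_left₀ _ hδ.ne']
    have g1 := near_sc hδ hx1
    have g2 := near_sc hδ hx2
    rw [e1] at g1
    rw [e2] at g2
    rcases le_or_gt t 1 with h1 | h1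
    · rw [lin_first h1] at g1 g2
      have h3 := bit_face (w := sc δ z) (by linarith) (by linarith [ht.1]) g1 g2 hz
      rw [h3] at hf
      exact absurd hf (fc_cs hp hS)
    · have h2 : (0 : ℝ) ≤ t - 1 := by linarith
      have h3 := Nat.floor_le h2
      have h4 := Nat.lt_floor_add_one (t - 1)
      set m := ⌊t - 1⌋₊ with hm
      have h5 : m ≤ τ := by
        have : (m : ℝ) ≤ τ := by linarith [ht.2]
        exact_mod_cast this
      rcases h5.lt_or_eq with h6 | h6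
      · have e3 : lin (xv p k A) t = cpt (1 / 4) (run p k A m) + ((t - 1 - m : ℝ) : ℂ) *
            (cpt (1 / 4) (next (wiredOpen p k A) (run p k A m)) - cpt (1 / 4) (run p k A m)) := by
          rw [lin_eq _ (m + 1) (Or.inl (by push_cast; linarith)) (by push_cast; linarith),
            xv_mid (by omega), xv_mid (by omega), run_succ]
          push_cast
          ring
        rw [e3] at g1 g2
        rcases step_face (by linarith) (by linarith) g1 g2 hz with h | h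
        · exact ⟨m, h5, h⟩
        · exact ⟨m + 1, h6, by rw [run_succ]; exact h⟩
      · have h7 : t - 1 = m := le_antisymm (by rw [h6]; linarith [ht.2]) h3
        have e3 : lin (xv p k A) t = cpt (1 / 4) (run p k A m) := by
          have h8 : t - ((m + 1 : ℕ) : ℝ) = 0 := by push_cast; linarith
          rw [lin_eq _ (m + 1) (Or.inl (by push_cast; linarith)) (by push_cast; linarith),
            xv_mid (by omega), h8]
          simp
        rw [e3] at g1 g2
        exact ⟨m, h5, bit_face le_rfl (by norm_num) g1 g2 hz⟩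
  · exfalso
    have h1 : x ∉ Om δ S := by
      rw [(H327.isOpen_Om hδ S).frontier_eq] at hx
      exact hx.2
    apply h1
    have h2 : z ∈ region δ S := by
      rw [← sc_mul hδ z]
      exact mem_region_of hδ.le hf hz.1.1 hz.1.2 hz.2.1 hz.2.2
    refine ⟨z, h2, ?_, ?_⟩
    · rw [abs_sub_comm]
      linarith
    · rw [abs_sub_comm]
      linarith

/-! ### The connected set -/

theorem fin4_four : ∀ a b : Fin 4, b = a ∨ b = a + 1 ∨ b = a + 2 ∨ b = a + 3 := by decide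

theorem fin4_h : ∀ r : Fin 4, r + 2 - 1 = r + 1 := by decide

theorem fin4_chain {G N : Fin 4 → Prop} (hc : ∀ r, N r → (G r ↔ G (r - 1)))
    (hN : ∀ r, N r → N (r + 2) → N (r + 1) ∨ N (r + 3)) {a b : Fin 4} (ha : N a) (hb : N b)
    (h1 : G a ∨ G (a - 1)) : G b ∧ G (b - 1) := by
  have hGa : G a ∧ G (a - 1) := by
    rcases h1 with h | h
    · exact ⟨h, (hc a ha).1 h⟩
    · exact ⟨(hc a ha).2 h, h⟩
  rcases fin4_four a b with rfl | rfl | rfl | rfl
  · exact hGa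
  · have e : a + 1 - 1 = a := fin4_2 a
    have := hc _ hb
    rw [e] at this ⊢
    exact ⟨this.2 hGa.1, hGa.1⟩
  · rcases hN a ha hb with h | h
    · have e : a + 1 - 1 = a := fin4_2 a
      have e' : a + 2 - 1 = a + 1 := by generalize a = x; revert x; decide
      have h2 := hc _ h
      rw [e] at h2
      have h3 := hc _ hb
      rw [e'] at h3 ⊢
      exact ⟨h3.2 (h2.2 hGa.1), h2.2 hGa.1⟩
    · have e : a + 3 - 1 = a + 2 := by generalize a = x; revert x; decide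
      have e2 : a + 3 = a - 1 := by generalize a = x; revert x; decide
      have h2 := hc _ h
      rw [e, e2] at h2
      have h3 := h2.1 hGa.2
      exact ⟨h3, (hc _ hb).1 h3⟩
  · have e2 : a + 3 = a - 1 := by generalize a = x; revert x; decide
    rw [e2] at hb ⊢
    exact ⟨hGa.2, (hc _ hb).1 hGa.2⟩

theorem sc_epn {δ : ℝ} (hδ : 0 < δ) {z w : ℂ} (h : sc δ z = w) : z = (δ : ℂ) * w := by
  rw [← h, sc_mul hδ]

theorem epn_zero (u : ℤ × ℤ) (r : Fin 4) : epn u 0 r = pt u := by simp [epn]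

theorem epn_one (u : ℤ × ℤ) (r : Fin 4) : epn u 1 r = pt (u + dir r) := by
  simp [epn, pt_add]

/-- Classification of a point of two triangles with different faces. -/
theorem tri_tri {u u' : ℤ × ℤ} {r r' : Fin 4} {w : ℂ} (h : w ∈ tri u r) (h' : w ∈ tri u' r')
    (hne : face u r ≠ face u' r') :
    (∃ σ : ℝ, 0 ≤ σ ∧ σ ≤ 1 ∧ w = epn u σ r ∧ face u' r' = face u (r - 1)) ∨
      ∃ v a b, w = pt v ∧ s(u, u + dir r) = s(v, v + dir a) ∧ s(u', u' + dir r') = s(v, v + dir b) ∧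
        (face u r = face v a ∨ face u r = face v (a - 1)) ∧
        (face u' r' = face v b ∨ face u' r' = face v (b - 1)) := by
  rcases tri_cases h with ⟨σ, h0, h1, hw⟩ | hw
  swap
  · exact absurd (of_cf hw (tri_sub_CF _ _ h')) hne
  rcases tri_cases h' with ⟨σ', h0', h1', hw'⟩ | hw'
  swap
  · exact absurd (of_cf hw' (tri_sub_CF _ _ h)).symm hne
  -- the corners
  have corner : ∀ (u : ℤ × ℤ) (r : Fin 4) (σ : ℝ) (v : ℤ × ℤ), 0 ≤ σ → σ ≤ 1 →
      pt v = epn u σ r → ∃ a, s(u, u + dir r) = s(v, v + dir a) ∧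
        (face u r = face v a ∨ face u r = face v (a - 1)) := by
    intro u r σ v h0 h1 hv
    rcases h0.lt_or_eq with h2 | h2
    · rcases h1.lt_or_eq with h3 | h3
      · exact absurd hv.symm (epn_ne_pt r h2 h3)
      · rw [h3, epn_one] at hv
        have h4 := pt_inj hv
        refine ⟨r + 2, ?_, Or.inr ?_⟩
        · rw [h4, dir_add_two']
          exact Sym2.eq_swap
        · rw [h4]
          rw [fin4_h, face_left]
    · rw [← h2, epn_zero] at hv
      have h4 := pt_inj hv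
      exact ⟨r, by rw [h4], Or.inl (by rw [h4])⟩
  by_cases hv : ∃ v, w = pt v
  · obtain ⟨v, hv⟩ := hv
    obtain ⟨a, ha, ha'⟩ := corner u r σ v h0 h1 (hv ▸ hw)
    obtain ⟨b, hb, hb'⟩ := corner u' r' σ' v h0' h1' (hv ▸ hw')
    exact Or.inr ⟨v, a, b, hv, ha, hb, ha', hb'⟩
  · left
    have g0 : 0 < σ := by
      rcases h0.lt_or_eq with h2 | h2
      · exact h2
      · exact absurd ⟨u, by rw [hw, ← h2, epn_zero]⟩ hv
    have g1 : σ < 1 := by
      rcases h1.lt_or_eq with h2 | h2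
      · exact h2
      · exact absurd ⟨u + dir r, by rw [hw, h2, epn_one]⟩ hv
    have g0' : 0 < σ' := by
      rcases h0'.lt_or_eq with h2 | h2
      · exact h2
      · exact absurd ⟨u', by rw [hw', ← h2, epn_zero]⟩ hv
    have g1' : σ' < 1 := by
      rcases h1'.lt_or_eq with h2 | h2
      · exact h2
      · exact absurd ⟨u' + dir r', by rw [hw', h2, epn_one]⟩ hv
    refine ⟨σ, h0, h1, hw, ?_⟩
    rcases epn_eq r r' g0 g1 g0' g1' (hw ▸ hw') with ⟨e1, e2, -⟩ | ⟨e1, e2⟩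
    · exact absurd (by rw [e1, e2]) hne
    · have e3 : dir r' = dir (r + 2) := by
        rw [dir_add_two, eq_neg_iff_add_eq_zero]
        have : u + (dir r + dir r') = u := by
          rw [← add_assoc, ← e2, ← e1]
        rw [add_comm (dir r')]
        exact add_eq_left.1 this
      rw [e2, dir_inj e3, face_right]

open Classical in
/-- The union of the triangles outside of `Q` whose faces are in `F`. -/
def tris (δ : ℝ) (Q : Set (Sym2 (ℤ × ℤ))) (F : Set (ℤ × ℤ)) (B : Finset (ℤ × ℤ)) : Set ℂ :=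
  ⋃ u ∈ B, ⋃ r : Fin 4, {z | sc δ z ∈ tri u r ∧ s(u, u + dir r) ∉ Q ∧ face u r ∈ F}

theorem mem_tris {δ : ℝ} {Q : Set (Sym2 (ℤ × ℤ))} {F : Set (ℤ × ℤ)} {B : Finset (ℤ × ℤ)} {z : ℂ} :
    z ∈ tris δ Q F B ↔ ∃ u ∈ B, ∃ r : Fin 4, sc δ z ∈ tri u r ∧ s(u, u + dir r) ∉ Q ∧
      face u r ∈ F := by
  simp only [tris, mem_iUnion, mem_ofPred_eq, exists_prop]

theorem isClosed_tris (δ : ℝ) (Q : Set (Sym2 (ℤ × ℤ))) (F : Set (ℤ × ℤ)) (B : Finset (ℤ × ℤ)) :
    IsClosed (tris δ Q F B) := by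
  unfold tris
  refine isClosed_biUnion_finset fun u _ => isClosed_iUnion_of_finite fun r => ?_
  by_cases h : s(u, u + dir r) ∉ Q ∧ face u r ∈ F
  · have e : {z | sc δ z ∈ tri u r ∧ s(u, u + dir r) ∉ Q ∧ face u r ∈ F} = sc δ ⁻¹' tri u r := by
      ext z
      exact ⟨fun hz => hz.1, fun hz => ⟨hz, h⟩⟩
    rw [e]
    exact (isClosed_tri u r).preimage (continuous_sc δ)
  · have e : {z | sc δ z ∈ tri u r ∧ s(u, u + dir r) ∉ Q ∧ face u r ∈ F} = ∅ := by
      ext z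
      exact ⟨fun hz => h hz.2, fun hz => hz.elim⟩
    rw [e]
    exact isClosed_empty

/-- A finite set of vertices which contains the corners of all triangles which meet a bounded
set. -/
theorem exists_box (hδ : 0 < δ) {C : Set ℂ} (hC : Bornology.IsBounded C) :
    ∃ B : Finset (ℤ × ℤ), ∀ z ∈ C, ∀ u r, sc δ z ∈ tri u r → u ∈ B := by
  obtain ⟨M, hM⟩ := hC.exists_norm_le
  set N : ℤ := ⌈M / δ⌉ + 1 with hN
  refine ⟨Finset.Icc (-N) N ×ˢ Finset.Icc (-N) N, fun z hz u r h => ?_⟩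
  have h1 := hM z hz
  have h2 := (Complex.abs_re_le_norm z).trans h1
  have h3 := (Complex.abs_im_le_norm z).trans h1
  have h4 : |(sc δ z).re| ≤ M / δ := by
    show |z.re / δ| ≤ _
    rw [abs_div, abs_of_pos hδ]
    exact div_le_div_of_nonneg_right h2 hδ.le
  have h5 : |(sc δ z).im| ≤ M / δ := by
    show |z.im / δ| ≤ _
    rw [abs_div, abs_of_pos hδ]
    exact div_le_div_of_nonneg_right h3 hδ.le
  have h6 := Int.le_ceil (M / δ)
  rw [abs_le] at h4 h5
  have h7 : |(sc δ z).re - u.1| ≤ 1 ∧ |(sc δ z).im - u.2| ≤ 1 := by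
    have h8 := tri_sub_CF _ _ h
    obtain ⟨⟨a1, a2⟩, a3, a4⟩ := h8
    obtain ⟨b1, b2, b3⟩ := h
    rw [abs_le, abs_le]
    clear h4 h5
    rcases fin4c r with rfl | rfl | rfl | rfl <;>
      simp only [face0, face1, face2, face3] at a1 a2 a3 a4 <;> push_cast at a1 a2 a3 a4 <;>
      refine ⟨⟨?_, ?_⟩, ?_, ?_⟩ <;> linarith
  rw [abs_le, abs_le] at h7
  obtain ⟨⟨c1, c2⟩, c3, c4⟩ := h7
  rw [Finset.mem_product, Finset.mem_Icc, Finset.mem_Icc]
  have k1 : -(N : ℝ) ≤ u.1 := by rw [hN]; push_cast; linarith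
  have k2 : (u.1 : ℝ) ≤ N := by rw [hN]; push_cast; linarith
  have k3 : -(N : ℝ) ≤ u.2 := by rw [hN]; push_cast; linarith
  have k4 : (u.2 : ℝ) ≤ N := by rw [hN]; push_cast; linarith
  exact ⟨⟨by exact_mod_cast k1, by exact_mod_cast k2⟩, by exact_mod_cast k3, by exact_mod_cast k4⟩

/-- **CELL, dual.** -/
theorem s_cellD : S_cellD := by
  intro n p S k A δ hδ hp hS h0 hk hA τ hτ Q _ _ C hCc hCO hCL hAv f₀ hf₀ hf₀C hnear
  by_contra hno
  push Not at hno
  set F : Set (ℤ × ℤ) := {f | Relation.ReflTransGen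
    (fun f g => f ∈ S ∧ DSt p k S A δ Q C τ f g) f₀ f} with hF
  have hFS : ∀ f ∈ F, f ∈ S ∧ ∀ i ≤ τ, f ≠ fc (run p k A i) := by
    intro f hf
    have h1 : ∀ f₁, ((∃ i ≤ τ, f₁ = fc (run p k A i)) ∨ f₁ ∉ S) → f₁ ∉ F := fun f₁ h => hno f₁ h
    constructor
    · by_contra h
      exact h1 f (Or.inr h) hf
    · intro i hi h
      exact h1 f (Or.inl ⟨i, hi, h⟩) hf
  -- crossing an edge at a point of `C`
  have cross : ∀ z ∈ C, ∀ u r σ, 0 ≤ σ → σ ≤ 1 → sc δ z = epn u σ r → s(u, u + dir r) ∉ Q →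
      (face u r ∈ F ↔ face u (r - 1) ∈ F) := by
    intro z hz u r σ h0 h1 hw hQ
    have hD : (Dm δ u (u + dir r) ∩ C).Nonempty := by
      refine ⟨z, tri_sub_dm hδ ?_, hz⟩
      rw [hw]
      show 0 ≤ cT u r _ ∧ cT u r _ ≤ cS u r _ ∧ cS u r _ + cT u r _ ≤ 1
      unfold cS cT
      rw [epn_re, epn_im]
      rcases fin4c r with rfl | rfl | rfl | rfl <;> simp only [pd0, pd1, pd2, pd3] <;>
        refine ⟨?_, ?_, ?_⟩ <;> linarith
    constructor
    · intro h
      obtain ⟨hS', hv⟩ := hFS _ h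
      exact Relation.ReflTransGen.tail h ⟨hS', u, r, Or.inl ⟨rfl, rfl⟩,
        fresh_edge hδ hCL h0 h1 hz hw (Or.inl rfl) hS' hv hQ, hD⟩
    · intro h
      obtain ⟨hS', hv⟩ := hFS _ h
      exact Relation.ReflTransGen.tail h ⟨hS', u, r, Or.inr ⟨rfl, rfl⟩,
        fresh_edge hδ hCL h0 h1 hz hw (Or.inr rfl) hS' hv hQ, hD⟩
  obtain ⟨B, hB⟩ := exists_box hδ ((H327.isBounded_Om hδ S).subset hCO)
  -- the cover
  have hcov : ∀ z ∈ C, ∃ u r, sc δ z ∈ tri u r ∧ s(u, u + dir r) ∉ Q := by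
    intro z hz
    obtain ⟨u, r, hQ, hD⟩ := hAv.av z hz
    rcases dm_sub hδ hD with h | h
    · exact ⟨u, r, h, hQ⟩
    · refine ⟨u + dir r, r + 2, h, ?_⟩
      rw [dir_add_two', Sym2.eq_swap]
      exact hQ
  have hsub : C ⊆ tris δ Q F B ∪ tris δ Q Fᶜ B := by
    intro z hz
    obtain ⟨u, r, h1, h2⟩ := hcov z hz
    by_cases h : face u r ∈ F
    · exact Or.inl (mem_tris.2 ⟨u, hB z hz u r h1, r, h1, h2, h⟩)
    · exact Or.inr (mem_tris.2 ⟨u, hB z hz u r h1, r, h1, h2, h⟩)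
  have hne1 : (C ∩ tris δ Q F B).Nonempty := by
    refine ⟨cf δ f₀, hf₀C, ?_⟩
    obtain ⟨u, r, h1, h2⟩ := hcov _ hf₀C
    refine mem_tris.2 ⟨u, hB _ hf₀C u r h1, r, h1, h2, ?_⟩
    have h3 : sc δ (cf δ f₀) ∈ OF f₀ := by
      unfold cf
      rw [sc_of_mul hδ]
      simp only [OF, mem_ofPred_eq, Complex.add_re, Complex.add_im, pt_re, pt_im]
      norm_num
    rw [← of_cf h3 (tri_sub_CF _ _ h1)]
    exact Relation.ReflTransGen.refl
  have hne2 : (C ∩ tris δ Q Fᶜ B).Nonempty := by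
    obtain ⟨z, hz, hzn⟩ := hnear
    refine ⟨z, hz, ?_⟩
    rcases hsub hz with h | h
    · exfalso
      obtain ⟨u, -, r, h1, -, h3⟩ := mem_tris.1 h
      obtain ⟨hS', hv⟩ := hFS _ h3
      obtain ⟨i, hi, h4⟩ := near_visited hp hS hδ hτ hS' (tri_sub_CF _ _ h1) hzn
      exact hv i hi h4
    · exact h
  obtain ⟨z, hz, hz1, hz2⟩ := isPreconnected_closed_iff.1 hCc _ _ (isClosed_tris δ Q F B)
    (isClosed_tris δ Q Fᶜ B) hsub hne1 hne2
  obtain ⟨u, -, r, a1, a2, a3⟩ := mem_tris.1 hz1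
  obtain ⟨u', -, r', b1, b2, b3⟩ := mem_tris.1 hz2
  rcases tri_tri a1 b1 (fun h => b3 (h ▸ a3)) with ⟨σ, c0, c1, c2, c3⟩ |
    ⟨v, a, b, c1, c2, c3, c4, c5⟩
  · rw [c3] at b3
    exact b3 ((cross z hz u r σ c0 c1 c2 a2).1 a3)
  · rw [c2] at a2
    rw [c3] at b2
    have hv : (δ : ℂ) * pt v ∈ C := by
      rw [← c1, sc_mul hδ]
      exact hz
    have hch := fin4_chain (G := fun r => face v r ∈ F) (N := fun r => s(v, v + dir r) ∉ Q)
      (fun r hr => cross z hz v r 0 le_rfl zero_le_one (by rw [c1, epn_zero]) hr)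
      (hAv.pt v hv) a2 b2 (by
        rcases c4 with h | h
        · left; rw [← h]; exact a3
        · right; rw [← h]; exact a3)
    rcases c5 with h | h
    · exact b3 (by rw [h]; exact hch.1)
    · exact b3 (by rw [h]; exact hch.2)

end Vale.Agent.P167.H161.Cell
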