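import Vale.Agent.P167.H161.Lat
import Vale.Agent.P153.R2.C1.Defs

/-!
# P167, block E6 (crossing numbers): crossings of an annulus and of small boxes
-/

namespace Vale.Agent.P167.H161

open Set
open Vale.Agent.P167.E6 Vale.Agent.P167.E2
open Vale.Agent.P153.R2.C1 (Cross)

/-- The sequence `a 0, …, a (L - 1)` makes `m` successive excursions from the disc of radius `r` to
the outside of the disc of radius `r'`. -/
def SCross (a : ℕ → ℂ) (L : ℕ) (y : ℂ) (r r' : ℝ) (m : ℕ) : Prop :=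
  ∃ t : ℕ → ℕ, Monotone t ∧
    ∀ i < m, dist (a (t (2 * i))) y ≤ r ∧ r' ≤ dist (a (t (2 * i + 1))) y ∧ t (2 * i + 1) < L

theorem mono_ext {f : ℕ → ℕ} {K : ℕ} (hf : ∀ i j, i ≤ j → j < K → f i ≤ f j) :
    ∃ g : ℕ → ℕ, Monotone g ∧ ∀ i < K, g i = f i := by
  rcases Nat.eq_zero_or_pos K with h | h
  · exact ⟨fun _ => 0, fun _ _ _ => le_rfl, fun i hi => by omega⟩
  · refine ⟨fun i => f (min i (K - 1)), fun i j hij => hf _ _ (by omega) (by omega),
      fun i hi => ?_⟩
    show f (min i (K - 1)) = f i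
    congr 1
    omega

theorem SCross.mono {a : ℕ → ℂ} {L : ℕ} {y : ℂ} {r r' s s' : ℝ} {m l : ℕ} (hr : r ≤ s)
    (hr' : s' ≤ r') (hm : l ≤ m) (h : SCross a L y r r' m) : SCross a L y s s' l := by
  obtain ⟨t, ht, h⟩ := h
  refine ⟨t, ht, fun i hi => ?_⟩
  obtain ⟨h1, h2, h3⟩ := h i (by omega)
  exact ⟨h1.trans hr, hr'.trans h2, h3⟩

/-- Pigeonhole: excursions through a middle circle start near one of finitely many points. -/
theorem SCross.cover {a : ℕ → ℂ} {L : ℕ} {y : ℂ} {r r₁ r' δ ρ₀ : ℝ} {m : ℕ}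
    (hδ : ∀ j, j + 1 < L → dist (a (j + 1)) (a j) ≤ δ) (hδ0 : 0 ≤ δ) (h1 : r ≤ r₁)
    (h2 : r₁ + δ ≤ r') (h0 : 0 ≤ r') {Z : Finset ℂ}
    (hZ : ∀ u, dist u y ≤ r' → ∃ z ∈ Z, dist u z ≤ ρ₀) (h : SCross a L y r r' m) :
    ∃ z ∈ Z, SCross a L z ρ₀ (r' - r₁ - δ - ρ₀) (m / Z.card) := by
  classical
  obtain ⟨t, ht, h⟩ := h
  have hZne : Z.Nonempty := by
    obtain ⟨z, hz, -⟩ := hZ y (by rw [dist_self]; exact h0)
    exact ⟨z, hz⟩
  have key : ∀ i, ∃ (u : ℕ) (z : ℂ), i < m → t (2 * i) ≤ u ∧ u ≤ t (2 * i + 1) ∧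
      dist (a u) y ≤ r₁ + δ ∧ z ∈ Z ∧ dist (a u) z ≤ ρ₀ := by
    intro i
    by_cases hi : i < m
    · obtain ⟨g1, g2, g3⟩ := h i hi
      have hex : ∃ u, r₁ ≤ dist (a u) y ∧ t (2 * i) ≤ u :=
        ⟨t (2 * i + 1), by linarith, ht (by omega)⟩
      obtain ⟨f1, f2⟩ := Nat.find_spec hex
      have f3 : Nat.find hex ≤ t (2 * i + 1) := Nat.find_min' hex ⟨by linarith, ht (by omega)⟩
      have f4 : dist (a (Nat.find hex)) y ≤ r₁ + δ := by
        rcases f2.lt_or_eq with f5 | f5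
        · have f6 := Nat.find_min hex (m := Nat.find hex - 1) (by omega)
          have f7 : dist (a (Nat.find hex - 1)) y < r₁ := by
            by_contra hc
            exact f6 ⟨not_lt.1 hc, by omega⟩
          have f8 := hδ (Nat.find hex - 1) (by omega)
          rw [Nat.sub_add_cancel (by omega)] at f8
          have f9 := dist_triangle (a (Nat.find hex)) (a (Nat.find hex - 1)) y
          linarith
        · rw [← f5]
          linarith
      obtain ⟨z, hz, hz'⟩ := hZ (a (Nat.find hex)) (f4.trans h2)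
      exact ⟨Nat.find hex, z, fun _ => ⟨f2, f3, f4, hz, hz'⟩⟩
    · exact ⟨0, 0, fun h => absurd h hi⟩
  choose u z hu using key
  obtain ⟨z₀, hz₀, hcard⟩ := Finset.exists_le_card_fiber_of_mul_le_card_of_maps_to
    (s := Finset.range m) (t := Z) (f := z) (n := m / Z.card)
    (fun i hi => (hu i (Finset.mem_range.1 hi)).2.2.2.1) hZne
    (by rw [Finset.card_range]; exact Nat.mul_div_le m Z.card)
  refine ⟨z₀, hz₀, ?_⟩
  set I : Finset ℕ := (Finset.range m).filter (fun i => z i = z₀) with hI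
  let e : ℕ → ℕ := fun l => if h : l < I.card then I.orderEmbOfFin rfl ⟨l, h⟩ else 0
  have he1 : ∀ l < I.card, e l ∈ I := by
    intro l hl
    simp only [e, dif_pos hl]
    exact Finset.orderEmbOfFin_mem I rfl _
  have he2 : ∀ l l', l < l' → l' < I.card → e l < e l' := by
    intro l l' hl hl'
    simp only [e, dif_pos hl', dif_pos (hl.trans hl')]
    exact (I.orderEmbOfFin rfl).strictMono hl
  have he3 : ∀ l < I.card, e l < m ∧ z (e l) = z₀ := by
    intro l hl
    have := he1 l hl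
    rw [hI, Finset.mem_filter, Finset.mem_range] at this
    exact this
  let f : ℕ → ℕ := fun j => if Even j then u (e (j / 2)) else t (2 * e (j / 2) + 1)
  obtain ⟨g, hg, hgf⟩ := mono_ext (f := f) (K := 2 * I.card) (by
    intro i j hij hj
    have hi2 : i / 2 < I.card := by omega
    have hj2 : j / 2 < I.card := by omega
    have a1 := hu _ (he3 _ hi2).1
    have a2 := hu _ (he3 _ hj2).1
    rcases Nat.lt_or_ge (i / 2) (j / 2) with h3 | h3
    · have h4 := he2 _ _ h3 hj2
      have h5 : t (2 * e (i / 2) + 1) ≤ t (2 * e (j / 2)) := ht (by omega)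
      have h6 : f i ≤ t (2 * e (i / 2) + 1) := by
        simp only [f]
        split_ifs
        · exact a1.2.1
        · exact le_rfl
      have h7 : t (2 * e (j / 2)) ≤ f j := by
        simp only [f]
        split_ifs
        · exact a2.1
        · exact ht (by omega)
      omega
    · have h4 : i / 2 = j / 2 := by omega
      simp only [f, h4]
      by_cases hi : Even i
      · rw [if_pos hi]
        split_ifs
        · exact le_rfl
        · exact a2.2.1
      · rw [if_neg hi]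
        have hj' : ¬ Even j := by
          rw [Nat.even_iff] at hi ⊢
          omega
        rw [if_neg hj'])
  refine ⟨g, hg, fun l hl => ?_⟩
  have hl' : l < I.card := lt_of_lt_of_le hl hcard
  have b1 : g (2 * l) = u (e l) := by
    rw [hgf _ (by omega)]
    simp only [f, if_pos (even_two_mul l)]
    congr 2
    omega
  have b2 : g (2 * l + 1) = t (2 * e l + 1) := by
    rw [hgf _ (by omega)]
    have : ¬ Even (2 * l + 1) := by rw [Nat.even_iff]; omega
    simp only [f, if_neg this]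
    have e0 : (2 * l + 1) / 2 = l := by omega
    rw [e0]
  obtain ⟨c1, c2⟩ := he3 l hl'
  obtain ⟨d1, d2, d3, d4, d5⟩ := hu _ c1
  obtain ⟨g1, g2, g3⟩ := h _ c1
  rw [b1, b2]
  rw [c2] at d5
  refine ⟨d5, ?_, g3⟩
  have e1 := dist_triangle (a (t (2 * e l + 1))) z₀ y
  have e2 := dist_triangle z₀ (a (u (e l))) y
  rw [dist_comm z₀ (a (u (e l)))] at e2
  linarith

/-! ### Rounding -/

theorem sq_ahead (c : Medial) :
    ((H192.sq (ahead c)).1 : ℝ) + 1 / 2 = ((1 + Complex.I) * mid 1 c).re ∧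
    ((H192.sq (ahead c)).2 : ℝ) + 1 / 2 = ((1 + Complex.I) * mid 1 c).im := by
  obtain ⟨v, r⟩ := c
  unfold ahead mid
  rw [H192.sq_dir]
  obtain ⟨h1, h2⟩ := H192.ro_dir v (r + 1)
  have e1 : (2 : ℝ) * (min (H192.ro v).1 (H192.ro (v + dir (r + 1))).1 : ℤ) =
      ((H192.ro v).1 : ℝ) + ((H192.ro (v + dir (r + 1))).1 : ℝ) - 1 := by
    have : 2 * min (H192.ro v).1 (H192.ro (v + dir (r + 1))).1 =
      (H192.ro v).1 + (H192.ro (v + dir (r + 1))).1 - 1 := by omega
    exact_mod_cast this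
  have e2 : (2 : ℝ) * (min (H192.ro v).2 (H192.ro (v + dir (r + 1))).2 : ℤ) =
      ((H192.ro v).2 : ℝ) + ((H192.ro (v + dir (r + 1))).2 : ℝ) - 1 := by
    have : 2 * min (H192.ro v).2 (H192.ro (v + dir (r + 1))).2 =
      (H192.ro v).2 + (H192.ro (v + dir (r + 1))).2 - 1 := by omega
    exact_mod_cast this
  simp only [H192.ro] at e1 e2
  push_cast at e1 e2
  have e3 : (1 + Complex.I) * ((1 : ℝ) * (pt v + pt (v + dir (r + 1))) / 2) =
      ⟨((v.1 : ℝ) - v.2 + (((v + dir (r + 1)).1 : ℝ) - (v + dir (r + 1)).2)) / 2,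
        ((v.1 : ℝ) + v.2 + (((v + dir (r + 1)).1 : ℝ) + (v + dir (r + 1)).2)) / 2⟩ := by
    apply Complex.ext
    · simp [pt]
      ring
    · simp [pt]
      ring
  simp only
  rw [e3]
  simp only [H192.ro]
  push_cast
  constructor <;> linarith

end Vale.Agent.P167.H161
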