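import Vale.Agent.P167.H161.Box
import Vale.Agent.P167.H166.Cross

/-!
# P167, block E6 (crossing numbers): many arcs give many disjoint fresh arms (deterministic part)
-/

namespace Vale.Agent.P167.H161

open Finset
open Vale.Agent.P145.FB (PStep)
open Vale.Agent.P167.H166

/-- A primal corner (`b = true`) or a dual corner (`b = false`) of the square `v`. -/
def cor (b : Bool) (v : ℤ × ℤ) : ℤ × ℤ := if b then FK.pa v else FK.da v

/-- One step along a primal open or dual open edge of the box. -/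
def BStep (x : ℤ × ℤ) (R : ℤ) (ω : Cfg) (s t : ℤ × ℤ) : Prop :=
  (min s.1 t.1, min s.2 t.2) ∈ FK.Bq x R ∧
    (Even (s.1 + s.2) ∧ PStep (op ω) s t ∨ Odd (s.1 + s.2) ∧ PStep (op ω)ᶜ s t)

/-- Connection inside the box. -/
def Conn (x : ℤ × ℤ) (R : ℤ) (ω : Cfg) : ℤ × ℤ → ℤ × ℤ → Prop :=
  Relation.ReflTransGen (BStep x R ω)

theorem PotX.conn {x : ℤ × ℤ} {R : ℤ} {ω : Cfg} {A : Set Ed} {w : ℤ × ℤ → ℤ} (hw : PotX x R A w)
    (h : Inv (FK.Bq x R : Set (ℤ × ℤ)) ω A) {s t : ℤ × ℤ} (hst : Conn x R ω s t) : w s = w t := by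
  induction hst with
  | refl => rfl
  | tail _ h2 ih => exact ih.trans (hw.sq h h2.1 h2.2)

theorem even_pa (v : ℤ × ℤ) : Even ((FK.pa v).1 + (FK.pa v).2) := by
  rw [← FK.ls_ia]
  exact FK.even_ls _

theorem odd_da (v : ℤ × ℤ) : Odd ((FK.da v).1 + (FK.da v).2) := by
  obtain ⟨a, b⟩ := v
  by_cases h : Even (a + b) <;> simp only [FK.da, h, if_true, if_false] <;>
    rw [Int.even_iff] at h <;> rw [Int.odd_iff] <;> omega

theorem min_ab (v : ℤ × ℤ) : (min (FK.pa v).1 (FK.pb v).1, min (FK.pa v).2 (FK.pb v).2) = v := by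
  obtain ⟨a, b⟩ := v
  by_cases h : Even (a + b) <;> simp [FK.pa, FK.pb, h]

theorem min_dab (v : ℤ × ℤ) : (min (FK.da v).1 (FK.db v).1, min (FK.da v).2 (FK.db v).2) = v := by
  obtain ⟨a, b⟩ := v
  by_cases h : Even (a + b) <;> simp [FK.da, FK.db, h]

theorem PotX.cor_ls {x : ℤ × ℤ} {R : ℤ} {ω : Cfg} {A : Set Ed} {w : ℤ × ℤ → ℤ}
    (hw : PotX x R A w) (h : Inv (FK.Bq x R : Set (ℤ × ℤ)) ω A) {e : Ed}
    (hB : hdv e ∈ FK.Bq x R) (he : ω (hdv e) = true) : w (cor true (hdv e)) = w (ls e) := by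
  have h1 : w (FK.pa (hdv e)) = w (FK.pb (hdv e)) :=
    hw.sq h (by rw [min_ab]; exact hB) (Or.inl ⟨even_pa _, FK.step_ab he⟩)
  simp only [cor, if_true]
  rcases FK.eq_of_hdv (e := e) rfl with h2 | h2
  · conv_rhs => rw [h2, FK.ls_ia]
  · conv_rhs => rw [h2, FK.ls_ib]
    exact h1

theorem PotX.cor_rs {x : ℤ × ℤ} {R : ℤ} {ω : Cfg} {A : Set Ed} {w : ℤ × ℤ → ℤ}
    (hw : PotX x R A w) (h : Inv (FK.Bq x R : Set (ℤ × ℤ)) ω A) {e : Ed}
    (hB : hdv e ∈ FK.Bq x R) (he : ω (hdv e) = false) : w (cor false (hdv e)) = w (rs e) := by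
  have h1 : w (FK.da (hdv e)) = w (FK.db (hdv e)) :=
    hw.sq h (by rw [min_dab]; exact hB) (Or.inr ⟨odd_da _, FK.dstep_ab he⟩)
  simp only [cor, Bool.false_eq_true, if_false]
  rcases FK.eq_of_hdv (e := e) rfl with h2 | h2
  · conv_rhs => rw [h2, FK.rs_ia]
    split_ifs
    · exact h1
    · rfl
  · conv_rhs => rw [h2, FK.rs_ib]
    split_ifs
    · rfl
    · exact h1

/-- Vectors which differ by the unit vectors are many. -/
theorem card_le_labels {ι : Type*} [Fintype ι] [DecidableEq ι] (L M : ι → ι → ℤ)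
    (h : ∀ i j, L i j - M i j = if i = j then 1 else 0) :
    Fintype.card ι ≤ (univ.image L ∪ univ.image M).card := by
  classical
  let c : (ι → ℤ) → (ι → ℚ) := fun v j => (v j : ℚ)
  set V : Finset (ι → ℤ) := univ.image L ∪ univ.image M with hV
  have hspan : Submodule.span ℚ ((V.image c : Finset (ι → ℚ)) : Set (ι → ℚ)) = ⊤ := by
    rw [eq_top_iff, ← (Pi.basisFun ℚ ι).span_eq, Submodule.span_le]
    rintro _ ⟨i, rfl⟩
    have e1 : (Pi.basisFun ℚ ι) i = c (L i) - c (M i) := by
      funext j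
      have := h i j
      rw [Pi.basisFun_apply, Pi.sub_apply, Pi.single_apply]
      simp only [c]
      rw [← Int.cast_sub, this]
      by_cases hij : i = j
      · subst hij; simp
      · simp [hij, Ne.symm hij]
    rw [e1]
    refine Submodule.sub_mem _ (Submodule.subset_span ?_) (Submodule.subset_span ?_)
    · rw [Finset.mem_coe]
      exact mem_image_of_mem _ (mem_union_left _ (mem_image_of_mem _ (mem_univ _)))
    · rw [Finset.mem_coe]
      exact mem_image_of_mem _ (mem_union_right _ (mem_image_of_mem _ (mem_univ _)))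
  have h1 := finrank_span_finset_le_card (R := ℚ) (V.image c)
  rw [Set.finrank, hspan, finrank_top, Module.finrank_fintype_fun_eq_card] at h1
  exact h1.trans card_image_le

/-- Disjoint witnesses. -/
theorem Dj_of_disj {α κ : Type*} [DecidableEq α] [DecidableEq κ] {A : Finset α → Prop}
    (T : Finset κ) (f : κ → Finset α) (hd : ∀ i ∈ T, ∀ j ∈ T, i ≠ j → Disjoint (f i) (f j))
    (hf : ∀ i ∈ T, A (f i)) : Dj A T.card (T.biUnion f) := by
  induction T using Finset.induction_on with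
  | empty => trivial
  | insert c T hc ih =>
    rw [Finset.card_insert_of_notMem hc]
    refine ⟨f c, T.biUnion f, ?_, ?_, ?_, hf c (mem_insert_self _ _),
      ih (fun i hi j hj => hd i (mem_insert_of_mem hi) j (mem_insert_of_mem hj))
        fun i hi => hf i (mem_insert_of_mem hi)⟩
    · rw [Finset.biUnion_insert]; exact Finset.subset_union_left
    · rw [Finset.biUnion_insert]; exact Finset.subset_union_right
    · rw [Finset.disjoint_biUnion_right]
      intro j hj
      refine hd c (mem_insert_self _ _) j (mem_insert_of_mem hj) ?_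
      rintro rfl
      exact hc hj

theorem mem_Bq_of_nm {x : ℤ × ℤ} {R R' : ℤ} (hR : R' ≤ R) {v : ℤ × ℤ} (h : nm (v - x) < R') :
    v ∈ FK.Bq x R := by
  rw [mem_Bq]
  simp only [nm, Prod.fst_sub, Prod.snd_sub, max_lt_iff, abs_lt] at h
  omega

/-- **Many arcs give many disjoint fresh arms.** `ω'` is equal to `ω` off the frozen set `Fz`; the
frozen squares of the box of radius `R'` are joined inside the box of radius `R` to the sites of
`P`. If the edges `e i` start near `x`, leave the box and are on different arcs of the big box, then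
there are `a` disjoint primal and `b` disjoint dual arms of `ω` in the box of radius `R'`, with
`card ι ≤ a + b + card P`. -/
theorem arms {x : ℤ × ℤ} {r R' R : ℤ} (hR : R' ≤ R) (hr : r < R') {ω ω' : Cfg} {Fz : Set (ℤ × ℤ)}
    (hF : ∀ v, v ∉ Fz → ω' v = ω v) {ι : Type*} [Fintype ι] (e : ι → Ed)
    (h1 : ∀ i, nm (hdv (e i) - x) ≤ r)
    (h2 : ∀ i, ∃ n, R' ≤ nm (hdv ((nx ω')^[n] (e i)) - x))
    (hd : ∀ i j, i ≠ j → e j ∉ Arc (FK.Bq x R) ω' (e i)) (P : Finset (ℤ × ℤ))
    (hP : ∀ v ∈ Fz, nm (v - x) < R' → ∃ p ∈ P, Conn x R ω' (cor (ω' v) v) p) :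
    ∃ a b : ℕ, Fintype.card ι ≤ a + b + P.card ∧ Dj (Cr x r R' 0) a (Sb x R' ω true) ∧
      Dj (Cr x r R' 1) b (Sb x R' ω false) := by
  classical
  have hinv : ∀ i, Inv (FK.Bq x R : Set (ℤ × ℤ)) ω' (Arc (FK.Bq x R) ω' (e i)) :=
    fun i => Arc.inv _ _ _
  choose w hw using fun i => exists_PotX (hinv i)
  let lab : ℤ × ℤ → ι → ℤ := fun s i => w i s
  have hB : ∀ {v : ℤ × ℤ}, nm (v - x) < R' → v ∈ FK.Bq x R := fun h => mem_Bq_of_nm hR h
  have heB : ∀ i, hdv (e i) ∈ FK.Bq x R := fun i => hB (lt_of_le_of_lt (h1 i) hr)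
  -- labels of the two sides
  have hdiff : ∀ i j, lab (ls (e i)) j - lab (rs (e i)) j = if i = j then 1 else 0 := by
    intro i j
    have h3 := hw j (e i) (Or.inl (heB i))
    by_cases hij : i = j
    · subst hij
      have := h3.1 (self_mem_Arc _ _ _)
      simp only [lab, if_true]
      omega
    · have := h3.2 (hd j i (Ne.symm hij))
      simp only [lab, hij, if_false]
      omega
  have hconn : ∀ {s t : ℤ × ℤ}, Conn x R ω' s t → lab s = lab t := by
    intro s t h
    funext i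
    exact (hw i).conn (hinv i) h
  set V1 : Finset (ι → ℤ) := univ.image (fun i => lab (ls (e i))) with hV1
  set V2 : Finset (ι → ℤ) := univ.image (fun i => lab (rs (e i))) with hV2
  set Bd : Finset (ι → ℤ) := P.image lab with hBd
  have hcard : Fintype.card ι ≤ (V1 ∪ V2).card :=
    card_le_labels (fun i => lab (ls (e i))) (fun i => lab (rs (e i))) hdiff
  have hbad : ∀ v ∈ Fz, nm (v - x) < R' → lab (cor (ω' v) v) ∈ Bd := by
    intro v hv hn
    obtain ⟨p, hp, hc⟩ := hP v hv hn
    rw [hBd, mem_image]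
    exact ⟨p, hp, (hconn hc).symm⟩
  -- the chain from `e i` to the boundary of the box
  have hch : ∀ i, ∃ n, R' ≤ nm (hdv ((nx ω')^[n] (e i)) - x) ∧
      ∀ m < n, nm (hdv ((nx ω')^[m] (e i)) - x) < R' := by
    intro i
    exact ⟨Nat.find (h2 i), Nat.find_spec (h2 i), fun m hm => by
      have := Nat.find_min (h2 i) hm
      omega⟩
  choose N hN1 hN2 using hch
  have hlabs : ∀ i m, m ≤ N i → lab (ls ((nx ω')^[m] (e i))) = lab (ls (e i)) ∧
      lab (rs ((nx ω')^[m] (e i))) = lab (rs (e i)) := by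
    intro i m hm
    have hfw : Fw (FK.Bq x R) ω' (e i) ((nx ω')^[m] (e i)) :=
      ⟨m, rfl, fun k hk => hB (hN2 i k (by omega))⟩
    constructor
    · funext j
      exact ((hw j).fw (hinv j) hfw).1
    · funext j
      exact ((hw j).fw (hinv j) hfw).2
  -- the squares with a given label
  let f : Bool → (ι → ℤ) → Finset (ℤ × ℤ) := fun b l =>
    (Sb x R' ω b).filter (fun v => lab (cor b v) = l)
  have hdisj : ∀ b l l', l ≠ l' → Disjoint (f b l) (f b l') := by
    intro b l l' hne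
    rw [Finset.disjoint_left]
    intro v hv hv'
    rw [Finset.mem_filter] at hv hv'
    exact hne (hv.2.symm.trans hv'.2)
  have hfar : ∀ s : ℤ × ℤ, ∀ v : ℤ × ℤ, (s.1 = v.1 ∨ s.1 = v.1 + 1) → (s.2 = v.2 ∨ s.2 = v.2 + 1) →
      (nm (v - x) ≤ r → nm (s - x) ≤ r + 1) ∧ (R' ≤ nm (v - x) → R' - 1 ≤ nm (s - x)) := by
    intro s v hs1 hs2
    constructor
    · intro hv
      simp only [nm, Prod.fst_sub, Prod.snd_sub, max_le_iff, abs_le] at hv ⊢
      omega
    · intro hv
      simp only [nm, Prod.fst_sub, Prod.snd_sub, le_max_iff, le_abs] at hv ⊢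
      omega
  have hsqT : ∀ i m, m < N i → lab (ls (e i)) ∉ Bd →
      ω' (hdv ((nx ω')^[m] (e i))) = true →
      hdv ((nx ω')^[m] (e i)) ∈ f true (lab (ls (e i))) := by
    intro i m hm hg hb
    have hnm := hN2 i m hm
    have hlab : lab (cor true (hdv ((nx ω')^[m] (e i)))) = lab (ls (e i)) := by
      rw [← (hlabs i m hm.le).1]
      funext j
      exact (hw j).cor_ls (hinv j) (hB hnm) hb
    have hnF : hdv ((nx ω')^[m] (e i)) ∉ Fz := by
      intro hFz
      have := hbad _ hFz hnm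
      rw [hb, hlab] at this
      exact hg this
    rw [Finset.mem_filter, Sb, Finset.mem_filter, mem_bxx]
    exact ⟨⟨hnm.le, by rw [← hF _ hnF]; exact hb⟩, hlab⟩
  have hsqF : ∀ i m, m < N i → lab (rs (e i)) ∉ Bd →
      ω' (hdv ((nx ω')^[m] (e i))) = false →
      hdv ((nx ω')^[m] (e i)) ∈ f false (lab (rs (e i))) := by
    intro i m hm hg hb
    have hnm := hN2 i m hm
    have hlab : lab (cor false (hdv ((nx ω')^[m] (e i)))) = lab (rs (e i)) := by
      rw [← (hlabs i m hm.le).2]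
      funext j
      exact (hw j).cor_rs (hinv j) (hB hnm) hb
    have hnF : hdv ((nx ω')^[m] (e i)) ∉ Fz := by
      intro hFz
      have := hbad _ hFz hnm
      rw [hb, hlab] at this
      exact hg this
    rw [Finset.mem_filter, Sb, Finset.mem_filter, mem_bxx]
    exact ⟨⟨hnm.le, by rw [← hF _ hnF]; exact hb⟩, hlab⟩
  have hT : ∀ i, lab (ls (e i)) ∉ Bd → Cr x r R' 0 (f true (lab (ls (e i)))) := by
    intro i hg
    obtain ⟨c1, c2, c3, c4, c5, c6⟩ := corner (e i)
    obtain ⟨d1, d2, d3, d4, d5, d6⟩ := corner ((nx ω')^[N i] (e i))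
    refine ⟨ls (e i), ls ((nx ω')^[N i] (e i)), c5, (hfar _ _ c1 c2).1 (h1 i),
      (hfar _ _ d1 d2).2 (hN1 i), ?_⟩
    have key : ∀ m, m ≤ N i → Relation.ReflTransGen
        (PStep (f true (lab (ls (e i))) : Set (ℤ × ℤ))) (ls (e i)) (ls ((nx ω')^[m] (e i))) := by
      intro m
      induction m with
      | zero => intro _; exact Relation.ReflTransGen.refl
      | succ m ih =>
        intro hm
        have h3 := ih (by omega)
        rw [Function.iterate_succ_apply']
        cases hb : ω' (hdv ((nx ω')^[m] (e i))) with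
        | true =>
          refine h3.tail (PStep_mono ?_ ((nx_step ω' _).1 hb).1)
          rw [Set.singleton_subset_iff, Finset.mem_coe]
          exact hsqT i m (by omega) hg hb
        | false =>
          rw [((nx_step ω' _).2 hb).1]
          exact h3
    exact key (N i) le_rfl
  have hT' : ∀ i, lab (rs (e i)) ∉ Bd → Cr x r R' 1 (f false (lab (rs (e i)))) := by
    intro i hg
    obtain ⟨c1, c2, c3, c4, c5, c6⟩ := corner (e i)
    obtain ⟨d1, d2, d3, d4, d5, d6⟩ := corner ((nx ω')^[N i] (e i))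
    refine ⟨rs (e i), rs ((nx ω')^[N i] (e i)), c6, (hfar _ _ c3 c4).1 (h1 i),
      (hfar _ _ d3 d4).2 (hN1 i), ?_⟩
    have key : ∀ m, m ≤ N i → Relation.ReflTransGen
        (PStep (f false (lab (rs (e i))) : Set (ℤ × ℤ))) (rs (e i)) (rs ((nx ω')^[m] (e i))) := by
      intro m
      induction m with
      | zero => intro _; exact Relation.ReflTransGen.refl
      | succ m ih =>
        intro hm
        have h3 := ih (by omega)
        rw [Function.iterate_succ_apply']
        cases hb : ω' (hdv ((nx ω')^[m] (e i))) with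
        | false =>
          refine h3.tail (PStep_mono ?_ ((nx_step ω' _).2 hb).2)
          rw [Set.singleton_subset_iff, Finset.mem_coe]
          exact hsqF i m (by omega) hg hb
        | true =>
          rw [((nx_step ω' _).1 hb).2]
          exact h3
    exact key (N i) le_rfl
  refine ⟨(V1 \ Bd).card, (V2 \ Bd).card, ?_, ?_, ?_⟩
  · have h3 : V1 ∪ V2 ⊆ (V1 \ Bd) ∪ (V2 \ Bd) ∪ Bd := by
      intro l hl
      rw [mem_union] at hl
      rw [mem_union, mem_union, mem_sdiff, mem_sdiff]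
      tauto
    calc Fintype.card ι ≤ (V1 ∪ V2).card := hcard
      _ ≤ ((V1 \ Bd) ∪ (V2 \ Bd) ∪ Bd).card := card_le_card h3
      _ ≤ ((V1 \ Bd) ∪ (V2 \ Bd)).card + Bd.card := card_union_le _ _
      _ ≤ (V1 \ Bd).card + (V2 \ Bd).card + P.card :=
          add_le_add (card_union_le _ _) card_image_le
  · refine Dj_mono Cr_mono _ _ _ ?_ (Dj_of_disj (A := Cr x r R' 0) (V1 \ Bd) (f true)
      (fun i _ j _ hij => hdisj true i j hij) ?_)
    · refine Finset.biUnion_subset.2 fun l _ => Finset.filter_subset _ _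
    · intro l hl
      rw [mem_sdiff, hV1, mem_image] at hl
      obtain ⟨⟨i, -, rfl⟩, h4⟩ := hl
      exact hT i h4
  · refine Dj_mono Cr_mono _ _ _ ?_ (Dj_of_disj (A := Cr x r R' 1) (V2 \ Bd) (f false)
      (fun i _ j _ hij => hdisj false i j hij) ?_)
    · refine Finset.biUnion_subset.2 fun l _ => Finset.filter_subset _ _
    · intro l hl
      rw [mem_sdiff, hV2, mem_image] at hl
      obtain ⟨⟨i, -, rfl⟩, h4⟩ := hl
      exact hT' i h4

end Vale.Agent.P167.H161
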