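import Vale.Agent.P167.H161.Det

/-!
# P167, block E6 (crossing numbers): excursions of an interface and the tail of their number
-/

namespace Vale.Agent.P167.H161

open Finset MeasureTheory
open Vale.Agent.P145.FB (PStep)
open Vale.Agent.P167.H166 Vale.Agent.P167.H871

/-- The interface `E i = nx^i e0`, which does not repeat an edge up to time `T`, makes `k`
successive excursions from the box of radius `r` to the outside of the box of radius `R` around
`x`. -/
def Exc (ω : Cfg) (e0 : Ed) (x : ℤ × ℤ) (r R : ℤ) (k : ℕ) : Prop :=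
  ∃ (T : ℕ) (t : ℕ → ℕ), Set.InjOn (fun i : ℕ => (nx ω)^[i] e0) (Set.Iic T) ∧ Monotone t ∧
    ∀ j < k, nm (hdv ((nx ω)^[t (2 * j)] e0) - x) ≤ r ∧
      R < nm (hdv ((nx ω)^[t (2 * j + 1)] e0) - x) ∧ t (2 * j + 1) ≤ T

theorem inj_of_first {ω : Cfg} {e0 e1 : Ed} {T : ℕ} (h1 : (nx ω)^[T] e0 = e1)
    (h2 : ∀ i < T, (nx ω)^[i] e0 ≠ e1) :
    Set.InjOn (fun i : ℕ => (nx ω)^[i] e0) (Set.Iic T) := by
  have key : ∀ i j : ℕ, i < j → j ≤ T → (nx ω)^[i] e0 ≠ (nx ω)^[j] e0 := by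
    intro i j hij hj h
    refine h2 (T - j + i) (by omega) ?_
    rw [Function.iterate_add_apply, h, ← Function.iterate_add_apply, Nat.sub_add_cancel hj, h1]
  intro i hi j hj h
  rcases lt_trichotomy i j with hij | hij | hij
  · exact absurd h (key i j hij hj)
  · exact hij
  · exact absurd h.symm (key j i hij hi)

/-- Successive excursions are on different arcs of the big box. -/
theorem exc_arcs {ω : Cfg} {e0 : Ed} {x : ℤ × ℤ} {r R : ℤ} (hr : r < R) {T : ℕ} {t : ℕ → ℕ}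
    (hinj : Set.InjOn (fun i : ℕ => (nx ω)^[i] e0) (Set.Iic T)) (ht : Monotone t) {j l : ℕ}
    (hjl : j < l) (hj1 : nm (hdv ((nx ω)^[t (2 * j)] e0) - x) ≤ r)
    (hj2 : R < nm (hdv ((nx ω)^[t (2 * j + 1)] e0) - x))
    (hl1 : nm (hdv ((nx ω)^[t (2 * l)] e0) - x) ≤ r)
    (hl2 : R < nm (hdv ((nx ω)^[t (2 * l + 1)] e0) - x)) (hlT : t (2 * l + 1) ≤ T) :
    (nx ω)^[t (2 * l)] e0 ∉ Arc (FK.Bq x R) ω ((nx ω)^[t (2 * j)] e0) := by
  have hout : ∀ {v : ℤ × ℤ}, R < nm (v - x) → v ∉ FK.Bq x R := by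
    intro v hv hm
    rw [mem_Bq] at hm
    simp only [nm, Prod.fst_sub, Prod.snd_sub, lt_max_iff, lt_abs] at hv
    omega
  have m1 : t (2 * j) ≤ t (2 * j + 1) := ht (by omega)
  have m2 : t (2 * j + 1) ≤ t (2 * l) := ht (by omega)
  have m3 : t (2 * l) ≤ t (2 * l + 1) := ht (by omega)
  rintro (⟨n, h1, h2⟩ | ⟨n, h1, h2⟩)
  · -- forward
    have hn : n ≤ t (2 * j + 1) - t (2 * j) := by
      by_contra hn
      have := h2 (t (2 * j + 1) - t (2 * j)) (by omega)
      rw [← Function.iterate_add_apply, Nat.sub_add_cancel m1] at this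
      exact hout hj2 this
    rw [← Function.iterate_add_apply] at h1
    have h3 : n + t (2 * j) = t (2 * l) :=
      hinj (by rw [Set.mem_Iic]; omega) (by rw [Set.mem_Iic]; omega) h1
    have h4 : t (2 * j + 1) = t (2 * l) := by omega
    rw [h4] at hj2
    omega
  · -- backward
    have hn : n ≤ t (2 * l + 1) - t (2 * l) := by
      by_contra hn
      have := h2 (t (2 * l + 1) - t (2 * l)) (by omega)
      rw [← Function.iterate_add_apply, Nat.sub_add_cancel m3] at this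
      exact hout hl2 this
    rw [← Function.iterate_add_apply] at h1
    have h3 : n + t (2 * l) = t (2 * j) :=
      hinj (by rw [Set.mem_Iic]; omega) (by rw [Set.mem_Iic]; omega) h1
    have h4 : t (2 * j + 1) = t (2 * j) := by omega
    rw [h4] at hj2
    omega

theorem Dj_anti {α : Type*} [DecidableEq α] {A : Finset α → Prop} {j : ℕ} :
    ∀ {j' : ℕ} {S : Finset α}, j' ≤ j → Dj A j S → Dj A j' S := by
  induction j with
  | zero =>
    intro j' S h _
    obtain rfl : j' = 0 := by omega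
    trivial
  | succ j ih =>
    intro j' S h hS
    cases j' with
    | zero => trivial
    | succ j' =>
      obtain ⟨I, J, h1, h2, h3, h4, h5⟩ := hS
      exact ⟨I, J, h1, h2, h3, h4, ih (by omega) h5⟩

/-- Excursions give arms. -/
theorem exc_arms {x : ℤ × ℤ} {r R' R : ℤ} (hR : R' ≤ R) (hr : r < R') {ω ω' : Cfg}
    {Fz : Set (ℤ × ℤ)} (hF : ∀ v, v ∉ Fz → ω' v = ω v) (P : Finset (ℤ × ℤ))
    (hP : ∀ v ∈ Fz, nm (v - x) < R' → ∃ p ∈ P, Conn x R ω' (cor (ω' v) v) p) {e0 : Ed} {k : ℕ}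
    (h : Exc ω' e0 x r R k) :
    Dj (Cr x r R' 0) ((k - P.card) / 2) (Sb x R' ω true) ∨
      Dj (Cr x r R' 1) ((k - P.card) / 2) (Sb x R' ω false) := by
  obtain ⟨T, t, hinj, ht, hk⟩ := h
  obtain ⟨a, b, hab, ha, hb⟩ := arms hR hr hF (ι := Fin k)
    (fun j => (nx ω')^[t (2 * j)] e0) (fun j => (hk j j.2).1)
    (fun j => ⟨t (2 * j + 1) - t (2 * j), by
      rw [← Function.iterate_add_apply, Nat.sub_add_cancel (ht (by omega))]
      have := (hk j j.2).2.1
      omega⟩)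
    (fun i j hij => by
      rcases lt_or_gt_of_ne (Fin.val_ne_of_ne hij) with h | h
      · exact exc_arcs (by omega) hinj ht h (hk i i.2).1 (hk i i.2).2.1 (hk j j.2).1
          (hk j j.2).2.1 (hk j j.2).2.2
      · intro hm
        exact exc_arcs (by omega) hinj ht h (hk j j.2).1 (hk j j.2).2.1 (hk i i.2).1
          (hk i i.2).2.1 (hk i i.2).2.2 (Arc.symm hm)) P hP
  rw [Fintype.card_fin] at hab
  rcases le_total a b with h | h
  · exact Or.inr (Dj_anti (by omega) hb)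
  · exact Or.inl (Dj_anti (by omega) ha)

/-- **Tail of the number of excursions.** -/
theorem exc_tail : ∃ κ : ℤ, 2 ≤ κ ∧ ∀ (x : ℤ × ℤ) (r R : ℤ), 1 ≤ r → κ * r ≤ R →
    ∀ (Fz : Set (ℤ × ℤ)) (ov : Cfg → Cfg), (∀ ω v, v ∉ Fz → ov ω v = ω v) →
    ∀ (P : Finset (ℤ × ℤ)), (∀ ω, ∀ v ∈ Fz, nm (v - x) < κ * r →
      ∃ p ∈ P, Conn x R (ov ω) (cor (ov ω v) v) p) →
    ∀ (e0 : Ed) (k : ℕ), μ.real {ω | Exc (ov ω) e0 x r R k} ≤
      2 * (1 / 2) ^ ((k - P.card) / 2) := by
  obtain ⟨κ, hκ, h⟩ := cr_le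
  refine ⟨κ, hκ, fun x r R hr hR Fz ov hF P hP e0 k => ?_⟩
  obtain ⟨h1, h2⟩ := h x r hr
  have hlt : r < κ * r := by nlinarith
  calc μ.real {ω | Exc (ov ω) e0 x r R k}
      ≤ μ.real ({ω | Dj (Cr x r (κ * r) 0) ((k - P.card) / 2)
          ((bxx x (κ * r)).filter (fun w => ω w = true))} ∪
        {ω | Dj (Cr x r (κ * r) 1) ((k - P.card) / 2)
          ((bxx x (κ * r)).filter (fun w => ω w = false))}) := by
        refine measureReal_mono ?_
        intro ω hω
        exact exc_arms hR hlt (hF ω) P (hP ω) hω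
    _ ≤ _ := measureReal_union_le _ _
    _ ≤ (μ.real {ω | Cr x r (κ * r) 0 ((bxx x (κ * r)).filter (fun w => ω w = true))}) ^
          ((k - P.card) / 2) +
        (μ.real {ω | Cr x r (κ * r) 1 ((bxx x (κ * r)).filter (fun w => ω w = false))}) ^
          ((k - P.card) / 2) :=
        add_le_add (real_pow fair_mu _ true Cr_mono _) (real_pow fair_mu _ false Cr_mono _)
    _ ≤ (1 / 2) ^ ((k - P.card) / 2) + (1 / 2) ^ ((k - P.card) / 2) :=
        add_le_add (pow_le_pow_left₀ measureReal_nonneg h1 _)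
          (pow_le_pow_left₀ measureReal_nonneg h2 _)
    _ = _ := by ring

end Vale.Agent.P167.H161
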