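import Vale.Agent.P167.H161.Que

/-!
# P167: the explored open squares hang on the wired arc, the explored closed squares on the free arc

`w`: the configuration of squares, `pth p k S w`: the path of the interface, `rd p k S j w`: the
squares of the domain read in the first `j` steps.

* `left_wired`, `right_free`: the left site of `pth j` is joined by explored open squares to a wired
  vertex, the right site by explored closed squares to the right site of an earlier time at which
  the right face is outside.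
* `open_wired`, `closed_free`: the same for the corners of the explored squares.
* `out_free`: the outer faces met before the exit are at the free vertices.
-/

namespace Vale.Agent.P167.H161

open Relation
open Vale.Agent.P145.FB (PStep)
open Vale.Agent.P167.E6 Vale.Agent.P167.E2

variable {n : ℕ} {p : ZMod n → ℤ × ℤ} {S : Finset (ℤ × ℤ)} {k : ℕ}

/-- The path of the interface in the squares model. -/
noncomputable abbrev sp (p : ZMod n → ℤ × ℤ) (k : ℕ) (S : Finset (ℤ × ℤ)) (w : Cfg) (j : ℕ) : Ed :=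
  H192.path (H192.dq p k S) (H192.bq p k) (H192.me (cs p)) w j

/-- The squares of the domain which are read in the first `j` steps. -/
noncomputable abbrev sr (p : ZMod n → ℤ × ℤ) (k : ℕ) (S : Finset (ℤ × ℤ)) (j : ℕ) (w : Cfg) :
    Finset (ℤ × ℤ) := H192.rev (H192.dq p k S) (H192.bq p k) (H192.me (cs p)) j w

theorem sp_eq (w : Cfg) (j : ℕ) : sp p k S w j = H192.me (run p k (H192.As S w) j) := by
  unfold sp
  rw [← H192.E6path]
  rfl

theorem ls_sp (w : Cfg) (j : ℕ) : ls (sp p k S w j) = H192.ro (run p k (H192.As S w) j).1 := by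
  rw [sp_eq, H192.ls_me]

theorem rs_sp (w : Cfg) (j : ℕ) : rs (sp p k S w j) = H192.rf (fc (run p k (H192.As S w) j)) := by
  rw [sp_eq, H192.rs_me]
  rfl

theorem hdv_sp (w : Cfg) (j : ℕ) :
    hdv (sp p k S w j) = H192.sq (ahead (run p k (H192.As S w) j)) := by
  rw [sp_eq, H192.hdv_me]

/-- Explored open squares. -/
def eo (p : ZMod n → ℤ × ℤ) (k : ℕ) (S : Finset (ℤ × ℤ)) (w : Cfg) (j : ℕ) : Set (ℤ × ℤ) :=
  {q | q ∈ sr p k S j w ∧ w q = true}

/-- Explored closed squares. -/
def ec (p : ZMod n → ℤ × ℤ) (k : ℕ) (S : Finset (ℤ × ℤ)) (w : Cfg) (j : ℕ) : Set (ℤ × ℤ) :=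
  {q | q ∈ sr p k S j w ∧ w q = false}

theorem eo_mono (w : Cfg) {i j : ℕ} (h : i ≤ j) : eo p k S w i ⊆ eo p k S w j :=
  fun _ hq => ⟨H192.rev_mono w h hq.1, hq.2⟩

theorem ec_mono (w : Cfg) {i j : ℕ} (h : i ≤ j) : ec p k S w i ⊆ ec p k S w j :=
  fun _ hq => ⟨H192.rev_mono w h hq.1, hq.2⟩

/-- The left site is joined by explored open squares to a wired vertex. -/
theorem left_wired (hk : k < n) (w : Cfg) (j : ℕ) : ∃ i : ℕ, k ≤ i ∧ i < n ∧
    ReflTransGen (PStep (eo p k S w j)) (H192.ro (p i)) (ls (sp p k S w j)) := by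
  have : NeZero n := ⟨by omega⟩
  induction j with
  | zero =>
    refine ⟨n - 1, by omega, by omega, ?_⟩
    have e1 : ls (sp p k S w 0) = H192.ro (p ((n - 1 : ℕ) : ZMod n)) := by
      rw [ls_sp]
      congr 1
      show p (-1) = _
      congr 1
      rw [Nat.cast_sub (by omega)]
      simp
    rw [e1]
  | succ j ih =>
    obtain ⟨i, h1, h2, h3⟩ := ih
    have hs : sp p k S w (j + 1) =
        nx (H192.ov (H192.dq p k S) (H192.bq p k) w) (sp p k S w j) := H192.path_succ w j
    rcases H192.ls_nx (H192.ov (H192.dq p k S) (H192.bq p k) w) (sp p k S w j) with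
      ⟨e1, e2, _, e4⟩ | ⟨_, _, e3, _⟩
    · by_cases hD : hdv (sp p k S w j) ∈ H192.dq p k S
      · refine ⟨i, h1, h2, (H166.rtg_mono (eo_mono w (Nat.le_succ j)) h3).tail ?_⟩
        rw [hs]
        refine ⟨e2.1, e2.2.1, ?_⟩
        rw [e4]
        refine ⟨H192.mem_rev.2 ⟨hD, j, Nat.lt_succ_self j, rfl⟩, ?_⟩
        rw [H192.ov_mem hD] at e1
        exact e1
      · -- a wired edge
        rw [H192.ov_notMem hD] at e1
        have e5 : ahead (run p k (H192.As S w) j) ∈ H192.wires p k := by
          unfold H192.bq at e1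
          rw [H192.cfg_true, hdv_sp, H192.ed_sq (H192.isEdge_ahead _)] at e1
          exact e1
        have e6 : ahead (run p k (H192.As S w) j) ∈ wiredOpen p k (H192.As S w) := Or.inr e5
        obtain ⟨i', g1, g2, g3⟩ := e5
        have e7 : (run p k (H192.As S w) (j + 1)).1 = (run p k (H192.As S w) j).1 +
            dir ((run p k (H192.As S w) j).2 + 1) := by
          rw [run_succ, next_open e6]
        have e8 : (run p k (H192.As S w) (j + 1)).1 ∈
            s(p (i' : ZMod n), p ((i' : ZMod n) + 1)) := by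
          rw [← g3, e7]
          show _ ∈ s(_, _)
          exact Sym2.mem_mk_right _ _
        rw [Sym2.mem_iff] at e8
        rw [ls_sp]
        rcases e8 with e8 | e8
        · exact ⟨i', g1, by omega, by rw [e8]⟩
        · exact ⟨i' + 1, by omega, g2, by rw [e8]; push_cast; exact ReflTransGen.refl⟩
    · refine ⟨i, h1, h2, ?_⟩
      rw [hs, e3]
      exact H166.rtg_mono (eo_mono w (Nat.le_succ j)) h3

/-- The right site is joined by explored closed squares to the right site of an earlier time at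
which the right face is outside. -/
theorem right_free (hp : IsPolygon p) (hS : Encloses p S) (w : Cfg) (j : ℕ) : ∃ j' ≤ j,
    fc (run p k (H192.As S w) j') ∉ S ∧
      ReflTransGen (PStep (ec p k S w j)) (rs (sp p k S w j')) (rs (sp p k S w j)) := by
  induction j with
  | zero =>
    refine ⟨0, le_rfl, ?_, ReflTransGen.refl⟩
    exact fc_cs hp hS
  | succ j ih =>
    obtain ⟨j', h1, h2, h3⟩ := ih
    have hs : sp p k S w (j + 1) =
        nx (H192.ov (H192.dq p k S) (H192.bq p k) w) (sp p k S w j) := H192.path_succ w j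
    rcases H192.ls_nx (H192.ov (H192.dq p k S) (H192.bq p k) w) (sp p k S w j) with
      ⟨_, _, e3, _⟩ | ⟨e1, e2, _, e4⟩
    · refine ⟨j', by omega, h2, ?_⟩
      rw [hs, e3]
      exact H166.rtg_mono (ec_mono w (Nat.le_succ j)) h3
    · by_cases hD : hdv (sp p k S w j) ∈ H192.dq p k S
      · refine ⟨j', by omega, h2, (H166.rtg_mono (ec_mono w (Nat.le_succ j)) h3).tail ?_⟩
        rw [hs]
        refine ⟨e2.1, e2.2.1, ?_⟩
        rw [e4]
        refine ⟨H192.mem_rev.2 ⟨hD, j, Nat.lt_succ_self j, rfl⟩, ?_⟩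
        rw [H192.ov_mem hD] at e1
        exact e1
      · refine ⟨j + 1, le_rfl, ?_, ReflTransGen.refl⟩
        rw [H192.ov_notMem hD] at e1
        have e5 : ahead (run p k (H192.As S w) j) ∉ H192.wires p k := by
          intro h
          unfold H192.bq at e1
          have : H192.cfg (H192.wires p k) (hdv (sp p k S w j)) = true := by
            rw [H192.cfg_true, hdv_sp, H192.ed_sq (H192.isEdge_ahead _)]
            exact h
          rw [this] at e1
          exact Bool.noConfusion e1
        rw [H192.mem_dq, hdv_sp, H192.ed_sq (H192.isEdge_ahead _)] at hD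
        have e6 : ahead (run p k (H192.As S w) j) ∉ edges S := fun h => hD ⟨h, e5⟩
        have e7 : ahead (run p k (H192.As S w) j) ∉ wiredOpen p k (H192.As S w) := by
          rintro (h | h)
          · exact e6 (H192.As_subset S w h)
          · exact e5 h
        rw [run_succ, next_closed e7]
        intro h
        refine e6 ?_
        show s(_, _) ∈ edges S
        rw [mem_edges]
        exact Or.inl h

/-- The even corners of an open square on the path. -/
theorem corners_open {ω : Cfg} {e : Ed} (h : ω (hdv e) = true) {s : ℤ × ℤ}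
    (hs : (s.1 + s.2) % 2 = 0) (h1 : s.1 = (hdv e).1 ∨ s.1 = (hdv e).1 + 1)
    (h2 : s.2 = (hdv e).2 ∨ s.2 = (hdv e).2 + 1) : s = ls e ∨ s = ls (nx ω e) := by
  obtain ⟨g1, g2, -, -, g3, -⟩ := H166.corner e
  rcases H192.ls_nx ω e with ⟨_, e2, _, _⟩ | ⟨e1, _⟩
  · obtain ⟨a1, a2, -⟩ := e2
    rcases H192.ls_nx ω e with ⟨_, _, _, e4⟩ | ⟨e1, _⟩
    · rw [Prod.ext_iff] at e4
      simp only at e4
      by_cases hc : s = ls e
      · exact Or.inl hc
      · right
        rw [Prod.ext_iff] at hc ⊢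
        omega
    · rw [h] at e1
      exact absurd e1 (by simp)
  · rw [h] at e1
    exact absurd e1 (by simp)

/-- The odd corners of a closed square on the path. -/
theorem corners_closed {ω : Cfg} {e : Ed} (h : ω (hdv e) = false) {s : ℤ × ℤ}
    (hs : (s.1 + s.2) % 2 = 1) (h1 : s.1 = (hdv e).1 ∨ s.1 = (hdv e).1 + 1)
    (h2 : s.2 = (hdv e).2 ∨ s.2 = (hdv e).2 + 1) : s = rs e ∨ s = rs (nx ω e) := by
  obtain ⟨-, -, g1, g2, -, g3⟩ := H166.corner e
  rcases H192.ls_nx ω e with ⟨e1, _⟩ | ⟨_, e2, _, e4⟩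
  · rw [h] at e1
    exact absurd e1 (by simp)
  · obtain ⟨a1, a2, -⟩ := e2
    rw [Prod.ext_iff] at e4
    simp only at e4
    by_cases hc : s = rs e
    · exact Or.inl hc
    · right
      rw [Prod.ext_iff] at hc ⊢
      omega

/-- **The explored open squares hang on the wired arc.** -/
theorem open_wired (hk : k < n) (w : Cfg) {j : ℕ} {q : ℤ × ℤ} (hq : q ∈ eo p k S w j) {s : ℤ × ℤ}
    (hs : (s.1 + s.2) % 2 = 0) (h1 : s.1 = q.1 ∨ s.1 = q.1 + 1) (h2 : s.2 = q.2 ∨ s.2 = q.2 + 1) :
    ∃ i : ℕ, k ≤ i ∧ i < n ∧ ReflTransGen (PStep (eo p k S w j)) (H192.ro (p i)) s := by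
  obtain ⟨hq1, hq2⟩ := hq
  obtain ⟨hD, i, hi, rfl⟩ := H192.mem_rev.1 hq1
  have hop : H192.ov (H192.dq p k S) (H192.bq p k) w (hdv (sp p k S w i)) = true := by
    rw [H192.ov_mem hD]
    exact hq2
  have hs' : sp p k S w (i + 1) =
      nx (H192.ov (H192.dq p k S) (H192.bq p k) w) (sp p k S w i) := H192.path_succ w i
  rcases corners_open hop hs h1 h2 with h | h
  · obtain ⟨i', g1, g2, g3⟩ := left_wired (p := p) (S := S) hk w i
    exact ⟨i', g1, g2, h ▸ H166.rtg_mono (eo_mono w hi.le) g3⟩
  · obtain ⟨i', g1, g2, g3⟩ := left_wired (p := p) (S := S) hk w (i + 1)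
    rw [hs'] at g3
    exact ⟨i', g1, g2, h ▸ H166.rtg_mono (eo_mono w hi) g3⟩

/-- **The explored closed squares hang on the free arc.** -/
theorem closed_free (hp : IsPolygon p) (hS : Encloses p S) (w : Cfg) {j : ℕ} {q : ℤ × ℤ}
    (hq : q ∈ ec p k S w j) {s : ℤ × ℤ}
    (hs : (s.1 + s.2) % 2 = 1) (h1 : s.1 = q.1 ∨ s.1 = q.1 + 1) (h2 : s.2 = q.2 ∨ s.2 = q.2 + 1) :
    ∃ j' ≤ j, fc (run p k (H192.As S w) j') ∉ S ∧
      ReflTransGen (PStep (ec p k S w j)) (rs (sp p k S w j')) s := by
  obtain ⟨hq1, hq2⟩ := hq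
  obtain ⟨hD, i, hi, rfl⟩ := H192.mem_rev.1 hq1
  have hop : H192.ov (H192.dq p k S) (H192.bq p k) w (hdv (sp p k S w i)) = false := by
    rw [H192.ov_mem hD]
    exact hq2
  have hs' : sp p k S w (i + 1) =
      nx (H192.ov (H192.dq p k S) (H192.bq p k) w) (sp p k S w i) := H192.path_succ w i
  rcases corners_closed hop hs h1 h2 with h | h
  · obtain ⟨j', g1, g2, g3⟩ := right_free (k := k) hp hS w i
    exact ⟨j', by omega, g2, h ▸ H166.rtg_mono (ec_mono w hi.le) g3⟩
  · obtain ⟨j', g1, g2, g3⟩ := right_free (k := k) hp hS w (i + 1)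
    rw [hs'] at g3
    exact ⟨j', by omega, g2, h ▸ H166.rtg_mono (ec_mono w hi) g3⟩

/-- The outer faces met before the exit: the start or a free vertex. -/
theorem out_free (hp : IsPolygon p) (hS : Encloses p S) (h0 : 0 < k) (hk : k < n) (w : Cfg) {j : ℕ}
    (hj : j < len p k (H192.As S w)) (h : fc (run p k (H192.As S w) j) ∉ S) :
    run p k (H192.As S w) j = cs p ∨ ∃ i : ℕ, i < k ∧ (run p k (H192.As S w) j).1 = p i := by
  rcases run_state hp hS h0 hk (H192.As_subset S w) hj with h1 | h1 | ⟨i, h1, h2, -⟩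
  · exact Or.inl h1
  · exact absurd h1 h
  · exact Or.inr ⟨i, h1, h2⟩

end Vale.Agent.P167.H161
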