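import Vale.Agent.P167.H161.Que

/-!
# P167, block E6 (crossing numbers): the frozen squares form few connected pieces
-/

namespace Vale.Agent.P167.H161

open Vale.Agent.P145.FB (PStep)
open Vale.Agent.P167.E6 Vale.Agent.P167.E2
open Vale.Agent.P167.H166

variable {n : ℕ} {p : ZMod n → ℤ × ℤ} {S : Finset (ℤ × ℤ)} {k : ℕ}

/-! ### Corners -/

theorem pa_mem {s t : ℤ × ℤ} (h1 : t.1 = s.1 + 1 ∨ t.1 = s.1 - 1) (h2 : t.2 = s.2 + 1 ∨ t.2 = s.2 - 1)
    (he : Even (s.1 + s.2)) : FK.pa (min s.1 t.1, min s.2 t.2) = s ∨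
      FK.pa (min s.1 t.1, min s.2 t.2) = t := by
  obtain ⟨a, b⟩ := s
  obtain ⟨c, d⟩ := t
  simp only [FK.pa] at *
  rw [Int.even_iff] at he
  split_ifs with h <;> rw [Int.even_iff] at h <;> simp only [Prod.mk.injEq] <;> omega

theorem da_mem {s t : ℤ × ℤ} (h1 : t.1 = s.1 + 1 ∨ t.1 = s.1 - 1) (h2 : t.2 = s.2 + 1 ∨ t.2 = s.2 - 1)
    (he : ¬ Even (s.1 + s.2)) : FK.da (min s.1 t.1, min s.2 t.2) = s ∨
      FK.da (min s.1 t.1, min s.2 t.2) = t := by
  obtain ⟨a, b⟩ := s
  obtain ⟨c, d⟩ := t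
  simp only [FK.da] at *
  rw [Int.even_iff] at he
  split_ifs with h <;> rw [Int.even_iff] at h <;> simp only [Prod.mk.injEq] <;> omega

theorem face_key (v : ℤ × ℤ) (r : Fin 4) :
    (((H192.rf (face v (r + 1))).1 = (H192.rf (face v r)).1 + 1 ∨
      (H192.rf (face v (r + 1))).1 = (H192.rf (face v r)).1 - 1) ∧
    ((H192.rf (face v (r + 1))).2 = (H192.rf (face v r)).2 + 1 ∨
      (H192.rf (face v (r + 1))).2 = (H192.rf (face v r)).2 - 1)) ∧
      (min (H192.rf (face v r)).1 (H192.rf (face v (r + 1))).1, min (H192.rf (face v r)).2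
        (H192.rf (face v (r + 1))).2) = H192.sq s(v, v + dir (r + 1)) := by
  obtain ⟨a, b⟩ := v
  rw [H192.sq_mk]
  rcases H192.fin4_cases r with rfl | rfl | rfl | rfl
  · have e1 : ((0 : Fin 4) + 1) = 1 := rfl
    rw [e1]
    simp only [face, dir, H192.rf, H192.ro]
    refine ⟨⟨?_, ?_⟩, ?_⟩
    · simp; omega
    · simp; omega
    · ext <;> simp <;> omega
  · have e1 : ((1 : Fin 4) + 1) = 2 := rfl
    rw [e1]
    simp only [face, dir, H192.rf, H192.ro]
    refine ⟨⟨?_, ?_⟩, ?_⟩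
    · simp; omega
    · simp; omega
    · ext <;> simp <;> omega
  · have e1 : ((2 : Fin 4) + 1) = 3 := rfl
    rw [e1]
    simp only [face, dir, H192.rf, H192.ro]
    refine ⟨⟨?_, ?_⟩, ?_⟩
    · simp; omega
    · simp; omega
    · ext <;> simp <;> omega
  · have e1 : ((3 : Fin 4) + 1) = 0 := rfl
    rw [e1]
    simp only [face, dir, H192.rf, H192.ro]
    refine ⟨⟨?_, ?_⟩, ?_⟩
    · simp; omega
    · simp; omega
    · ext <;> simp <;> omega

theorem sq_near (v : ℤ × ℤ) (r : Fin 4) :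
    ((H192.sq s(v, v + dir r)).1 = (H192.ro v).1 ∨ (H192.sq s(v, v + dir r)).1 = (H192.ro v).1 - 1) ∧
    ((H192.sq s(v, v + dir r)).2 = (H192.ro v).2 ∨ (H192.sq s(v, v + dir r)).2 = (H192.ro v).2 - 1) := by
  rw [H192.sq_dir]
  obtain ⟨h1, h2⟩ := H192.ro_dir v r
  simp only
  omega

theorem nm_sub_le {a b : ℤ × ℤ} {m : ℤ} : nm (a - b) ≤ m ↔
    -m ≤ a.1 - b.1 ∧ a.1 - b.1 ≤ m ∧ -m ≤ a.2 - b.2 ∧ a.2 - b.2 ≤ m := by
  simp only [nm, Prod.fst_sub, Prod.snd_sub, max_le_iff, abs_le]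
  tauto

theorem nm_sub_lt {a b : ℤ × ℤ} {m : ℤ} : nm (a - b) < m ↔
    -m < a.1 - b.1 ∧ a.1 - b.1 < m ∧ -m < a.2 - b.2 ∧ a.2 - b.2 < m := by
  simp only [nm, Prod.fst_sub, Prod.snd_sub, max_lt_iff, abs_lt]
  tauto

theorem fin4_ofNat (b r : Fin 4) : b + Fin.ofNat 4 (r - b).val = r := by
  revert b r
  decide

/-! ### Connections -/

theorem BStep.symm {x : ℤ × ℤ} {R : ℤ} {ω : Cfg} {s t : ℤ × ℤ} (h : BStep x R ω s t) :
    BStep x R ω t s := by
  obtain ⟨h1, h2⟩ := h
  refine ⟨by rw [min_comm t.1, min_comm t.2]; exact h1, ?_⟩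
  rcases h2 with ⟨h3, h4, h5, h6⟩ | ⟨h3, h4, h5, h6⟩
  · left
    refine ⟨?_, by omega, by omega, by rw [min_comm t.1, min_comm t.2]; exact h6⟩
    rw [Int.even_iff] at h3 ⊢
    omega
  · right
    refine ⟨?_, by omega, by omega, by rw [min_comm t.1, min_comm t.2]; exact h6⟩
    rw [Int.odd_iff] at h3 ⊢
    omega

theorem Conn.symm {x : ℤ × ℤ} {R : ℤ} {ω : Cfg} {s t : ℤ × ℤ} (h : Conn x R ω s t) :
    Conn x R ω t s := by
  induction h with
  | refl => exact Relation.ReflTransGen.refl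
  | tail _ h2 ih => exact Relation.ReflTransGen.head h2.symm ih

section

variable (hp : IsPolygon p) (hS : Encloses p S)
include hp

/-- A step along a wired edge. -/
theorem wstep {x : ℤ × ℤ} {R : ℤ} {w : Cfg} {i : ℕ} (hi : k ≤ i) (hi' : i + 1 < n)
    (hx : nm (H192.ro (p i) - x) < R) :
    BStep x R (ovq p k S w) (H192.ro (p i)) (H192.ro (p ((i + 1 : ℕ) : ZMod n))) := by
  obtain ⟨r, hr⟩ := hp.2.2 (i : ZMod n)
  have e1 : p ((i + 1 : ℕ) : ZMod n) = p i + dir r := by
    rw [← hr]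
    push_cast
    rfl
  rw [e1]
  obtain ⟨h1, h2⟩ := H192.ro_dir (p i) r
  obtain ⟨h3, h4⟩ := sq_near (p i) r
  rw [H192.sq_dir] at h3 h4
  rw [nm_sub_lt] at hx
  refine ⟨?_, Or.inl ⟨H192.even_ro _, h1, h2, ?_⟩⟩
  · rw [mem_Bq]
    simp only at h3 h4 ⊢
    omega
  · have h5 : (min (H192.ro (p i)).1 (H192.ro (p i + dir r)).1,
        min (H192.ro (p i)).2 (H192.ro (p i + dir r)).2) ∈ FW p k := by
      rw [← H192.sq_dir]
      show H192.ed (H192.sq s(p i, p i + dir r)) ∈ H192.wires p k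
      rw [H192.ed_sq ⟨p i, r, rfl⟩]
      exact ⟨i, hi, hi', by rw [← hr]⟩
    exact ovq_FW h5

theorem wchain {x : ℤ × ℤ} {R : ℤ} {w : Cfg} {i j : ℕ} (hi : k ≤ i) (hij : i ≤ j) (hj : j < n)
    (hx : ∀ l, i ≤ l → l ≤ j → nm (H192.ro (p l) - x) < R) :
    Conn x R (ovq p k S w) (H192.ro (p i)) (H192.ro (p j)) := by
  induction j, hij using Nat.le_induction with
  | base => exact Relation.ReflTransGen.refl
  | succ j hij ih =>
    exact (ih (by omega) fun l h1 h2 => hx l h1 (by omega)).tail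
      (wstep hp (by omega) hj (hx j hij (by omega)))

include hS

/-- A step between two exterior faces at a free vertex. -/
theorem fstep {x : ℤ × ℤ} {R : ℤ} {w : Cfg} {i : ℕ} (hi : i < k) {r : Fin 4}
    (h1 : face (p i) r ∉ S) (h2 : face (p i) (r + 1) ∉ S) (hx : nm (H192.ro (p i) - x) < R) :
    BStep x R (ovq p k S w) (H192.rf (face (p i) r)) (H192.rf (face (p i) (r + 1))) := by
  obtain ⟨⟨h3, h4⟩, h5⟩ := face_key (p i) r
  obtain ⟨h6, h7⟩ := sq_near (p i) (r + 1)
  rw [nm_sub_lt] at hx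
  refine ⟨?_, Or.inr ⟨?_, h3, h4, ?_⟩⟩
  · rw [h5, mem_Bq]
    omega
  · rw [← Int.not_even_iff_odd]
    exact H192.odd_rf _
  · rw [h5]
    have h8 : H192.sq s(p i, p i + dir (r + 1)) ∈ FO p k S := ⟨i, r, hi, h1, h2, rfl⟩
    intro h9
    have h10 : ovq p k S w (H192.sq s(p i, p i + dir (r + 1))) = true := h9
    rw [ovq_FO hp hS h8] at h10
    exact Bool.false_ne_true h10

theorem floc {x : ℤ × ℤ} {R : ℤ} {w : Cfg} {i : ℕ} (hi : i < k)
    (hx : nm (H192.ro (p i) - x) < R) {r : Fin 4} (hr : face (p i) r ∉ S) :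
    Conn x R (ovq p k S w) (H192.rf (face (p i) (ri p i))) (H192.rf (face (p i) r)) := by
  have key : ∀ t : ℕ, t < (E2.ro p i - ri p i).val → Conn x R (ovq p k S w)
      (H192.rf (face (p i) (ri p i))) (H192.rf (face (p i) (ri p i + Fin.ofNat 4 t))) := by
    intro t
    induction t with
    | zero =>
      intro _
      have : ri p i + Fin.ofNat 4 0 = ri p i := by
        generalize ri p (i : ZMod n) = r
        revert r
        decide
      rw [this]
      exact Relation.ReflTransGen.refl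
    | succ t ih =>
      intro ht
      obtain ⟨h1, h2⟩ := val_aux (E2.ro p i) (ri p i) t (by omega) ht
      refine (ih (by omega)).tail ?_
      have h3 : t < 4 := by omega
      have e1 : ri p i + Fin.ofNat 4 (t + 1) = ri p i + Fin.ofNat 4 t + 1 := by
        clear h1 h2 ht ih
        generalize ri p (i : ZMod n) = r
        interval_cases t <;> revert r <;> decide
      rw [e1]
      exact fstep hp hS hi ((ext_iff hp hS).2 h1) ((ext_iff hp hS).2 h2) hx
  have h1 := key _ ((ext_iff hp hS).1 hr)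
  rwa [fin4_ofNat] at h1

omit hS in
theorem G_succ (i : ℕ) : face (p ((i + 1 : ℕ) : ZMod n)) (ri p ((i + 1 : ℕ) : ZMod n)) =
    face (p i) (E2.ro p i - 1) := by
  have e1 : ((i + 1 : ℕ) : ZMod n) = (i : ZMod n) + 1 := by push_cast; rfl
  rw [e1, ro_spec hp, ri, add_sub_cancel_right, face_right]

theorem fchain {x : ℤ × ℤ} {R : ℤ} {w : Cfg} {i j : ℕ} (hij : i ≤ j) (hj : j < k)
    (hx : ∀ l, i ≤ l → l ≤ j → nm (H192.ro (p l) - x) < R) :
    Conn x R (ovq p k S w) (H192.rf (face (p i) (ri p i)))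
      (H192.rf (face (p j) (ri p j))) := by
  induction j, hij using Nat.le_induction with
  | base => exact Relation.ReflTransGen.refl
  | succ j hij ih =>
    refine (ih (by omega) fun l h1 h2 => hx l h1 (by omega)).trans ?_
    rw [G_succ hp]
    exact floc hp hS (by omega) (hx j hij (by omega)) (enc_out hp hS).2

open Classical in
/-- **Few frozen pieces.** -/
theorem frz {c : ℕ → ℕ} (hc : Monotone c) {M : ℕ} (hk : k < n)
    (hM : ∀ i < n, c i < M) {ρ : ℤ} (hρ : ∀ i j, i < n → j < n → c i = c j →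
      nm (H192.ro (p i) - H192.ro (p j)) ≤ ρ) :
    ∃ P : Finset (ℤ × ℤ), P.card ≤ 2 * M ∧ ∀ (x : ℤ × ℤ) (r R : ℤ), r + ρ + 4 ≤ R →
      ∀ w : Cfg, ∀ v ∈ Fq p k S, nm (v - x) < r →
        ∃ q ∈ P, Conn x R (ovq p k S w) (cor (ovq p k S w v) v) q := by
  let iW : ℕ → ℕ := fun u => sInf {i | k ≤ i ∧ i < n ∧ c i = u}
  let iF : ℕ → ℕ := fun u => sInf {i | i < k ∧ c i = u}
  refine ⟨(Finset.range M).image (fun u => H192.ro (p (iW u))) ∪
    (Finset.range M).image (fun u => H192.rf (face (p (iF u)) (ri p (iF u)))), ?_, ?_⟩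
  · refine (Finset.card_union_le _ _).trans ?_
    have h1 := Finset.card_image_le (s := Finset.range M) (f := fun u => H192.ro (p (iW u)))
    have h2 := Finset.card_image_le (s := Finset.range M)
      (f := fun u => H192.rf (face (p (iF u)) (ri p (iF u))))
    rw [Finset.card_range] at h1 h2
    omega
  · intro x r R hR w v hv hnm
    rw [nm_sub_lt] at hnm
    rcases hv with hv | hv
    · -- wired
      obtain ⟨i, hi1, hi2, hi3⟩ := hv
      rw [show ovq p k S w v = true from ovq_FW ⟨i, hi1, hi2, hi3⟩]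
      obtain ⟨d, hd⟩ := hp.2.2 (i : ZMod n)
      have hv1 : v = H192.sq s(p i, p i + dir d) := by
        rw [← hd, ← hi3, H192.sq_ed]
      obtain ⟨h3, h4⟩ := sq_near (p i) d
      rw [← hv1] at h3 h4
      have hmem : iW (c i) ∈ {i' | k ≤ i' ∧ i' < n ∧ c i' = c i} :=
        Nat.sInf_mem (s := {i' | k ≤ i' ∧ i' < n ∧ c i' = c i}) ⟨i, hi1, by omega, rfl⟩
      have hle : iW (c i) ≤ i :=
        Nat.sInf_le (s := {i' | k ≤ i' ∧ i' < n ∧ c i' = c i}) ⟨hi1, by omega, rfl⟩
      obtain ⟨g1, g2, g3⟩ := hmem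
      have hnear : ∀ l, iW (c i) ≤ l → l ≤ i → nm (H192.ro (p l) - x) < R := by
        intro l hl1 hl2
        have h5 : c l = c i := le_antisymm (hc hl2) (by rw [← g3]; exact hc hl1)
        have h6 := hρ l i (by omega) (by omega) h5
        rw [nm_sub_le] at h6
        rw [nm_sub_lt]
        omega
      refine ⟨H192.ro (p (iW (c i))), ?_, ?_⟩
      · refine Finset.mem_union_left _ (Finset.mem_image.2 ⟨c i, ?_, rfl⟩)
        exact Finset.mem_range.2 (hM i (by omega))
      · have hch : Conn x R (ovq p k S w) (H192.ro (p i)) (H192.ro (p (iW (c i)))) :=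
          (wchain hp g1 hle (by omega) hnear).symm
        obtain ⟨h5, h6⟩ := H192.ro_dir (p i) d
        have h7 := pa_mem h5 h6 (H192.even_ro _)
        rw [← H192.sq_dir, ← hv1] at h7
        simp only [cor, if_true]
        rcases h7 with h7 | h7
        · rw [h7]
          exact hch
        · rw [h7]
          have h8 := wstep (S := S) (w := w) hp hi1 hi2 (hnear i hle le_rfl)
          have e1 : p ((i + 1 : ℕ) : ZMod n) = p i + dir d := by
            rw [← hd]
            push_cast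
            rfl
          rw [e1] at h8
          exact Relation.ReflTransGen.head h8.symm hch
    · -- free
      rw [ovq_FO hp hS hv]
      obtain ⟨i, d, hi1, hi2, hi3, hv1⟩ := hv
      obtain ⟨h3, h4⟩ := sq_near (p i) (d + 1)
      rw [← hv1] at h3 h4
      have hmem : iF (c i) ∈ {i' | i' < k ∧ c i' = c i} :=
        Nat.sInf_mem (s := {i' | i' < k ∧ c i' = c i}) ⟨i, hi1, rfl⟩
      have hle : iF (c i) ≤ i :=
        Nat.sInf_le (s := {i' | i' < k ∧ c i' = c i}) ⟨hi1, rfl⟩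
      obtain ⟨g1, g3⟩ := hmem
      have hnear : ∀ l, iF (c i) ≤ l → l ≤ i → nm (H192.ro (p l) - x) < R := by
        intro l hl1 hl2
        have h5 : c l = c i := le_antisymm (hc hl2) (by rw [← g3]; exact hc hl1)
        have h6 := hρ l i (by omega) (by omega) h5
        rw [nm_sub_le] at h6
        rw [nm_sub_lt]
        omega
      refine ⟨H192.rf (face (p (iF (c i))) (ri p (iF (c i)))), ?_, ?_⟩
      · refine Finset.mem_union_right _ (Finset.mem_image.2 ⟨c i, ?_, rfl⟩)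
        exact Finset.mem_range.2 (hM i (by omega))
      · have hch : Conn x R (ovq p k S w) (H192.rf (face (p i) (ri p i)))
            (H192.rf (face (p (iF (c i))) (ri p (iF (c i))))) :=
          (fchain hp hS hle hi1 hnear).symm
        obtain ⟨⟨h5, h6⟩, h8⟩ := face_key (p i) d
        have h7 := da_mem h5 h6 (H192.odd_rf _)
        rw [h8, ← hv1] at h7
        simp only [cor, Bool.false_eq_true, if_false]
        rcases h7 with h7 | h7
        · rw [h7]
          exact (floc hp hS hi1 (hnear i hle le_rfl) hi2).symm.trans hch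
        · rw [h7]
          exact (floc hp hS hi1 (hnear i hle le_rfl) hi3).symm.trans hch

end

end Vale.Agent.P167.H161
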