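import Vale.Agent.P167.E2.Intf
import Vale.Agent.P167.H192.Inter
import Vale.Agent.P167.H161.Exc

/-!
# P167, block E6 (crossing numbers): the edges which are read by the interface

Before the exit the interface reads only edges of the domain and outward edges at the free
vertices. So it is the orbit of the start for the configuration `ovq`, equal to the fair
configuration off the frozen squares `Fq`.
-/

namespace Vale.Agent.P167.H161

open Vale.Agent.P145.FB (PStep)
open Vale.Agent.P167.E6 Vale.Agent.P167.E2

variable {n : ℕ} {p : ZMod n → ℤ × ℤ} {S : Finset (ℤ × ℤ)} {k : ℕ} {A : Finset (Sym2 (ℤ × ℤ))}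

theorem fin4_12 (r : Fin 4) : r + 1 + 2 + 1 = r := by revert r; decide
theorem fin4_6 (r : Fin 4) : r + 1 + 2 - 1 = r + 1 + 1 := by revert r; decide

theorem fin4_7 (r : Fin 4) : r + 1 + 2 = r - 1 := by revert r; decide

/-- The state of the path before the exit. -/
theorem run_state (hp : IsPolygon p) (hS : Encloses p S) (h0 : 0 < k) (hk : k < n)
    (hA : A ⊆ edges S) {j : ℕ} (hj : j < len p k A) :
    run p k A j = cs p ∨ fc (run p k A j) ∈ S ∨
      ∃ i : ℕ, i < k ∧ (run p k A j).1 = p i ∧ fc (run p k A j) ∉ S := by
  have hn : n ≠ 0 := by omega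
  have : NeZero n := ⟨hn⟩
  induction j with
  | zero => exact Or.inl rfl
  | succ j ih =>
    have ih' := ih (by omega)
    have hne := run_ne hp hS hk hA (Nat.succ_pos j) hj
    rw [run_succ] at hne ⊢
    set c := run p k A j with hc
    by_cases ho : ahead c ∈ wiredOpen p k A
    · have hfc := fc_next_open ho
      rw [hfc]
      by_cases hf : fc c ∈ S
      · exact Or.inr (Or.inl hf)
      · right; right
        have h1 := (mem_edges (c.2 + 1)).1 (wired_sub hp hS hA ho)
        rw [fin4_2] at h1
        have h2 : face c.1 (c.2 + 1) ∈ S := h1.resolve_right hf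
        obtain ⟨i', hi1, hi2⟩ := (hS c.1 (c.2 + 1)).2 ⟨h2, by rw [fin4_2]; exact hf⟩
        have hidx : i' = -1 ∨ ∃ i : ℕ, i < k ∧ i' = (i : ZMod n) := by
          rcases ih' with h | h | ⟨i, h3, h4, -⟩
          · left
            apply hp.2.1
            rw [hi1, h]
            rfl
          · exact absurd h hf
          · right
            exact ⟨i, h3, hp.2.1 (by rw [hi1, h4])⟩
        rw [next_open ho] at hne ⊢
        rcases hidx with rfl | ⟨i, hik, rfl⟩
        · refine ⟨0, h0, ?_, hf⟩
          show c.1 + dir (c.2 + 1) = _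
          rw [← hi2]
          simp
        · rcases Nat.lt_or_ge (i + 1) k with h5 | h5
          · refine ⟨i + 1, h5, ?_, hf⟩
            show c.1 + dir (c.2 + 1) = _
            rw [← hi2]
            push_cast
            rfl
          · exfalso
            apply hne
            obtain rfl : k = i + 1 := by omega
            refine (exit_iff hp).1 ⟨?_, ?_⟩
            · show c.1 + dir (c.2 + 1) = _
              rw [← hi2]
              push_cast
              rfl
            · show p ((i + 1 : ℕ) : ZMod n) + dir (c.2 - 1) = _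
              have e1 : p ((i + 1 : ℕ) : ZMod n) = c.1 + dir (c.2 + 1) := by
                rw [← hi2]
                push_cast
                rfl
              rw [e1, ← fin4_7, dir_add_two']
              rw [← hi1]
              congr 1
              push_cast
              ring
    · rw [next_closed ho] at hne ⊢
      by_cases hf' : face c.1 (c.2 + 1) ∈ S
      · exact Or.inr (Or.inl hf')
      · right; right
        by_cases hf : fc c ∈ S
        · -- from inside to outside
          have e1 : face (c.1 + dir (c.2 + 1)) (c.2 + 1 + 2) ∈ S := by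
            rw [face_right, fin4_2]
            exact hf
          have e2 : face (c.1 + dir (c.2 + 1)) (c.2 + 1 + 2 - 1) ∉ S := by
            rw [fin4_6, face_left]
            exact hf'
          obtain ⟨i', hi1, hi2⟩ := (hS _ _).2 ⟨e1, e2⟩
          rw [dir_add_two'] at hi2
          have hval : (i'.val : ZMod n) = i' := ZMod.natCast_zmod_val i'
          have hlt : i'.val < n := ZMod.val_lt i'
          have hnw : ¬ (k ≤ i'.val ∧ i'.val + 1 < n) := by
            rintro ⟨h5, h6⟩
            apply ho
            refine Or.inr ⟨i'.val, h5, h6, ?_⟩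
            rw [hval, hi1, hi2]
            exact Sym2.eq_swap
          rcases Nat.lt_or_ge i'.val k with h5 | h5
          · rcases Nat.lt_or_ge (i'.val + 1) k with h6 | h6
            · refine ⟨i'.val + 1, h6, ?_, hf'⟩
              rw [Nat.cast_add, hval, Nat.cast_one]
              exact hi2.symm
            · exfalso
              apply hne
              have hki : k = i'.val + 1 := by omega
              refine (exit_iff hp).1 ⟨?_, ?_⟩
              · rw [hki, Nat.cast_add, hval, Nat.cast_one]
                exact hi2.symm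
              · rw [hki, Nat.cast_add, hval, Nat.cast_one, hi2, add_sub_cancel_right, hi1]
          · have h6 : i'.val + 1 = n := by omega
            refine ⟨0, h0, ?_, hf'⟩
            show c.1 = _
            rw [← hi2, ← hval, ← Nat.cast_succ, Nat.succ_eq_add_one, h6]
            simp
        · rcases ih' with h | h | ⟨i, h3, h4, -⟩
          · exfalso
            apply hf'
            rw [h]
            simp only [cs, fin4_1]
            exact (enc_out hp hS).1
          · exact absurd h hf
          · exact ⟨i, h3, h4, hf'⟩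

/-- The edges read before the exit. -/
theorem ahead_cases (hp : IsPolygon p) (hS : Encloses p S) (h0 : 0 < k) (hk : k < n)
    (hA : A ⊆ edges S) {j : ℕ} (hj : j < len p k A) :
    ahead (run p k A j) ∈ edges S ∨ ∃ i : ℕ, i < k ∧ (run p k A j).1 = p i ∧
      face (p i) (run p k A j).2 ∉ S ∧ face (p i) ((run p k A j).2 + 1) ∉ S := by
  by_cases h : ahead (run p k A j) ∈ edges S
  · exact Or.inl h
  right
  have h1 : ¬ (face (run p k A j).1 ((run p k A j).2 + 1) ∈ S ∨
      face (run p k A j).1 ((run p k A j).2 + 1 - 1) ∈ S) := fun h2 =>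
    h ((mem_edges ((run p k A j).2 + 1)).2 h2)
  rw [fin4_2] at h1
  rw [not_or] at h1
  rcases run_state hp hS h0 hk hA hj with h2 | h2 | ⟨i, h2, h3, -⟩
  · exfalso
    apply h1.1
    rw [h2]
    simp only [cs, fin4_1]
    exact (enc_out hp hS).1
  · exact absurd h2 h1.2
  · refine ⟨i, h2, h3, ?_, ?_⟩
    · rw [← h3]; exact h1.2
    · rw [← h3]; exact h1.1

/-! ### The frozen squares -/

/-- The squares of the wired edges. -/
def FW (p : ZMod n → ℤ × ℤ) (k : ℕ) : Set (ℤ × ℤ) := {q | H192.ed q ∈ H192.wires p k}

/-- The squares of the outward edges at the free vertices. -/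
def FO (p : ZMod n → ℤ × ℤ) (k : ℕ) (S : Finset (ℤ × ℤ)) : Set (ℤ × ℤ) :=
  {q | ∃ (i : ℕ) (r : Fin 4), i < k ∧ face (p i) r ∉ S ∧ face (p i) (r + 1) ∉ S ∧
    q = H192.sq s(p i, p i + dir (r + 1))}

/-- The frozen squares. -/
def Fq (p : ZMod n → ℤ × ℤ) (k : ℕ) (S : Finset (ℤ × ℤ)) : Set (ℤ × ℤ) := FW p k ∪ FO p k S

open Classical in
/-- The configuration seen by the interface. -/
noncomputable def ovq (p : ZMod n → ℤ × ℤ) (k : ℕ) (S : Finset (ℤ × ℤ)) (w : Cfg) : Cfg := fun q =>
  if q ∈ FW p k then true else if q ∈ FO p k S then false else w q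

theorem ovq_off (w : Cfg) (q : ℤ × ℤ) (h : q ∉ Fq p k S) : ovq p k S w q = w q := by
  unfold Fq at h
  rw [Set.mem_union, not_or] at h
  unfold ovq
  rw [if_neg h.1, if_neg h.2]

theorem ovq_FW {w : Cfg} {q : ℤ × ℤ} (h : q ∈ FW p k) : ovq p k S w q = true := if_pos h

theorem not_FW_of_FO (hp : IsPolygon p) (hS : Encloses p S) {q : ℤ × ℤ} (h : q ∈ FO p k S) :
    q ∉ FW p k := by
  obtain ⟨i, r, -, h1, h2, rfl⟩ := h
  intro h3
  unfold FW at h3
  rw [Set.mem_ofPred_eq, H192.ed_sq ⟨p i, r + 1, rfl⟩] at h3
  have h4 : s(p i, p i + dir (r + 1)) ∈ edges S := by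
    obtain ⟨i', -, -, h5⟩ := h3
    rw [h5]
    exact p_edge hp hS _
  rw [mem_edges, fin4_2] at h4
  tauto

theorem ovq_FO (hp : IsPolygon p) (hS : Encloses p S) {w : Cfg} {q : ℤ × ℤ} (h : q ∈ FO p k S) :
    ovq p k S w q = false := by
  unfold ovq
  rw [if_neg (not_FW_of_FO hp hS h), if_pos h]

/-- What the interface reads. -/
theorem ovq_run (hp : IsPolygon p) (hS : Encloses p S) (h0 : 0 < k) (hk : k < n) (w : Cfg) {j : ℕ}
    (hj : j < len p k (H192.As S w)) :
    ovq p k S w (hdv (H192.me (run p k (H192.As S w) j))) = true ↔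
      ahead (run p k (H192.As S w) j) ∈ wiredOpen p k (H192.As S w) := by
  set c := run p k (H192.As S w) j with hc
  have hed : H192.ed (hdv (H192.me c)) = ahead c := H192.ed_hdv_me c
  have hwo : ahead c ∈ wiredOpen p k (H192.As S w) ↔
      ahead c ∈ H192.As S w ∨ ahead c ∈ H192.wires p k := Iff.rfl
  rw [hwo]
  by_cases h1 : ahead c ∈ H192.wires p k
  · have h2 : hdv (H192.me c) ∈ FW p k := by
      show H192.ed (hdv (H192.me c)) ∈ H192.wires p k
      rw [hed]
      exact h1
    rw [ovq_FW h2]
    exact ⟨fun _ => Or.inr h1, fun _ => rfl⟩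
  · have h2 : hdv (H192.me c) ∉ FW p k := by
      intro h
      have h' : H192.ed (hdv (H192.me c)) ∈ H192.wires p k := h
      rw [hed] at h'
      exact h1 h'
    rcases ahead_cases hp hS h0 hk (H192.As_subset S w) hj with h3 | ⟨i, hi, h4, h5, h6⟩
    · have h7 : hdv (H192.me c) ∉ FO p k S := by
        rintro ⟨i, r, -, h5, h6, h8⟩
        have h9 : ahead c = s(p i, p i + dir (r + 1)) := by
          rw [← hed, h8, H192.ed_sq ⟨p i, r + 1, rfl⟩]
        rw [h9, mem_edges, fin4_2] at h3
        tauto
      unfold ovq
      rw [if_neg h2, if_neg h7, H192.mem_As]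
      have h8 : H192.sq (ahead c) = hdv (H192.me c) := (H192.hdv_me c).symm
      rw [h8]
      exact ⟨fun h => Or.inl ⟨h3, h⟩, fun h => h.elim (fun h => h.2) fun h => absurd h h1⟩
    · have h7 : hdv (H192.me c) ∈ FO p k S := by
        refine ⟨i, c.2, hi, h5, h6, ?_⟩
        rw [H192.hdv_me]
        unfold ahead
        rw [← h4]
      rw [ovq_FO hp hS h7]
      refine ⟨fun h => absurd h (by simp), ?_⟩
      rintro (h | h)
      · have h8 := H192.As_subset S w h
        have h9 : ahead c = s(p i, p i + dir (c.2 + 1)) := by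
          unfold ahead
          rw [← h4]
        rw [h9, mem_edges, fin4_2] at h8
        tauto
      · exact absurd h h1

/-- The interface is the orbit of its start for `ovq`. -/
theorem run_eq (hp : IsPolygon p) (hS : Encloses p S) (h0 : 0 < k) (hk : k < n) (w : Cfg) {j : ℕ}
    (hj : j ≤ len p k (H192.As S w)) :
    (nx (ovq p k S w))^[j] (H192.me (cs p)) = H192.me (run p k (H192.As S w) j) := by
  induction j with
  | zero => rfl
  | succ j ih =>
    rw [Function.iterate_succ_apply', ih (by omega), run_succ]
    exact H192.nx_me _ (ovq_run hp hS h0 hk w (by omega))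

end Vale.Agent.P167.H161
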