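import Vale.Agent.P167.H634.CellDefs
import Vale.Agent.P167.E2.Om

/-!
# P167, block CG3 (CELL): triangles

`tri u r`: the closed triangle of the face `face u r` at its side `(u, u + dir r)`, in the lattice
coordinates. The diamond of an edge is the union of two triangles.
-/

open Set Metric

namespace Vale.Agent.P167.H161.Cell

open Vale.Agent.P167.E6 Vale.Agent.P167.E2 Vale.Agent.P167.H634

theorem fin4c (r : Fin 4) : r = 0 ∨ r = 1 ∨ r = 2 ∨ r = 3 := by revert r; decide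

/-- Local coordinate along the edge. -/
noncomputable def cS (u : ℤ × ℤ) (r : Fin 4) (z : ℂ) : ℝ :=
  (z.re - u.1) * (pt (dir r)).re + (z.im - u.2) * (pt (dir r)).im

/-- Local coordinate across the edge. -/
noncomputable def cT (u : ℤ × ℤ) (r : Fin 4) (z : ℂ) : ℝ :=
  (z.im - u.2) * (pt (dir r)).re - (z.re - u.1) * (pt (dir r)).im

/-- The closed triangle. -/
def tri (u : ℤ × ℤ) (r : Fin 4) : Set ℂ :=
  {z | 0 ≤ cT u r z ∧ cT u r z ≤ cS u r z ∧ cS u r z + cT u r z ≤ 1}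

theorem isClosed_tri (u : ℤ × ℤ) (r : Fin 4) : IsClosed (tri u r) := by
  have h1 : Continuous (cS u r) := by unfold cS; fun_prop
  have h2 : Continuous (cT u r) := by unfold cT; fun_prop
  exact (isClosed_le continuous_const h2).inter ((isClosed_le h2 h1).inter
    (isClosed_le (h1.add h2) continuous_const))

/-- The open face. -/
def OF (f : ℤ × ℤ) : Set ℂ :=
  {z | ((f.1 : ℝ) < z.re ∧ z.re < f.1 + 1) ∧ (f.2 : ℝ) < z.im ∧ z.im < f.2 + 1}

/-- The closed face. -/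
def CF (f : ℤ × ℤ) : Set ℂ :=
  {z | ((f.1 : ℝ) ≤ z.re ∧ z.re ≤ f.1 + 1) ∧ (f.2 : ℝ) ≤ z.im ∧ z.im ≤ f.2 + 1}

theorem int_eq_of {a m : ℤ} {x : ℝ} (h1 : (m : ℝ) < x) (h2 : x < m + 1) (h3 : (a : ℝ) ≤ x)
    (h4 : x ≤ a + 1) : m = a := by
  have k1 : (m : ℝ) < ((a + 1 : ℤ) : ℝ) := by push_cast; linarith
  have k2 : (a : ℝ) < ((m + 1 : ℤ) : ℝ) := by push_cast; linarith
  have k3 : m < a + 1 := by exact_mod_cast k1
  have k4 : a < m + 1 := by exact_mod_cast k2
  omega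

theorem of_cf {f g : ℤ × ℤ} {z : ℂ} (h1 : z ∈ OF f) (h2 : z ∈ CF g) : f = g :=
  Prod.ext (int_eq_of h1.1.1 h1.1.2 h2.1.1 h2.1.2) (int_eq_of h1.2.1 h1.2.2 h2.2.1 h2.2.2)

theorem tri_sub_CF (u : ℤ × ℤ) (r : Fin 4) : tri u r ⊆ CF (face u r) := by
  rintro z ⟨h1, h2, h3⟩
  unfold cS cT at *
  revert r
  refine forall4 ?_ ?_ ?_ ?_ <;> intro h1 h2 h3 <;>
    simp only [pd0, pd1, pd2, pd3, mul_one, mul_zero, add_zero, zero_add, mul_neg, sub_zero,
      zero_sub, sub_neg_eq_add, neg_neg] at h1 h2 h3 <;>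
    simp only [face0, face1, face2, face3, CF, mem_ofPred_eq] <;> push_cast <;>
    refine ⟨⟨?_, ?_⟩, ?_, ?_⟩ <;> linarith

/-- A point of the triangle is on the edge or inside the face. -/
theorem tri_cases {u : ℤ × ℤ} {r : Fin 4} {z : ℂ} (h : z ∈ tri u r) :
    (∃ σ : ℝ, 0 ≤ σ ∧ σ ≤ 1 ∧ z = epn u σ r) ∨ z ∈ OF (face u r) := by
  obtain ⟨h1, h2, h3⟩ := h
  rcases h1.lt_or_eq with h0 | h0
  · right
    unfold cS cT at *
    clear h1
    rcases fin4c r with rfl | rfl | rfl | rfl <;>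
      simp only [pd0, pd1, pd2, pd3, mul_one, mul_zero, add_zero, zero_add, mul_neg, sub_zero,
        zero_sub, sub_neg_eq_add, neg_neg] at h0 h2 h3 <;>
      simp only [face0, face1, face2, face3, OF, mem_ofPred_eq] <;> push_cast <;>
      refine ⟨⟨?_, ?_⟩, ?_, ?_⟩ <;> linarith
  · left
    refine ⟨cS u r z, by linarith, by linarith, ?_⟩
    apply Complex.ext
    · rw [epn_re]
      unfold cS cT at *
      clear h1 h2 h3
      rcases fin4c r with rfl | rfl | rfl | rfl <;>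
        simp only [pd0, pd1, pd2, pd3, mul_one, mul_zero, add_zero, zero_add, mul_neg, sub_zero,
          zero_sub, sub_neg_eq_add, neg_neg] at h0 ⊢ <;> linarith
    · rw [epn_im]
      unfold cS cT at *
      clear h1 h2 h3
      rcases fin4c r with rfl | rfl | rfl | rfl <;>
        simp only [pd0, pd1, pd2, pd3, mul_one, mul_zero, add_zero, zero_add, mul_neg, sub_zero,
          zero_sub, sub_neg_eq_add, neg_neg] at h0 ⊢ <;> linarith

/-- Rescaling to the mesh one. -/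
noncomputable def sc (δ : ℝ) (z : ℂ) : ℂ := ⟨z.re / δ, z.im / δ⟩

theorem continuous_sc (δ : ℝ) : Continuous (sc δ) := by
  have : sc δ = fun z : ℂ => ((z.re / δ : ℝ) : ℂ) + ((z.im / δ : ℝ) : ℂ) * Complex.I := by
    funext z
    apply Complex.ext <;> simp [sc]
  rw [this]
  fun_prop

theorem sc_mul {δ : ℝ} (hδ : 0 < δ) (z : ℂ) : (δ : ℂ) * sc δ z = z := by
  apply Complex.ext
  · simp only [sc, Complex.mul_re, Complex.ofReal_re, Complex.ofReal_im]
    field_simp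
    ring
  · simp only [sc, Complex.mul_im, Complex.ofReal_re, Complex.ofReal_im]
    field_simp
    ring

theorem sc_of_mul {δ : ℝ} (hδ : 0 < δ) (z : ℂ) : sc δ ((δ : ℂ) * z) = z := by
  apply Complex.ext
  · simp only [sc, Complex.mul_re, Complex.ofReal_re, Complex.ofReal_im]
    field_simp
    ring
  · simp only [sc, Complex.mul_im, Complex.ofReal_re, Complex.ofReal_im]
    field_simp
    ring

theorem abs_sc {δ a b c : ℝ} (hδ : 0 < δ) : |a - δ * b| ≤ δ * c ↔ |a / δ - b| ≤ c := by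
  have h : a - δ * b = δ * (a / δ - b) := by field_simp
  rw [h, abs_mul, abs_of_pos hδ]
  exact mul_le_mul_iff_right₀ hδ

theorem mem_Bx {δ ρ x y : ℝ} (hδ : 0 < δ) {z : ℂ} :
    z ∈ Bx δ ρ x y ↔ |(sc δ z).re - x| ≤ ρ ∧ |(sc δ z).im - y| ≤ ρ := by
  unfold Bx sc
  rw [mem_ofPred_eq, abs_sc hδ, abs_sc hδ]

theorem mem_Dm {δ : ℝ} (hδ : 0 < δ) {u v : ℤ × ℤ} {z : ℂ} :
    z ∈ Dm δ u v ↔ |(sc δ z).re - ((u.1 : ℝ) + v.1) / 2| + |(sc δ z).im - ((u.2 : ℝ) + v.2) / 2| ≤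
      1 / 2 := by
  unfold Dm sc
  rw [mem_ofPred_eq]
  have h : ∀ a b : ℝ, |a - δ * b| = δ * |a / δ - b| := by
    intro a b
    have : a - δ * b = δ * (a / δ - b) := by field_simp
    rw [this, abs_mul, abs_of_pos hδ]
  rw [h, h, ← mul_add, div_eq_mul_one_div δ 2]
  exact mul_le_mul_iff_right₀ hδ

/-- The diamond is the union of two triangles. -/
theorem dm_sub {δ : ℝ} (hδ : 0 < δ) {u : ℤ × ℤ} {r : Fin 4} {z : ℂ}
    (hz : z ∈ Dm δ u (u + dir r)) : sc δ z ∈ tri u r ∨ sc δ z ∈ tri (u + dir r) (r + 2) := by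
  rw [mem_Dm hδ] at hz
  generalize sc δ z = w at hz ⊢
  have h1 := le_abs_self (w.re - ((u.1 : ℝ) + (u + dir r).1) / 2)
  have h2 := neg_abs_le (w.re - ((u.1 : ℝ) + (u + dir r).1) / 2)
  have h3 := le_abs_self (w.im - ((u.2 : ℝ) + (u + dir r).2) / 2)
  have h4 := neg_abs_le (w.im - ((u.2 : ℝ) + (u + dir r).2) / 2)
  have h5 := abs_nonneg (w.re - ((u.1 : ℝ) + (u + dir r).1) / 2)
  have h6 := abs_nonneg (w.im - ((u.2 : ℝ) + (u + dir r).2) / 2)
  generalize |w.re - ((u.1 : ℝ) + (u + dir r).1) / 2| = X at *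
  generalize |w.im - ((u.2 : ℝ) + (u + dir r).2) / 2| = Y at *
  rcases le_total 0 (cT u r w) with h | h
  · left
    refine ⟨h, ?_, ?_⟩ <;>
    · unfold cS cT at *
      rcases fin4c r with rfl | rfl | rfl | rfl <;>
        simp only [pt_re, pt_im, Int.cast_one, Int.cast_zero, Int.cast_neg, mul_one, mul_zero, add_zero, zero_add, mul_neg, sub_zero,
          zero_sub, sub_neg_eq_add, neg_neg, dir0, dir1, dir2, dir3, Prod.fst_add,
          Prod.snd_add] at * <;> push_cast at * <;> linarith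
  · right
    refine ⟨?_, ?_, ?_⟩ <;>
    · simp only [cS, cT] at h ⊢
      rcases fin4c r with rfl | rfl | rfl | rfl <;>
        simp only [f4_02, f4_12, f4_22, f4_32, pt_re, pt_im, Int.cast_one, Int.cast_zero, Int.cast_neg, mul_one, mul_zero, add_zero,
          zero_add, mul_neg, sub_zero, zero_sub, sub_neg_eq_add, neg_neg, dir0, dir1, dir2, dir3,
          Prod.fst_add, Prod.snd_add] at * <;> push_cast at * <;> linarith

/-- The triangle is in the diamond. -/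
theorem tri_sub_dm {δ : ℝ} (hδ : 0 < δ) {u : ℤ × ℤ} {r : Fin 4} {z : ℂ} (hz : sc δ z ∈ tri u r) :
    z ∈ Dm δ u (u + dir r) := by
  rw [mem_Dm hδ]
  generalize sc δ z = w at hz ⊢
  obtain ⟨h1, h2, h3⟩ := hz
  rcases abs_cases (w.re - ((u.1 : ℝ) + (u + dir r).1) / 2) with ⟨e1, -⟩ | ⟨e1, -⟩ <;>
    rcases abs_cases (w.im - ((u.2 : ℝ) + (u + dir r).2) / 2) with ⟨e2, -⟩ | ⟨e2, -⟩ <;>
    rw [e1, e2] <;>
  · clear e1 e2
    unfold cS cT at *
    rcases fin4c r with rfl | rfl | rfl | rfl <;>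
      simp only [pt_re, pt_im, Int.cast_one, Int.cast_zero, Int.cast_neg, mul_one, mul_zero, add_zero, zero_add, mul_neg, sub_zero,
        zero_sub, sub_neg_eq_add, neg_neg, dir0, dir1, dir2, dir3, Prod.fst_add,
        Prod.snd_add] at * <;> push_cast <;> linarith

end Vale.Agent.P167.H161.Cell
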